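import Vale.Agent.P019R.R0

/-!
# Abhyankar valuations: rational extensions
-/

namespace Vale.Agent.P019P

open Vale.Agent.P019

set_option linter.style.haveILetI false
set_option linter.unusedSectionVars false

open Polynomial Filter

section ab

variable {F : Type*} [Field F] {O : ValuationSubring F}

theorem rs_mem_kap {E : Subfield F} {e : F} (he : e ∈ E) (heO : e ∈ O) : rs O e ∈ rbar E O :=
  rs_mem_rbar he heO

theorem kap_mono {E E' : Subfield F} (h : E ≤ E') : rbar E O ≤ rbar E' O := rbar_mono h O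

theorem ab_sum_mem {ι : Type*} (s : Finset ι) (f : ι → F) (hf : ∀ i ∈ s, f i ∈ O) :
    ∑ i ∈ s, f i ∈ O ∧ rs O (∑ i ∈ s, f i) = ∑ i ∈ s, rs O (f i) := by
  classical
  induction s using Finset.induction_on with
  | empty => simp [rs_zero, zero_mem]
  | insert i s hi ih =>
    have h1 := ih fun j hj => hf j (Finset.mem_insert_of_mem hj)
    have h2 := hf i (Finset.mem_insert_self i s)
    rw [Finset.sum_insert hi, Finset.sum_insert hi]
    exact ⟨add_mem h2 h1.1, by rw [rs_add h2 h1.1, h1.2]⟩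

/-- Gauss valuations of polynomials. -/
theorem ab_gauss_poly {E : Subfield F} {y : F} (hy : y ∈ O)
    (htr : ¬ IsAlgebraic (rbar E O) (rs O y)) (P : E[X]) (hP : P ≠ 0) :
    ∃ c ∈ E, c ≠ 0 ∧ O.valuation (aeval y P * c) = 1 ∧
      rs O (aeval y P * c) ∈ Vale.Agent.P019.adj (rbar E O) (rs O y) := by
  classical
  obtain ⟨j, hj, hjmax⟩ := P.support.exists_max_image
    (fun i => O.valuation ((P.coeff i : E) : F)) (Polynomial.nonempty_support_iff.2 hP)
  have hj0 : P.coeff j ≠ 0 := mem_support_iff.1 hj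
  have hj0' : ((P.coeff j : E) : F) ≠ 0 := fun h => hj0 (Subtype.ext h)
  have hvj : O.valuation ((P.coeff j : E) : F) ≠ 0 := (Valuation.ne_zero_iff _).2 hj0'
  set c : F := ((P.coeff j : E) : F)⁻¹ with hc
  have hcE : c ∈ E := inv_mem (P.coeff j).2
  have hcoef : ∀ i, ((P.coeff i : E) : F) * c ∈ O := by
    intro i
    by_cases hi : P.coeff i = 0
    · rw [hi]
      simp [zero_mem]
    · have h1 := hjmax i (mem_support_iff.2 hi)
      rw [← O.valuation_le_one_iff, map_mul, hc, map_inv₀, ← div_eq_mul_inv]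
      exact div_le_one_of_le₀ h1 zero_le
  have heq : aeval y P * c = ∑ i ∈ Finset.range (P.natDegree + 1),
      (((P.coeff i : E) : F) * c) * y ^ i := by
    rw [aeval_eq_sum_range, Finset.sum_mul]
    refine Finset.sum_congr rfl fun i _ => ?_
    rw [Algebra.smul_def]
    change ((P.coeff i : E) : F) * y ^ i * c = _
    ring
  have hmem : ∀ i ∈ Finset.range (P.natDegree + 1),
      (((P.coeff i : E) : F) * c) * y ^ i ∈ O := fun i _ => mul_mem (hcoef i) (pow_mem hy i)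
  obtain ⟨h1, h2⟩ := ab_sum_mem _ _ hmem
  rw [← heq] at h1 h2
  have hk : ∀ i, rs O (((P.coeff i : E) : F) * c) ∈ rbar E O := fun i =>
    rs_mem_kap (mul_mem (P.coeff i).2 hcE) (hcoef i)
  let G : (rbar E O)[X] := ∑ i ∈ Finset.range (P.natDegree + 1), monomial i
    (⟨rs O (((P.coeff i : E) : F) * c), hk i⟩ : rbar E O)
  have hG : aeval (rs O y) G = rs O (aeval y P * c) := by
    rw [h2, map_sum]
    refine Finset.sum_congr rfl fun i _ => ?_
    rw [aeval_monomial, rs_mul (hcoef i) (pow_mem hy i), rs_pow hy]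
    rfl
  have hjr : j ∈ Finset.range (P.natDegree + 1) :=
    Finset.mem_range.2 (Nat.lt_succ_of_le (le_natDegree_of_mem_supp j hj))
  have hGc : G.coeff j = ⟨rs O (((P.coeff j : E) : F) * c), hk j⟩ := by
    simp only [G, finsetSum_coeff, coeff_monomial]
    rw [Finset.sum_ite_eq' (Finset.range (P.natDegree + 1)) j
      (fun i => (⟨rs O (((P.coeff i : E) : F) * c), hk i⟩ : rbar E O)), if_pos hjr]
  have hG0 : G ≠ 0 := by
    intro h0
    rw [h0, coeff_zero] at hGc
    have h3 := congrArg Subtype.val hGc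
    change (0 : IsLocalRing.ResidueField O) = rs O (((P.coeff j : E) : F) * c) at h3
    rw [hc, mul_inv_cancel₀ hj0', rs_one] at h3
    exact zero_ne_one h3
  have h4 : rs O (aeval y P * c) ≠ 0 := by
    rw [← hG]
    intro h0
    exact htr ⟨G, hG0, h0⟩
  refine ⟨c, hcE, inv_ne_zero hj0', (rs_ne_zero h1).1 h4, ?_⟩
  rw [h2]
  refine sum_mem fun i _ => ?_
  rw [rs_mul (hcoef i) (pow_mem hy i), rs_pow hy]
  exact mul_mem (Vale.Agent.P019.le_adj _ _ (hk i))
    (pow_mem (Vale.Agent.P019.mem_adj _ _) i)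

/-- Gauss valuations. -/
theorem ab_gauss {E : Subfield F} {y : F} (hy : y ∈ O)
    (htr : ¬ IsAlgebraic (rbar E O) (rs O y)) {z : F} (hz : z ∈ Vale.Agent.P019.adj E y)
    (hz0 : z ≠ 0) :
    ∃ c ∈ E, c ≠ 0 ∧ O.valuation (z * c) = 1 ∧
      rs O (z * c) ∈ Vale.Agent.P019.adj (rbar E O) (rs O y) := by
  obtain ⟨P, Q, hPQ⟩ := (IntermediateField.mem_adjoin_simple_iff _ _).1 (mem_adjoin_simple.2 hz)
  have hQy : aeval y Q ≠ 0 := by
    intro h
    rw [h, div_zero] at hPQ
    exact hz0 hPQ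
  have hPy : aeval y P ≠ 0 := by
    intro h
    rw [h, zero_div] at hPQ
    exact hz0 hPQ
  have hQ0 : Q ≠ 0 := by
    rintro rfl
    exact hQy (map_zero _)
  have hP0 : P ≠ 0 := by
    rintro rfl
    exact hPy (map_zero _)
  obtain ⟨a, ha, ha0, hav, har⟩ := ab_gauss_poly hy htr P hP0
  obtain ⟨b, hb, hb0, hbv, hbr⟩ := ab_gauss_poly hy htr Q hQ0
  have h1 : z * (a / b) = (aeval y P * a) * (aeval y Q * b)⁻¹ := by
    rw [hPQ]
    field_simp
  have h2 : O.valuation (aeval y Q * b)⁻¹ = 1 := by rw [map_inv₀, hbv, inv_one]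
  refine ⟨a / b, div_mem ha hb, div_ne_zero ha0 hb0, ?_, ?_⟩
  · rw [h1, map_mul, hav, h2, one_mul]
  · rw [h1, rs_mul (mem_of_val hav) (mem_of_val h2), rs_inv hbv]
    exact mul_mem har (inv_mem hbr)

/-- monomial valuations of polynomials. -/
theorem ab_mono_poly {E : Subfield F} {x : F} (hx0 : x ≠ 0)
    (hx : ∀ c ∈ E, c ≠ 0 → ∀ n : ℕ, 0 < n → O.valuation (c * x ^ n) ≠ 1) (P : E[X])
    (hP : P ≠ 0) :
    ∃ c ∈ E, c ≠ 0 ∧ ∃ n : ℕ, aeval x P ≠ 0 ∧ O.valuation (aeval x P / (c * x ^ n) - 1) < 1 := by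
  classical
  have hx0' : O.valuation x ≠ 0 := (Valuation.ne_zero_iff _).2 hx0
  have hsum : aeval x P = ∑ i ∈ P.support, ((P.coeff i : E) : F) * x ^ i := by
    rw [aeval_eq_sum_range, ← Finset.sum_subset (s₁ := P.support)]
    · refine Finset.sum_congr rfl fun i _ => ?_
      rw [Algebra.smul_def]
      rfl
    · intro i hi
      exact Finset.mem_range.2 (Nat.lt_succ_of_le (le_natDegree_of_mem_supp i hi))
    · intro i _ hi
      rw [notMem_support_iff.1 hi, zero_smul]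
  obtain ⟨j, hj, hjmax⟩ := P.support.exists_max_image
    (fun i => O.valuation (((P.coeff i : E) : F) * x ^ i)) (Polynomial.nonempty_support_iff.2 hP)
  have hne : ∀ i ∈ P.support, ((P.coeff i : E) : F) ≠ 0 := fun i hi h =>
    mem_support_iff.1 hi (Subtype.ext h)
  have hmono : ∀ i k : ℕ, i ∈ P.support → k ∈ P.support → i < k →
      O.valuation (((P.coeff i : E) : F) * x ^ i) ≠ O.valuation (((P.coeff k : E) : F) * x ^ k) := by
    intro i k hi hk hik h
    have h1 : O.valuation (((P.coeff k : E) : F) / ((P.coeff i : E) : F) * x ^ (k - i)) = 1 := by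
      have h2 : ((P.coeff k : E) : F) / ((P.coeff i : E) : F) * x ^ (k - i) =
          (((P.coeff k : E) : F) * x ^ k) / (((P.coeff i : E) : F) * x ^ i) := by
        have h3 : x ^ k = x ^ (k - i) * x ^ i := by
          rw [← pow_add, Nat.sub_add_cancel hik.le]
        have h4 := hne i hi
        rw [h3]
        field_simp
      rw [h2, map_div₀, ← h, div_self]
      exact (Valuation.ne_zero_iff _).2 (mul_ne_zero (hne i hi) (pow_ne_zero _ hx0))
    exact hx _ (div_mem (P.coeff k).2 (P.coeff i).2) (div_ne_zero (hne k hk) (hne i hi)) _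
      (Nat.sub_pos_of_lt hik) h1
  have hlt : ∀ i ∈ P.support.erase j, O.valuation (((P.coeff i : E) : F) * x ^ i) <
      O.valuation (((P.coeff j : E) : F) * x ^ j) := by
    intro i hi
    rw [Finset.mem_erase] at hi
    refine lt_of_le_of_ne (hjmax i hi.2) ?_
    rcases lt_or_gt_of_ne hi.1 with h | h
    · exact hmono i j hi.2 hj h
    · exact fun h' => hmono j i hj hi.2 h h'.symm
  have hcj := hne j hj
  have hcx : ((P.coeff j : E) : F) * x ^ j ≠ 0 := mul_ne_zero hcj (pow_ne_zero _ hx0)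
  have hvcx : O.valuation (((P.coeff j : E) : F) * x ^ j) ≠ 0 := (Valuation.ne_zero_iff _).2 hcx
  have h1 := Valuation.map_sum_lt O.valuation hvcx hlt
  have h2 : aeval x P / (((P.coeff j : E) : F) * x ^ j) - 1 =
      (∑ i ∈ P.support.erase j, ((P.coeff i : E) : F) * x ^ i) /
        (((P.coeff j : E) : F) * x ^ j) := by
    rw [hsum, ← Finset.add_sum_erase _ _ hj, add_div, div_self hcx, add_sub_cancel_left]
  have h3 : O.valuation (aeval x P / (((P.coeff j : E) : F) * x ^ j) - 1) < 1 := by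
    rw [h2, map_div₀]
    exact (div_lt_one₀ (zero_lt_iff.2 hvcx)).2 h1
  refine ⟨((P.coeff j : E) : F), (P.coeff j).2, hcj, j, ?_, h3⟩
  intro h0
  rw [h0, zero_div, zero_sub, Valuation.map_neg, map_one] at h3
  exact lt_irrefl _ h3

theorem ab_sub_one {u : F} (h : O.valuation (u - 1) < 1) : O.valuation u = 1 ∧ rs O u = 1 := by
  have h1 : O.valuation u = 1 := by
    have h2 : u = 1 + (u - 1) := by ring
    rw [h2]
    exact Valuation.map_one_add_of_lt _ h
  refine ⟨h1, ?_⟩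
  rw [← rs_one (W := O), rs_eq (mem_of_val h1) (one_mem O)]
  exact h

/-- monomial valuations. -/
theorem ab_mono {E : Subfield F} {x : F} (hx0 : x ≠ 0)
    (hx : ∀ c ∈ E, c ≠ 0 → ∀ n : ℕ, 0 < n → O.valuation (c * x ^ n) ≠ 1) {z : F}
    (hz : z ∈ Vale.Agent.P019.adj E x) (hz0 : z ≠ 0) :
    ∃ c ∈ E, c ≠ 0 ∧ ∃ n : ℤ, O.valuation (z * c * x ^ n) = 1 ∧ rs O (z * c * x ^ n) = 1 := by
  obtain ⟨P, Q, hPQ⟩ := (IntermediateField.mem_adjoin_simple_iff _ _).1 (mem_adjoin_simple.2 hz)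
  have hQy : aeval x Q ≠ 0 := by
    intro h
    rw [h, div_zero] at hPQ
    exact hz0 hPQ
  have hPy : aeval x P ≠ 0 := by
    intro h
    rw [h, zero_div] at hPQ
    exact hz0 hPQ
  have hQ0 : Q ≠ 0 := by
    rintro rfl
    exact hQy (map_zero _)
  have hP0 : P ≠ 0 := by
    rintro rfl
    exact hPy (map_zero _)
  obtain ⟨a, ha, ha0, n, -, hav⟩ := ab_mono_poly hx0 hx P hP0
  obtain ⟨b, hb, hb0, m, -, hbv⟩ := ab_mono_poly hx0 hx Q hQ0
  obtain ⟨h1, h2⟩ := ab_sub_one hav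
  obtain ⟨h3, h4⟩ := ab_sub_one hbv
  have h5 : z * (b / a) * x ^ ((m : ℤ) - n) =
      (aeval x P / (a * x ^ n)) * (aeval x Q / (b * x ^ m))⁻¹ := by
    rw [hPQ, zpow_sub₀ hx0, zpow_natCast, zpow_natCast]
    have h6 := pow_ne_zero n hx0
    have h7 := pow_ne_zero m hx0
    field_simp
  have h6 : O.valuation (aeval x Q / (b * x ^ m))⁻¹ = 1 := by rw [map_inv₀, h3, inv_one]
  refine ⟨b / a, div_mem hb ha, div_ne_zero hb0 ha0, (m : ℤ) - n, ?_, ?_⟩
  · rw [h5, map_mul, h1, h6, one_mul]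
  · rw [h5, rs_mul (mem_of_val h1) (mem_of_val h6), rs_inv h3, h2, h4, inv_one, one_mul]

/-- the elements of `E` have the values of elements of `l`. -/
def AbV (O : ValuationSubring F) (l E : Subfield F) : Prop :=
  ∀ z ∈ E, z ≠ 0 → ∃ c ∈ l, c ≠ 0 ∧ O.valuation (z * c) = 1

theorem AbV.refl (l : Subfield F) : AbV O l l := fun z hz hz0 =>
  ⟨z⁻¹, inv_mem hz, inv_ne_zero hz0, by rw [mul_inv_cancel₀ hz0, map_one]⟩

theorem AbV.gauss {l E : Subfield F} (h : AbV O l E) {y : F} (hy : y ∈ O)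
    (htr : ¬ IsAlgebraic (rbar E O) (rs O y)) : AbV O l (Vale.Agent.P019.adj E y) := by
  intro z hz hz0
  obtain ⟨c, hc, hc0, hcv, -⟩ := ab_gauss hy htr hz hz0
  obtain ⟨d, hd, hd0, hdv⟩ := h c hc hc0
  refine ⟨d⁻¹, inv_mem hd, inv_ne_zero hd0, ?_⟩
  have h1 : z * d⁻¹ = (z * c) * (c * d)⁻¹ := by
    field_simp
  rw [h1, map_mul, hcv, map_inv₀, hdv, inv_one, one_mul]

theorem kap_gauss {E : Subfield F} {y : F} (hy : y ∈ O)
    (htr : ¬ IsAlgebraic (rbar E O) (rs O y)) :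
    rbar (Vale.Agent.P019.adj E y) O = Vale.Agent.P019.adj (rbar E O) (rs O y) := by
  apply le_antisymm
  · rintro _ ⟨z, hz, hzO, rfl⟩
    by_cases hz1 : rs O z = 0
    · rw [hz1]
      exact zero_mem _
    have hzv := (rs_ne_zero hzO).1 hz1
    have hz0 : z ≠ 0 := by
      rintro rfl
      exact hz1 rs_zero
    obtain ⟨c, hc, hc0, hcv, hcr⟩ := ab_gauss hy htr hz hz0
    have hc1 : O.valuation c = 1 := by rwa [map_mul, hzv, one_mul] at hcv
    rw [rs_mul hzO (mem_of_val hc1)] at hcr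
    have h1 : rs O c ∈ Vale.Agent.P019.adj (rbar E O) (rs O y) :=
      Vale.Agent.P019.le_adj _ _ (rs_mem_kap hc (mem_of_val hc1))
    have h2 : rs O c ≠ 0 := (rs_ne_zero (mem_of_val hc1)).2 hc1
    have h3 : rs O z = (rs O z * rs O c) * (rs O c)⁻¹ := by
      rw [mul_inv_cancel_right₀ h2]
    rw [h3]
    exact mul_mem hcr (inv_mem h1)
  · exact Vale.Agent.P019.adj_le (kap_mono (Vale.Agent.P019.le_adj _ _))
      (rs_mem_kap (Vale.Agent.P019.mem_adj _ _) hy)

theorem kap_mono_ext {E : Subfield F} {x : F} (hx0 : x ≠ 0)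
    (hx : ∀ c ∈ E, c ≠ 0 → ∀ n : ℕ, 0 < n → O.valuation (c * x ^ n) ≠ 1) :
    rbar (Vale.Agent.P019.adj E x) O = rbar E O := by
  apply le_antisymm
  · rintro _ ⟨z, hz, hzO, rfl⟩
    by_cases hz1 : rs O z = 0
    · rw [hz1]
      exact zero_mem _
    have hzv := (rs_ne_zero hzO).1 hz1
    have hz0 : z ≠ 0 := by
      rintro rfl
      exact hz1 rs_zero
    obtain ⟨c, hc, hc0, n, hcv, hcr⟩ := ab_mono hx0 hx hz hz0
    have hn : n = 0 := by
      rw [mul_assoc, map_mul, hzv, one_mul] at hcv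
      rcases lt_trichotomy n 0 with h | h | h
      · exfalso
        obtain ⟨m, hm⟩ := Int.eq_ofNat_of_zero_le (show 0 ≤ -n by omega)
        have hn : n = -(m : ℤ) := by omega
        refine hx c⁻¹ (inv_mem hc) (inv_ne_zero hc0) m (by omega) ?_
        have h1 : c⁻¹ * x ^ m = (c * x ^ n)⁻¹ := by
          rw [hn, zpow_neg, zpow_natCast, mul_inv, inv_inv]
        rw [h1, map_inv₀, hcv, inv_one]
      · exact h
      · exfalso
        obtain ⟨m, rfl⟩ := Int.eq_ofNat_of_zero_le h.le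
        rw [zpow_natCast] at hcv
        exact hx c hc hc0 m (by omega) hcv
    rw [hn, zpow_zero, mul_one] at hcv hcr
    have hc1 : O.valuation c = 1 := by rwa [map_mul, hzv, one_mul] at hcv
    rw [rs_mul hzO (mem_of_val hc1)] at hcr
    have h2 : rs O c ≠ 0 := (rs_ne_zero (mem_of_val hc1)).2 hc1
    rw [eq_inv_of_mul_eq_one_left hcr]
    exact inv_mem (rs_mem_kap hc (mem_of_val hc1))
  · exact kap_mono (Vale.Agent.P019.le_adj _ _)

end ab

end Vale.Agent.P019P
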