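import Vale.Agent.P019R.AbA

/-!
# Abhyankar valuations: finite extensions
-/

namespace Vale.Agent.P019P

open Vale.Agent.P019

set_option linter.style.haveILetI false
set_option linter.unusedSectionVars false

open Polynomial Filter

section abf

variable {F : Type*} [Field F] {O : ValuationSubring F}

/-- independence of the elements whose residues are independent. -/
theorem ab_indep {E : Subfield F} {ι : Type*} [Fintype ι] {z : ι → F} (hz : ∀ i, z i ∈ O)
    (h : LinearIndependent (rbar E O) fun i => rs O (z i)) : LinearIndependent E z := by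
  rw [Fintype.linearIndependent_iff] at h ⊢
  intro a ha
  by_contra hcon
  push Not at hcon
  obtain ⟨i1, hi1⟩ := hcon
  obtain ⟨i0, -, hmax⟩ := Finset.univ.exists_max_image (fun i => O.valuation (a i : F))
    ⟨i1, Finset.mem_univ _⟩
  have ha0 : (a i0 : F) ≠ 0 := by
    intro h0
    have h1 := hmax i1 (Finset.mem_univ _)
    rw [h0, map_zero] at h1
    exact hi1 (Subtype.ext ((Valuation.zero_iff _).1 (le_antisymm h1 zero_le)))
  have hv0 : 0 < O.valuation (a i0 : F) := zero_lt_iff.2 ((Valuation.ne_zero_iff _).2 ha0)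
  have hb : ∀ i, (a i : F) / a i0 ∈ O := by
    intro i
    rw [← O.valuation_le_one_iff, map_div₀]
    exact (div_le_one₀ hv0).2 (hmax i (Finset.mem_univ _))
  have hsum : ∑ i, ((a i : F) / a i0) * z i = 0 := by
    have h1 : ∑ i, ((a i : F) / a i0) * z i = (∑ i, (a i : F) * z i) / a i0 := by
      rw [Finset.sum_div]
      exact Finset.sum_congr rfl fun i _ => by ring
    rw [h1]
    have h2 : ∑ i, (a i : F) * z i = 0 := ha
    rw [h2, zero_div]
  have h2 := (ab_sum_mem (O := O) Finset.univ (fun i => ((a i : F) / a i0) * z i)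
    fun i _ => mul_mem (hb i) (hz i)).2
  rw [hsum, rs_zero] at h2
  have hk : ∀ i, rs O ((a i : F) / a i0) ∈ rbar E O := fun i =>
    rs_mem_kap (div_mem (a i).2 (a i0).2) (hb i)
  have h3 := h (fun i => ⟨rs O ((a i : F) / a i0), hk i⟩) (by
    rw [h2]
    refine Finset.sum_congr rfl fun i _ => ?_
    rw [rs_mul (hb i) (hz i)]
    rfl) i0
  have h4 : rs O ((a i0 : F) / a i0) = 0 := congrArg Subtype.val h3
  rw [div_self ha0, rs_one] at h4
  exact one_ne_zero h4

/-- the residues of a subfield as an algebra. -/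
noncomputable def abK (O : ValuationSubring F) {E L : Subfield F} (hL : E ≤ L) :
    Subalgebra (rbar E O) (IsLocalRing.ResidueField O) where
  carrier := {c | ∃ z ∈ L, z ∈ O ∧ rs O z = c}
  mul_mem' := by
    rintro _ _ ⟨x, hx, hxO, rfl⟩ ⟨y, hy, hyO, rfl⟩
    exact ⟨x * y, mul_mem hx hy, mul_mem hxO hyO, rs_mul hxO hyO⟩
  add_mem' := by
    rintro _ _ ⟨x, hx, hxO, rfl⟩ ⟨y, hy, hyO, rfl⟩
    exact ⟨x + y, add_mem hx hy, add_mem hxO hyO, rs_add hxO hyO⟩
  algebraMap_mem' := by
    rintro ⟨c, hc⟩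
    exact kap_mono hL hc

theorem ab_le {E : Subfield F} (L : IntermediateField E F) : E ≤ L.toSubfield := fun z hz =>
  L.algebraMap_mem ⟨z, hz⟩

/-- the residue extension is finite. -/
theorem ab_fin {E : Subfield F} (L : IntermediateField E F) [FiniteDimensional E L] :
    (Subalgebra.toSubmodule (abK O (ab_le L))).FG := by
  classical
  have h1 : Module.rank (rbar E O) (Subalgebra.toSubmodule (abK O (ab_le L))) ≤
      (Module.finrank E L : ℕ) := by
    refine rank_le fun s hs => ?_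
    have hex : ∀ i : s, ∃ z ∈ L, z ∈ O ∧ rs O z =
        ((i : Subalgebra.toSubmodule (abK O (ab_le L))) : IsLocalRing.ResidueField O) :=
      fun i => (i : Subalgebra.toSubmodule (abK O (ab_le L))).2
    choose w hwL hwO hw using hex
    have h2 : LinearIndependent (rbar E O) fun i => rs O (w i) := by
      have h3 := hs.map' (Subalgebra.toSubmodule (abK O (ab_le L))).subtype
        (Submodule.ker_subtype _)
      have h4 : (fun i => rs O (w i)) = (Subalgebra.toSubmodule (abK O (ab_le L))).subtype ∘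
          fun i : s => (i : Subalgebra.toSubmodule (abK O (ab_le L))) := by
        funext i
        exact hw i
      rw [h4]
      exact h3
    have h5 := ab_indep hwO h2
    have h6 : LinearIndependent E (fun i => (⟨w i, hwL i⟩ : L)) :=
      LinearIndependent.of_comp L.val.toLinearMap h5
    have h7 := h6.fintype_card_le_finrank
    rwa [Fintype.card_coe] at h7
  have h8 : Module.rank (rbar E O) (Subalgebra.toSubmodule (abK O (ab_le L))) < Cardinal.aleph0 :=
    lt_of_le_of_lt h1 (Cardinal.natCast_lt_aleph0)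
  exact Module.Finite.iff_fg.1 (Module.rank_lt_aleph0_iff.1 h8)

/-- the values of the elements of a finite extension. -/
theorem ab_pow {E : Subfield F} (L : IntermediateField E F) [FiniteDimensional E L] {z : F}
    (hz : z ∈ L) (hz0 : z ≠ 0) :
    ∃ c ∈ E, c ≠ 0 ∧ O.valuation z ^ (Module.finrank E L).factorial = O.valuation c := by
  set P := minpoly E (⟨z, hz⟩ : L) with hP
  have hint : IsIntegral E (⟨z, hz⟩ : L) := Algebra.IsIntegral.isIntegral _
  haveI : Module.Free E L := Module.Free.of_divisionRing _ _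
  have hdeg : P.natDegree ≤ Module.finrank E L := minpoly.natDegree_le _
  have hmon : P.Monic := minpoly.monic hint
  have hroot : ∑ i ∈ Finset.range (P.natDegree + 1), (P.coeff i : F) * z ^ i = 0 := by
    have h1 : aeval (⟨z, hz⟩ : L) P = 0 := minpoly.aeval _ _
    rw [aeval_eq_sum_range] at h1
    have h2 := congrArg (fun x : L => (x : F)) h1
    have h3 : ∑ i ∈ Finset.range (P.natDegree + 1), algebraMap E F (P.coeff i) * z ^ i = 0 := by
      simpa [IntermediateField.coe_sum, Algebra.smul_def] using h2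
    exact h3
  have key : ∀ i j : ℕ, i < j → j ≤ P.natDegree → (P.coeff i : F) ≠ 0 → (P.coeff j : F) ≠ 0 →
      O.valuation ((P.coeff i : F) * z ^ i) = O.valuation ((P.coeff j : F) * z ^ j) →
      ∃ c ∈ E, c ≠ 0 ∧ O.valuation z ^ (Module.finrank E L).factorial = O.valuation c := by
    intro i j hij hj hi0 hj0 h
    have h1 := rsb_cancel hj0 hz0 hij h
    have hdvd : j - i ∣ (Module.finrank E L).factorial :=
      Nat.dvd_factorial (by omega) (by omega)
    obtain ⟨k, hk⟩ := hdvd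
    refine ⟨((P.coeff i : F) / P.coeff j) ^ k, pow_mem (div_mem (P.coeff i).2 (P.coeff j).2) k,
      pow_ne_zero _ (div_ne_zero hi0 hj0), ?_⟩
    rw [hk, pow_mul, h1, map_pow]
  obtain ⟨i, hi, j, hj, hij, hi0, h⟩ := rsb_two (O := O) (Finset.range (P.natDegree + 1))
    (fun i => (P.coeff i : F) * z ^ i) hroot ⟨P.natDegree, Finset.self_mem_range_succ _, by
      rw [hmon.coeff_natDegree]
      exact mul_ne_zero one_ne_zero (pow_ne_zero _ hz0)⟩
  rw [Finset.mem_range, Nat.lt_succ_iff] at hi hj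
  have hj0 : (P.coeff j : F) * z ^ j ≠ 0 := by
    intro h0
    rw [h0, map_zero] at h
    exact hi0 ((Valuation.zero_iff _).1 h)
  have hi1 : (P.coeff i : F) ≠ 0 := left_ne_zero_of_mul hi0
  have hj1 : (P.coeff j : F) ≠ 0 := left_ne_zero_of_mul hj0
  rcases lt_or_gt_of_ne hij with hlt | hgt
  · exact key i j hlt hj hi1 hj1 h
  · exact key j i hgt hi hj1 hi1 h.symm

/-- values modulo the constants are discrete. -/
theorem ab_unif {l L : Subfield F} {X : F} (hX0 : X ≠ 0)
    (hX : ∀ c ∈ l, c ≠ 0 → ∀ n : ℕ, 0 < n → O.valuation (c * X ^ n) ≠ 1)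
    (hlL : l ≤ L) (hXL : X ∈ L) {M : ℕ} (hM : 0 < M)
    (h : ∀ z ∈ L, z ≠ 0 → ∃ c ∈ l, c ≠ 0 ∧ ∃ r : ℤ, O.valuation (z * c) ^ M = O.valuation X ^ r) :
    ∃ π ∈ L, π ≠ 0 ∧ O.valuation π < 1 ∧
      (∀ c ∈ l, c ≠ 0 → ∀ n : ℕ, 0 < n → O.valuation (c * π ^ n) ≠ 1) ∧
      ∀ z ∈ L, z ≠ 0 → ∃ c ∈ l, c ≠ 0 ∧ ∃ k : ℤ, O.valuation (z * c * π ^ k) = 1 := by
  have hx0 : O.valuation X ≠ 0 := (Valuation.ne_zero_iff _).2 hX0
  let H : AddSubgroup ℤ :=
    { carrier := {r | ∃ z ∈ L, z ≠ 0 ∧ O.valuation z ^ M = O.valuation X ^ r}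
      zero_mem' := ⟨1, one_mem _, one_ne_zero, by simp⟩
      add_mem' := by
        rintro a b ⟨z, hz, hz0, hza⟩ ⟨w, hw, hw0, hwb⟩
        exact ⟨z * w, mul_mem hz hw, mul_ne_zero hz0 hw0, by
          rw [map_mul, mul_pow, hza, hwb, zpow_add₀ hx0]⟩
      neg_mem' := by
        rintro a ⟨z, hz, hz0, hza⟩
        exact ⟨z⁻¹, inv_mem hz, inv_ne_zero hz0, by
          rw [map_inv₀, inv_pow, hza, zpow_neg]⟩ }
  obtain ⟨d, hd⟩ := Int.subgroup_cyclic H
  have hMH : (M : ℤ) ∈ H := ⟨X, hXL, hX0, by rw [zpow_natCast]⟩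
  have hmem : ∀ r ∈ H, ∃ k : ℤ, r = k * d := by
    intro r hr
    rw [hd, AddSubgroup.mem_closure_singleton] at hr
    obtain ⟨k, hk⟩ := hr
    exact ⟨k, by rw [← hk, smul_eq_mul]⟩
  have hdH : d ∈ H := by
    rw [hd]
    exact AddSubgroup.subset_closure rfl
  have hd0 : d ≠ 0 := by
    rintro rfl
    obtain ⟨k, hk⟩ := hmem _ hMH
    rw [mul_zero] at hk
    omega
  obtain ⟨π, hπL, hπ0, hπ⟩ := hdH
  have hπv : O.valuation π ≠ 0 := (Valuation.ne_zero_iff _).2 hπ0
  -- no power of the uniformizer has the value of a constant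
  have hgen : ∀ c ∈ l, c ≠ 0 → ∀ n : ℕ, 0 < n → O.valuation (c * π ^ n) ≠ 1 := by
    intro c hc hc0 n hn h1
    have h2 : O.valuation c ^ M * O.valuation X ^ (d * n) = 1 := by
      rw [map_mul, map_pow] at h1
      rw [zpow_mul, ← hπ, zpow_natCast, ← pow_mul, mul_comm M n, pow_mul, ← mul_pow, h1, one_pow]
    rcases lt_or_gt_of_ne hd0 with hlt | hgt
    · obtain ⟨a, ha⟩ := Int.eq_ofNat_of_zero_le (show 0 ≤ -(d * n) by
        have : d * n ≤ 0 := mul_nonpos_of_nonpos_of_nonneg hlt.le (by positivity)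
        omega)
      have ha' : d * n = -(a : ℤ) := by omega
      have ha0 : 0 < a := by
        rcases Nat.eq_zero_or_pos a with h3 | h3
        · exfalso
          rw [h3] at ha'
          have h4 : d * (n : ℤ) = 0 := by simpa using ha'
          rcases mul_eq_zero.1 h4 with h5 | h5
          · exact hd0 h5
          · omega
        · exact h3
      refine hX (c ^ M)⁻¹ (inv_mem (pow_mem hc M)) (inv_ne_zero (pow_ne_zero _ hc0)) a ha0 ?_
      rw [ha', zpow_neg, zpow_natCast] at h2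
      rw [map_mul, map_inv₀, map_pow, map_pow]
      have h3 : (O.valuation c ^ M)⁻¹ * O.valuation X ^ a =
          (O.valuation c ^ M * (O.valuation X ^ a)⁻¹)⁻¹ := by
        rw [mul_inv, inv_inv]
      rw [h3, h2, inv_one]
    · obtain ⟨a, ha⟩ := Int.eq_ofNat_of_zero_le (show 0 ≤ d * n by positivity)
      have ha0 : 0 < a := by
        rcases Nat.eq_zero_or_pos a with h3 | h3
        · exfalso
          rw [h3] at ha
          have h4 : d * (n : ℤ) = 0 := by simpa using ha
          rcases mul_eq_zero.1 h4 with h5 | h5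
          · exact hd0 h5
          · omega
        · exact h3
      refine hX (c ^ M) (pow_mem hc M) (pow_ne_zero _ hc0) a ha0 ?_
      rw [ha] at h2
      change O.valuation c ^ M * O.valuation X ^ (a : ℤ) = 1 at h2
      rw [zpow_natCast] at h2
      rw [map_mul, map_pow, map_pow, h2]
  have hrep : ∀ z ∈ L, z ≠ 0 → ∃ c ∈ l, c ≠ 0 ∧ ∃ k : ℤ, O.valuation (z * c * π ^ k) = 1 := by
    intro z hz hz0
    obtain ⟨c, hc, hc0, r, hr⟩ := h z hz hz0
    obtain ⟨k, hk⟩ := hmem r ⟨z * c, mul_mem hz (hlL hc), mul_ne_zero hz0 hc0, hr⟩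
    refine ⟨c, hc, hc0, -k, ?_⟩
    have h1 : O.valuation (z * c * π ^ (-k)) ^ M = 1 := by
      rw [map_mul, mul_pow, hr, map_zpow₀, ← zpow_natCast (O.valuation π ^ (-k)), ← zpow_mul,
        mul_comm (-k), zpow_mul, zpow_natCast, hπ, ← zpow_mul, ← zpow_add₀ hx0, hk]
      have : k * d + d * -k = 0 := by ring
      rw [this, zpow_zero]
    exact (pow_eq_one_iff_of_nonneg zero_le hM.ne').1 h1
  have hne1 : O.valuation π ≠ 1 := by
    intro h1
    refine hgen 1 (one_mem _) one_ne_zero 1 one_pos ?_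
    rw [one_mul, pow_one, h1]
  rcases lt_or_gt_of_ne hne1 with hlt | hgt
  · exact ⟨π, hπL, hπ0, hlt, hgen, hrep⟩
  · refine ⟨π⁻¹, inv_mem hπL, inv_ne_zero hπ0, ?_, fun c hc hc0 n hn h1 => ?_,
      fun z hz hz0 => ?_⟩
    · rw [map_inv₀]
      exact inv_lt_one_of_one_lt₀ hgt
    · refine hgen c⁻¹ (inv_mem hc) (inv_ne_zero hc0) n hn ?_
      have h2 : c⁻¹ * π ^ n = (c * π⁻¹ ^ n)⁻¹ := by
        rw [mul_inv, inv_pow, inv_inv]
      rw [h2, map_inv₀, h1, inv_one]
    · obtain ⟨c, hc, hc0, k, hk⟩ := hrep z hz hz0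
      refine ⟨c, hc, hc0, -k, ?_⟩
      rw [inv_zpow, zpow_neg, inv_inv]
      exact hk

end abf

end Vale.Agent.P019P
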