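import Vale.Agent.P019R.AbB
import Vale.Agent.P019Q.E0

/-!
# Abhyankar valuations
-/

namespace Vale.Agent.P019P

open Vale.Agent.P019

set_option linter.style.haveILetI false
set_option linter.unusedSectionVars false

open Polynomial Filter

section abc0

variable {F : Type*} [Field F]

/-- the subfield `k(B)`. -/
def gs0 (k : Subfield F) (B : Finset F) : Subfield F := k ⊔ Subfield.closure (B : Set F)

theorem gs0_empty (k : Subfield F) : gs0 k ∅ = k := by
  rw [gs0, Finset.coe_empty, Subfield.closure_empty, sup_bot_eq]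

theorem le_gs0 (k : Subfield F) (B : Finset F) : k ≤ gs0 k B := le_sup_left

theorem mem_gs0 {k : Subfield F} {B : Finset F} {x : F} (hx : x ∈ B) : x ∈ gs0 k B :=
  (le_sup_right : Subfield.closure (B : Set F) ≤ gs0 k B) (Subfield.subset_closure hx)

theorem gs0_le {k E : Subfield F} {B : Finset F} (h : k ≤ E) (hB : ∀ x ∈ B, x ∈ E) :
    gs0 k B ≤ E := sup_le h (Subfield.closure_le.2 fun x hx => hB x hx)

theorem gs0_insert [DecidableEq F] (k : Subfield F) (B : Finset F) (v : F) :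
    gs0 k (insert v B) = Vale.Agent.P019.adj (gs0 k B) v := by
  apply le_antisymm
  · refine gs0_le ((le_gs0 k B).trans (Vale.Agent.P019.le_adj _ _)) fun x hx => ?_
    rcases Finset.mem_insert.1 hx with rfl | hx
    · exact Vale.Agent.P019.mem_adj _ _
    · exact Vale.Agent.P019.le_adj _ _ (mem_gs0 hx)
  · exact Vale.Agent.P019.adj_le (gs0_le (le_gs0 _ _) fun x hx =>
      mem_gs0 (Finset.mem_insert_of_mem hx)) (mem_gs0 (Finset.mem_insert_self _ _))

theorem gs0_alg {k : Subfield F} {B : Finset F} {z : F} :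
    IsAlgebraic (gsp k B) z ↔ IsAlgebraic (gs0 k B) z := isAlgebraic_pf

/-- images of algebraic elements. -/
theorem ab_alg_map {A Ω : Type*} [Field A] [Field Ω] (ι : A →+* Ω) {E : Subfield A} {x : A}
    (h : IsAlgebraic E x) : IsAlgebraic (E.map ι) (ι x) := by
  obtain ⟨P, hP0, hP⟩ := h
  let f : E →+* E.map ι :=
    { toFun := fun y => ⟨ι y, ⟨y, y.2, rfl⟩⟩
      map_one' := Subtype.ext (map_one ι)
      map_mul' := fun a b => Subtype.ext (map_mul ι _ _)
      map_zero' := Subtype.ext (map_zero ι)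
      map_add' := fun a b => Subtype.ext (map_add ι _ _) }
  refine ⟨P.map f, ?_, ?_⟩
  · rwa [Ne, Polynomial.map_eq_zero_iff f.injective]
  · rw [aeval_def, eval₂_map]
    have h1 : (algebraMap (E.map ι) Ω).comp f = ι.comp (algebraMap E A) := by
      ext y
      rfl
    rw [h1, ← hom_eval₂, ← aeval_def, hP, map_zero]

/-- elements with independent residues are independent. -/
theorem ab_lift_alg {O : ValuationSubring F} {E : Subfield F} {y : F} (hy : y ∈ O)
    (htr : ¬ IsAlgebraic (rbar E O) (rs O y)) : ¬ IsAlgebraic E y := by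
  rintro ⟨P, hP0, hP⟩
  obtain ⟨c, -, -, h, -⟩ := ab_gauss_poly hy htr P hP0
  rw [hP, zero_mul, map_zero] at h
  exact zero_ne_one h

theorem ab_expchar (O : ValuationSubring F) {Ω : Type*} [Field Ω]
    (ι : IsLocalRing.ResidueField O →+* Ω) (m : ℕ) :
    ∃ m' : ℕ, ringExpChar F ^ m = ringExpChar Ω ^ m' := by
  rcases CharP.exists F with ⟨p, hp⟩
  have h1 : ringExpChar F = max p 1 := by rw [ringExpChar, ringChar.eq F p]
  rcases CharP.char_is_prime_or_zero F p with h2 | h2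
  · refine ⟨m, ?_⟩
    have h3 : ringExpChar F = p := by
      rw [h1]
      exact max_eq_left h2.one_lt.le
    have h4 : (p : O) = 0 := by
      apply Subtype.ext
      have h5 : ((p : O) : F) = (p : F) := map_natCast O.subtype p
      rw [h5, CharP.cast_eq_zero]
      rfl
    have h5 : (p : IsLocalRing.ResidueField O) = 0 := by
      have h6 := congrArg (IsLocalRing.residue O) h4
      rwa [map_natCast, map_zero] at h6
    have h6 : (p : Ω) = 0 := by
      have h7 := congrArg ι h5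
      rwa [map_natCast, map_zero] at h7
    have h7 : ringExpChar Ω = p := by
      rw [ringExpChar, CharP.ringChar_of_prime_eq_zero h2 h6]
      exact max_eq_left h2.one_lt.le
    rw [h3, h7]
  · refine ⟨0, ?_⟩
    rw [h1, h2]
    simp

end abc0

section indp

variable {F : Type*} [Field F]

/-- independence in terms of the honest subfields. -/
theorem ab_indp_iff {k : Subfield F} {B : Finset F} :
    Indp k B ↔ ∀ S ⊆ B, ∀ v ∈ B, v ∉ S → ¬ IsAlgebraic (gs0 k S) v := by
  constructor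
  · intro h S hS v hv hvS h1
    exact h S hS v hv hvS (gs0_alg.2 h1)
  · intro h S hS v hv hvS h1
    exact h S hS v hv hvS (gs0_alg.1 h1)

theorem gs0_mono (k : Subfield F) {B B' : Finset F} (h : B ⊆ B') : gs0 k B ≤ gs0 k B' :=
  gs0_le (le_gs0 _ _) fun _ hx => mem_gs0 (h hx)

/-- adding an element (arbitrary fields). -/
theorem ab_indp_insert [DecidableEq F] {k : Subfield F} {B : Finset F} (h : Indp k B) {v : F}
    (hv : ¬ IsAlgebraic (gs0 k B) v) : Indp k (insert v B) := by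
  rw [ab_indp_iff] at h ⊢
  intro S hS w hw hwS hal
  by_cases hvS : v ∈ S
  · have hwv : w ≠ v := fun h1 => hwS (h1 ▸ hvS)
    have hwB : w ∈ B := (Finset.mem_insert.1 hw).resolve_left hwv
    have hS' : S.erase v ⊆ B := fun x hx => by
      rw [Finset.mem_erase] at hx
      exact (Finset.mem_insert.1 (hS hx.2)).resolve_left hx.1
    have hw' : ¬ IsAlgebraic (gs0 k (S.erase v)) w :=
      h _ hS' w hwB fun h1 => hwS (Finset.mem_of_mem_erase h1)
    have h1 : S = Insert.insert v (S.erase v) := (Finset.insert_erase hvS).symm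
    rw [h1, gs0_insert] at hal
    have h2 := Vale.Agent.P019.exchange hw' hal
    rw [← gs0_insert] at h2
    exact hv (isAlgebraic_mono (gs0_mono k (Finset.insert_subset hwB hS')) h2)
  · have hSB : S ⊆ B := fun x hx =>
      (Finset.mem_insert.1 (hS hx)).resolve_left fun h1 => hvS (h1 ▸ hx)
    rcases Finset.mem_insert.1 hw with rfl | hw
    · exact hv (isAlgebraic_mono (gs0_mono k hSB) hal)
    · exact h S hSB w hw hwS hal

end indp

section chain

variable {F : Type*} [Field F] {O : ValuationSubring F}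

/-- lifts of independent residues. -/
theorem ab_chain (l : Subfield F) {B : Finset (IsLocalRing.ResidueField O)}
    (hB : Indp (rbar l O) B) :
    ∃ B' : Finset F, B'.card = B.card ∧ Indp l B' ∧ (∀ y ∈ B', y ∈ O) ∧ AbV O l (gs0 l B') ∧
      rbar (gs0 l B') O = gs0 (rbar l O) B := by
  classical
  induction B using Finset.induction_on with
  | empty =>
    refine ⟨∅, rfl, fun S _ v hv => absurd hv (Finset.notMem_empty v),
      fun y hy => absurd hy (Finset.notMem_empty y), ?_, ?_⟩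
    · rw [gs0_empty]
      exact AbV.refl l
    · rw [gs0_empty, gs0_empty]
  | insert c B hc ih =>
    obtain ⟨B', hcard, hind, hBO, hV, hT⟩ := ih (hB.mono (Finset.subset_insert c B))
    have hcalg : ¬ IsAlgebraic (gs0 (rbar l O) B) c :=
      ab_indp_iff.1 hB B (Finset.subset_insert c B) c (Finset.mem_insert_self c B) hc
    obtain ⟨y, hy, rfl⟩ := rs_surj c
    have htr : ¬ IsAlgebraic (rbar (gs0 l B') O) (rs O y) := by rwa [hT]
    have hyalg : ¬ IsAlgebraic (gs0 l B') y := fun h => ab_lift_alg hy htr h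
    have hyB : y ∉ B' := fun h' => hyalg (isAlgebraic_of_mem (mem_gs0 h'))
    refine ⟨insert y B', ?_, ab_indp_insert hind hyalg, ?_, ?_, ?_⟩
    · rw [Finset.card_insert_of_notMem hyB, Finset.card_insert_of_notMem hc, hcard]
    · intro z hz
      rcases Finset.mem_insert.1 hz with rfl | hz
      · exact hy
      · exact hBO z hz
    · rw [gs0_insert]
      exact hV.gauss hy htr
    · rw [gs0_insert, gs0_insert, kap_gauss hy htr, hT]

/-- roots of constants. -/
theorem ab_root {l : Subfield F} (hl : IsAlgClosed l) {n : ℕ} (hn : 0 < n) {c : F} (hc : c ∈ l)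
    (hc0 : c ≠ 0) : ∃ d ∈ l, d ≠ 0 ∧ d ^ n = c := by
  haveI := hl
  obtain ⟨d, hd⟩ := IsAlgClosed.exists_pow_nat_eq (⟨c, hc⟩ : l) hn
  have h1 : (d : F) ^ n = c := congrArg Subtype.val hd
  refine ⟨d, d.2, ?_, h1⟩
  intro h0
  rw [h0, zero_pow hn.ne'] at h1
  exact hc0 h1.symm

/-- positive powers of an element whose value is not commensurable with the constants. -/
theorem ab_pow_ne {l : Subfield F} {X : F}
    (hX : ∀ a ∈ l, a ≠ 0 → ∀ i : ℤ, O.valuation (a * X ^ i) = 1 → i = 0) :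
    ∀ c ∈ l, c ≠ 0 → ∀ n : ℕ, 0 < n → O.valuation (c * X ^ n) ≠ 1 := by
  intro c hc hc0 n hn h
  have h1 := hX c hc hc0 n (by rwa [zpow_natCast])
  omega

theorem AbV.ne {l E : Subfield F} (h : AbV O l E) {X : F}
    (hX : ∀ c ∈ l, c ≠ 0 → ∀ n : ℕ, 0 < n → O.valuation (c * X ^ n) ≠ 1) :
    ∀ c ∈ E, c ≠ 0 → ∀ n : ℕ, 0 < n → O.valuation (c * X ^ n) ≠ 1 := by
  intro c hc hc0 n hn h1
  obtain ⟨d, hd, hd0, hdv⟩ := h c hc hc0
  refine hX d⁻¹ (inv_mem hd) (inv_ne_zero hd0) n hn ?_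
  have h2 : d⁻¹ * X ^ n = (c * X ^ n) * (c * d)⁻¹ := by
    field_simp
  rw [h2, map_mul, h1, map_inv₀, hdv, inv_one, one_mul]

/-- independent residues and an element with a new value give independent elements. -/
theorem ab_insert [DecidableEq F] {l : Subfield F} {B' : Finset F} (hind : Indp l B')
    (hV : AbV O l (gs0 l B')) {X : F} (hX0 : X ≠ 0)
    (hX : ∀ c ∈ l, c ≠ 0 → ∀ n : ℕ, 0 < n → O.valuation (c * X ^ n) ≠ 1) :
    X ∉ B' ∧ Indp l (insert X B') := by
  have h1 : ¬ IsAlgebraic (gs0 l B') X := by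
    rintro ⟨P, hP0, hP⟩
    obtain ⟨-, -, -, n, h2, -⟩ := ab_mono_poly hX0 (hV.ne hX) P hP0
    exact h2 hP
  exact ⟨fun h => h1 (isAlgebraic_of_mem (mem_gs0 h)), ab_indp_insert hind h1⟩

end chain

section main

variable {F : Type*} [Field F] [PerfectField F] {O : ValuationSubring F}

/-- Abhyankar valuations: a finite extension of the rational part. -/
theorem ab_model {l : Subfield F} (hfg : FG l (⊤ : Subfield F)) {n : ℕ}
    (htd : Td l (n + 1)) {X : F} (hX0 : X ≠ 0)
    (hX : ∀ a ∈ l, a ≠ 0 → ∀ i : ℤ, O.valuation (a * X ^ i) = 1 → i = 0)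
    {B : Finset (IsLocalRing.ResidueField O)} (hB : Indp (rbar l O) B) (hBn : B.card = n) :
    ∃ (E1 : Subfield F) (L : IntermediateField E1 F), FiniteDimensional E1 L ∧ l ≤ E1 ∧
      X ∈ E1 ∧ (∀ z : F, ∃ m : ℕ, z ^ ringExpChar F ^ m ∈ L) ∧
      rbar E1 O = gs0 (rbar l O) B ∧
      ∀ z ∈ E1, z ≠ 0 → ∃ c ∈ l, c ≠ 0 ∧ ∃ k : ℤ, O.valuation (z * c * X ^ k) = 1 := by
  classical
  obtain ⟨B', hcard, hind, -, hV, hT⟩ := ab_chain l hB
  have hXn := ab_pow_ne (O := O) hX
  obtain ⟨hXB, hind'⟩ := ab_insert hind hV hX0 hXn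
  have hXE := hV.ne hXn
  -- the transcendence basis
  have halg : ∀ z : F, IsAlgebraic (gs0 l (insert X B')) z := by
    obtain ⟨B2, hsub, hB2, h2⟩ := hind'.extend hfg
    have h3 : B2.card = n + 1 := Td.unique (K := F) (k := l) ⟨B2, rfl, hB2, h2⟩ htd
    have h4 : insert X B' = B2 := by
      refine Finset.eq_of_subset_of_card_le hsub ?_
      rw [h3, Finset.card_insert_of_notMem hXB, hcard, hBn]
    rw [h4]
    exact fun z => gs0_alg.1 (h2 z)
  obtain ⟨S, hS⟩ := hfg
  haveI : FiniteDimensional (gs0 l (insert X B'))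
      (IntermediateField.adjoin (gs0 l (insert X B')) (S : Set F)) :=
    IntermediateField.finiteDimensional_adjoin fun x _ => (halg x).isIntegral
  refine ⟨gs0 l (insert X B'), IntermediateField.adjoin (gs0 l (insert X B')) (S : Set F),
    inferInstance, le_gs0 _ _, mem_gs0 (Finset.mem_insert_self _ _), fun z => ?_, ?_, ?_⟩
  · have h1 : z ∈ pf (l ⊔ Subfield.closure (S : Set F)) := hS ▸ Subfield.mem_top z
    obtain ⟨m, hm⟩ := mem_pf.1 h1
    have h2 : l ⊔ Subfield.closure (S : Set F) ≤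
        (IntermediateField.adjoin (gs0 l (insert X B')) (S : Set F)).toSubfield :=
      sup_le ((le_gs0 _ _).trans (ab_le _))
        (Subfield.closure_le.2 fun z hz => IntermediateField.subset_adjoin _ _ hz)
    exact ⟨m, h2 hm⟩
  · rw [gs0_insert, kap_mono_ext hX0 hXE, hT]
  · intro z hz hz0
    rw [gs0_insert] at hz
    obtain ⟨c1, hc1, hc10, i, hi, -⟩ := ab_mono hX0 hXE hz hz0
    obtain ⟨d, hd, hd0, hdv⟩ := hV c1 hc1 hc10
    refine ⟨d⁻¹, inv_mem hd, inv_ne_zero hd0, i, ?_⟩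
    have h1 : z * d⁻¹ * X ^ i = (z * c1 * X ^ i) * (c1 * d)⁻¹ := by
      have := zpow_ne_zero i hX0
      field_simp
    rw [h1, map_mul, hi, map_inv₀, hdv, inv_one, one_mul]

/-- the value group of an Abhyankar valuation modulo the values of the constants. -/
theorem ab_value {l : Subfield F} (hl : IsAlgClosed l) (hfg : FG l (⊤ : Subfield F)) {n : ℕ}
    (htd : Td l (n + 1)) {X : F} (hX0 : X ≠ 0)
    (hX : ∀ a ∈ l, a ≠ 0 → ∀ i : ℤ, O.valuation (a * X ^ i) = 1 → i = 0)
    {B : Finset (IsLocalRing.ResidueField O)} (hB : Indp (rbar l O) B) (hBn : B.card = n) :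
    ∃ ϖ : F, ϖ ≠ 0 ∧ O.valuation ϖ < 1 ∧
      (∀ c ∈ l, c ≠ 0 → ∀ n : ℕ, 0 < n → O.valuation (c * ϖ ^ n) ≠ 1) ∧
      ∀ z : F, z ≠ 0 → ∃ m : ℕ, ∃ c ∈ l, c ≠ 0 ∧ ∃ k : ℤ,
        O.valuation (z ^ ringExpChar F ^ m * c * ϖ ^ k) = 1 := by
  obtain ⟨E1, L, hfd, hlE1, hXE1, hpow, -, hval⟩ := ab_model hfg htd hX0 hX hB hBn
  have hlL : l ≤ L.toSubfield := hlE1.trans (ab_le L)
  have hXL : X ∈ L.toSubfield := ab_le L hXE1
  have hMpos := Nat.factorial_pos (Module.finrank E1 L)
  have hval : ∀ z ∈ L.toSubfield, z ≠ 0 → ∃ c ∈ l, c ≠ 0 ∧ ∃ r : ℤ,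
      O.valuation (z * c) ^ (Module.finrank E1 L).factorial = O.valuation X ^ r := by
    intro z hz hz0
    obtain ⟨c, hc, hc0, hcv⟩ := ab_pow (O := O) L hz hz0
    obtain ⟨d, hd, hd0, i, hi⟩ := hval c hc hc0
    obtain ⟨e, he, he0, hed⟩ := ab_root hl hMpos hd hd0
    refine ⟨e, he, he0, -i, ?_⟩
    rw [map_mul, mul_pow, hcv, ← map_pow O.valuation e, hed, ← map_mul, zpow_neg]
    rw [map_mul, map_zpow₀] at hi
    exact eq_inv_of_mul_eq_one_left hi
  obtain ⟨ϖ, -, hϖ0, hϖ, hϖn, hϖr⟩ := ab_unif hX0 (ab_pow_ne hX) hlL hXL hMpos hval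
  refine ⟨ϖ, hϖ0, hϖ, hϖn, fun z hz0 => ?_⟩
  obtain ⟨m, hm⟩ := hpow z
  exact ⟨m, hϖr _ hm (pow_ne_zero _ hz0)⟩

/-- the residue field of an Abhyankar valuation. -/
theorem ab_main {Ω : Type*} [Field Ω] [PerfectField Ω] (ι : IsLocalRing.ResidueField O →+* Ω)
    (hι : ∀ c : Ω, ∃ (n : ℕ) (x : IsLocalRing.ResidueField O), ι x = c ^ ringExpChar Ω ^ n)
    {l : Subfield F} (hfg : FG l (⊤ : Subfield F)) {n : ℕ}
    (htd : Td l (n + 1)) {X : F} (hX0 : X ≠ 0)
    (hX : ∀ a ∈ l, a ≠ 0 → ∀ i : ℤ, O.valuation (a * X ^ i) = 1 → i = 0)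
    {B : Finset (IsLocalRing.ResidueField O)} (hB : Indp (rbar l O) B) (hBn : B.card = n) :
    (∀ c : Ω, IsAlgebraic ((gs0 (rbar l O) B).map ι) c) ∧
    FG ((rbar l O).map ι) (⊤ : Subfield Ω) := by
  classical
  obtain ⟨E1, L, hfd, hlE1, hXE1, hpow, hkap, -⟩ := ab_model hfg htd hX0 hX hB hBn
  have hfin := ab_fin (O := O) L
  have hpow' : ∀ c : Ω, ∃ m : ℕ, ∃ x ∈ rbar L.toSubfield O, ι x = c ^ ringExpChar Ω ^ m := by
    intro c
    obtain ⟨n1, x, hx⟩ := hι c
    obtain ⟨z, hz, rfl⟩ := rs_surj x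
    obtain ⟨m, hm⟩ := hpow z
    obtain ⟨m', hm'⟩ := ab_expchar O ι m
    refine ⟨n1 + m', rs O (z ^ ringExpChar F ^ m), rs_mem_kap hm (pow_mem hz _), ?_⟩
    rw [rs_pow hz, map_pow, hx, hm', ← pow_mul, ← pow_add]
  refine ⟨fun c => ?_, ?_⟩
  · obtain ⟨m, x, hx, hxc⟩ := hpow' c
    have h1 : IsIntegral (rbar E1 O) x := IsIntegral.of_mem_of_fg _ hfin _ hx
    have h2 := ab_alg_map ι h1.isAlgebraic
    rw [hkap, hxc] at h2
    exact IsAlgebraic.of_pow (pow_pos (expChar_pos Ω _) _) h2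
  · obtain ⟨T2, hT2⟩ := hfin
    refine ⟨(B ∪ T2).image ι, (top_unique ?_).symm⟩
    intro c _
    obtain ⟨m, x, hx, hxc⟩ := hpow' c
    refine mem_pf.2 ⟨m, ?_⟩
    rw [← hxc]
    have hsub : rbar E1 O ≤ ((rbar l O).map ι ⊔ Subfield.closure
        (((B ∪ T2).image ι : Finset Ω) : Set Ω)).comap ι := by
      rw [hkap]
      refine gs0_le (fun z hz => ?_) fun z hz => ?_
      · exact (le_sup_left : (rbar l O).map ι ≤ _) ⟨z, hz, rfl⟩
      · refine (le_sup_right : Subfield.closure _ ≤ _) (Subfield.subset_closure ?_)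
        exact Finset.mem_coe.2 (Finset.mem_image_of_mem ι (Finset.mem_union_left _ hz))
    have h2 : x ∈ Submodule.span (rbar E1 O) (T2 : Set (IsLocalRing.ResidueField O)) := by
      rw [hT2]
      exact hx
    change x ∈ ((rbar l O).map ι ⊔ Subfield.closure
        (((B ∪ T2).image ι : Finset Ω) : Set Ω)).comap ι
    refine Submodule.span_induction ?_ ?_ ?_ ?_ h2
    · intro z hz
      refine (le_sup_right : Subfield.closure _ ≤ _) (Subfield.subset_closure ?_)
      exact Finset.mem_coe.2 (Finset.mem_image_of_mem ι (Finset.mem_union_right _ hz))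
    · exact zero_mem _
    · intro x y _ _ hx hy
      exact add_mem hx hy
    · intro a x _ hx
      rw [Algebra.smul_def]
      exact mul_mem (hsub a.2) hx

end main

end Vale.Agent.P019P
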