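import Vale.Agent.P019P.PlCore
import Vale.Agent.P019Q.UPl
import Vale.Agent.P019Q.H4SysE
import Vale.Agent.P019.Place

/-!
# Places with finite residue fields and Gauss extensions
-/

namespace Vale.Agent.P019P

open Vale.Agent.P019

set_option linter.style.haveILetI false
set_option linter.unusedSectionVars false

open Polynomial Filter

universe u

section bota

theorem bot_val_lt_one {F : Type*} [Field F] {O : ValuationSubring F} {x : F} :
    O.valuation x < 1 ↔ x = 0 ∨ x⁻¹ ∉ O := by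
  by_cases hx : x = 0
  · simp [hx]
  · have h0 : 0 < O.valuation x := zero_lt_iff.2 ((Valuation.ne_zero_iff _).2 hx)
    rw [← O.valuation_le_one_iff x⁻¹, map_inv₀, inv_le_one₀ h0, not_le]
    simp [hx]

/-- composite places. -/
noncomputable def Pl.comp' {F C D : Type*} [Field F] [Field C] [Field D] (P : Pl F C)
    (Q : Pl C D) : Pl F D where
  O :=
  { carrier := {x | x ∈ P.O ∧ P.ev x ∈ Q.O}
    mul_mem' := fun {x y} hx hy => ⟨P.O.mul_mem _ _ hx.1 hy.1, by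
      rw [P.ev_mul hx.1 hy.1]; exact Q.O.mul_mem _ _ hx.2 hy.2⟩
    one_mem' := ⟨P.O.one_mem, by rw [P.ev_one]; exact Q.O.one_mem⟩
    add_mem' := fun {x y} hx hy => ⟨P.O.add_mem _ _ hx.1 hy.1, by
      rw [P.ev_add hx.1 hy.1]; exact Q.O.add_mem _ _ hx.2 hy.2⟩
    zero_mem' := ⟨P.O.zero_mem, by rw [P.ev_zero]; exact Q.O.zero_mem⟩
    neg_mem' := fun {x} hx => ⟨P.O.neg_mem _ hx.1, by
      rw [P.ev_neg hx.1]; exact Q.O.neg_mem _ hx.2⟩
    mem_or_inv_mem' := fun x => by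
      by_cases hx : P.O.valuation x < 1
      · left
        exact ⟨P.mem_of_lt hx, by rw [P.ev_of_lt hx]; exact Q.O.zero_mem⟩
      by_cases hx' : 1 < P.O.valuation x
      · right
        have h1 : P.O.valuation x⁻¹ < 1 := by
          rw [map_inv₀]
          exact inv_lt_one_of_one_lt₀ hx'
        exact ⟨P.mem_of_lt h1, by rw [P.ev_of_lt h1]; exact Q.O.zero_mem⟩
      · have h1 : P.O.valuation x = 1 := le_antisymm (not_lt.1 hx') (not_lt.1 hx)
        have h2 : P.U x := P.U_iff.2 h1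
        have h3 : x⁻¹ ∈ P.O := by
          rw [← P.O.valuation_le_one_iff, map_inv₀, h1, inv_one]
        have h4 : P.ev x⁻¹ = (P.ev x)⁻¹ := by
          refine eq_inv_of_mul_eq_one_left ?_
          rw [← P.ev_mul h3 h2.1, inv_mul_cancel₀ h2.ne_zero, P.ev_one]
        rcases Q.O.mem_or_inv_mem (P.ev x) with h5 | h5
        · exact Or.inl ⟨h2.1, h5⟩
        · exact Or.inr ⟨h3, by rw [h4]; exact h5⟩ }
  ψ :=
  { toFun := fun x => Q.ev (P.ev x)
    map_one' := by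
      change Q.ev (P.ev 1) = 1
      rw [P.ev_one, Q.ev_one]
    map_mul' := fun x y => by
      change Q.ev (P.ev ((x : F) * y)) = _
      rw [P.ev_mul x.2.1 y.2.1, Q.ev_mul x.2.2 y.2.2]
    map_zero' := by
      change Q.ev (P.ev 0) = 0
      rw [P.ev_zero, Q.ev_zero]
    map_add' := fun x y => by
      change Q.ev (P.ev ((x : F) + y)) = _
      rw [P.ev_add x.2.1 y.2.1, Q.ev_add x.2.2 y.2.2] }
  ker := fun x => by
    change Q.ev (P.ev x) = 0 ↔ _
    rw [bot_val_lt_one]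
    constructor
    · intro h
      by_contra hcon
      push Not at hcon
      obtain ⟨hx0, h1, h2⟩ := hcon
      have h3 : Q.ev (P.ev x) * Q.ev (P.ev (x : F)⁻¹) = 1 := by
        rw [← Q.ev_mul x.2.2 h2, ← P.ev_mul x.2.1 h1, mul_inv_cancel₀ hx0, P.ev_one, Q.ev_one]
      rw [h, zero_mul] at h3
      exact zero_ne_one h3
    · rintro (h | h)
      · rw [h, P.ev_zero, Q.ev_zero]
      · by_contra hcon
        apply h
        have h1 : P.ev x ≠ 0 := by
          intro h2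
          rw [h2, Q.ev_zero] at hcon
          exact hcon rfl
        have h2 : P.U x := ⟨x.2.1, h1⟩
        have h3 := P.U_iff.1 h2
        have h4 : (x : F)⁻¹ ∈ P.O := by
          rw [← P.O.valuation_le_one_iff, map_inv₀, h3, inv_one]
        have h5 : P.ev (x : F)⁻¹ = (P.ev x)⁻¹ := by
          refine eq_inv_of_mul_eq_one_left ?_
          rw [← P.ev_mul h4 h2.1, inv_mul_cancel₀ h2.ne_zero, P.ev_one]
        refine ⟨h4, ?_⟩
        rw [h5]
        have h6 : Q.U (P.ev x) := ⟨x.2.2, hcon⟩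
        have h7 := Q.U_iff.1 h6
        rw [← Q.O.valuation_le_one_iff, map_inv₀, h7, inv_one]

theorem Pl.mem_comp' {F C D : Type*} [Field F] [Field C] [Field D] {P : Pl F C}
    {Q : Pl C D} {x : F} : x ∈ (Pl.comp' P Q).O ↔ x ∈ P.O ∧ P.ev x ∈ Q.O := Iff.rfl

theorem Pl.comp'_ev {F C D : Type*} [Field F] [Field C] [Field D] {P : Pl F C}
    {Q : Pl C D} {x : F} (hx : x ∈ P.O) (hx' : P.ev x ∈ Q.O) :
    (Pl.comp' P Q).ev x = Q.ev (P.ev x) := by
  rw [(Pl.comp' P Q).ev_of_mem (x := x) ⟨hx, hx'⟩]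
  rfl

/-- places with values in closures of finite fields. -/
theorem exists_finpl {k : Type u} [Field k] (S : Finset k) (hS : ∀ a ∈ S, a ≠ 0) :
    ∃ (κ : Type u) (_ : Field κ) (P : Pl k κ), IsAlgClosed κ ∧
      (∀ a : κ, a ≠ 0 → ∃ n : ℕ, 0 < n ∧ a ^ n = 1) ∧ ∀ a ∈ S, P.U a := by
  classical
  let T : Finset k := S ∪ S.image (fun a => a⁻¹)
  let A : Subalgebra ℤ k := Algebra.adjoin ℤ (T : Set k)
  haveI : Algebra.FiniteType ℤ A := (Subalgebra.fg_iff_finiteType _).1 ⟨T, rfl⟩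
  obtain ⟨κ, hκ, hA, hac, htor, -⟩ := exists_spec (A := A) (δ := 1) one_ne_zero
  obtain ⟨O, ψ, h1, h2⟩ := exists_place A.toSubring (algebraMap A κ : A →+* κ)
  refine ⟨κ, hκ, ⟨O, ψ, h2⟩, hac, htor, fun a ha => ?_⟩
  have ha1 : a ∈ A := Algebra.subset_adjoin (Finset.mem_coe.2 (Finset.mem_union_left _ ha))
  have ha2 : a⁻¹ ∈ A := Algebra.subset_adjoin (Finset.mem_coe.2
    (Finset.mem_union_right _ (Finset.mem_image_of_mem _ ha)))
  obtain ⟨h3, -⟩ := h1 a ha1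
  obtain ⟨h4, -⟩ := h1 a⁻¹ ha2
  rw [Pl.U_iff]
  change O.valuation a = 1
  refine le_antisymm ((O.valuation_le_one_iff a).2 h3) ?_
  rw [← O.valuation_le_one_iff, map_inv₀, inv_le_one₀
    (zero_lt_iff.2 ((Valuation.ne_zero_iff _).2 (hS a ha)))] at h4
  exact h4

/-- Gauss extension of a place. -/
theorem exists_gpl {K : Type u} [Field K] {F : Subfield K} {κ : Type u} [Field κ] (P : Pl F κ)
    {t : K} (ht : ¬ IsAlgebraic F t) :
    ∃ (Ω : Type u) (_ : Field Ω) (i : κ →+* Ω) (Q : Pl K Ω), IsAlgClosed Ω ∧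
      (∀ a : F, (a : K) ∈ Q.O ↔ a ∈ P.O) ∧ (∀ a : F, a ∈ P.O → Q.ev a = i (P.ev a)) ∧
      t ∈ Q.O ∧ ¬ IsAlgebraic i.fieldRange (Q.ev t) := by
  classical
  let κ1 := FractionRing κ[X]
  let Ω := AlgebraicClosure κ1
  let i1 : κ[X] →+* Ω := (algebraMap κ1 Ω).comp (algebraMap κ[X] κ1)
  have hi1 : Function.Injective i1 :=
    (algebraMap κ1 Ω).injective.comp (IsFractionRing.injective κ[X] κ1)
  let i : κ →+* Ω := i1.comp C
  -- the polynomial ring in `K`
  let e : P.O[X] →+* K := eval₂RingHom ((algebraMap F K).comp P.O.subtype) t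
  have he : Function.Injective e := by
    rw [injective_iff_map_eq_zero]
    intro p hp
    by_contra hp0
    apply ht
    refine ⟨p.map P.O.subtype, ?_, ?_⟩
    · rwa [Ne, Polynomial.map_eq_zero_iff Subtype.val_injective]
    · rw [aeval_def, eval₂_map]
      exact hp
  let A : Subring K := e.range
  let eA : P.O[X] ≃+* A := RingEquiv.ofBijective e.rangeRestrict
    ⟨fun x y h => he (congrArg Subtype.val h), e.rangeRestrict_surjective⟩
  let φ0 : P.O[X] →+* Ω := eval₂RingHom (i.comp P.ψ) (i1 X)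
  let φ : A →+* Ω := φ0.comp (eA.symm : A →+* P.O[X])
  obtain ⟨O, ψ, h1, h2⟩ := exists_place A φ
  let Q : Pl K Ω := ⟨O, ψ, h2⟩
  have key : ∀ p : P.O[X], ∃ h : e p ∈ O, Q.ev (e p) = φ0 p := by
    intro p
    obtain ⟨h3, h4⟩ := h1 (e p) ⟨p, rfl⟩
    refine ⟨h3, ?_⟩
    rw [Q.ev_of_mem h3]
    change ψ ⟨e p, h3⟩ = φ0 p
    rw [h4]
    change φ0 (eA.symm ⟨e p, _⟩) = φ0 p
    congr 1
    rw [RingEquiv.symm_apply_eq]
    rfl
  have hC : ∀ a : P.O, e (C a) = ((a : F) : K) := fun a => by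
    change eval₂ _ t (C a) = _
    rw [eval₂_C]; rfl
  have hX : e X = t := by
    change eval₂ _ t X = _
    rw [eval₂_X]
  have hPO : ∀ a : F, a ∈ P.O → (a : K) ∈ O ∧ Q.ev (a : K) = i (P.ev a) := by
    intro a ha
    obtain ⟨h3, h4⟩ := key (C ⟨a, ha⟩)
    rw [hC] at h3 h4
    refine ⟨h3, h4.trans ?_⟩
    change eval₂ _ _ (C _) = _
    rw [eval₂_C, P.ev_of_mem ha]
    rfl
  refine ⟨Ω, inferInstance, i, Q, inferInstance, fun a => ⟨fun ha => ?_, fun ha => (hPO a ha).1⟩,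
    fun a ha => (hPO a ha).2, ?_, ?_⟩
  · by_contra hcon
    have h5 : P.O.valuation a⁻¹ < 1 := by
      rw [bot_val_lt_one, inv_inv]
      exact Or.inr hcon
    obtain ⟨h6, h7⟩ := hPO a⁻¹ (P.mem_of_lt h5)
    rw [P.ev_of_lt h5, map_zero] at h7
    have ha0 : (a : K) ≠ 0 := by
      intro h
      apply hcon
      have : a = 0 := Subtype.ext h
      rw [this]
      exact P.O.zero_mem
    have h8 : Q.ev (a : K) * Q.ev ((a⁻¹ : F) : K) = 1 := by
      rw [← Q.ev_mul ha h6]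
      change Q.ev ((a : K) * (a : K)⁻¹) = 1
      rw [mul_inv_cancel₀ ha0, Q.ev_one]
    rw [h7, mul_zero] at h8
    exact zero_ne_one h8
  · obtain ⟨h3, -⟩ := key X
    rw [hX] at h3
    exact h3
  · obtain ⟨h3, h4⟩ := key X
    rw [hX] at h3 h4
    have h5 : φ0 X = i1 X := by
      change eval₂ _ _ X = _
      rw [eval₂_X]
    rw [h4, h5]
    rintro ⟨p, hp0, hp⟩
    apply hp0
    -- lift to κ[X]
    have h6 : ∀ n, ∃ a : κ, i a = (p.coeff n : Ω) := fun n => (p.coeff n).2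
    choose a ha using h6
    let p' : κ[X] := ∑ n ∈ Finset.range (p.natDegree + 1), C (a n) * X ^ n
    have h7 : i1 p' = 0 := by
      rw [← hp, aeval_eq_sum_range]
      simp only [p', map_sum, map_mul, map_pow]
      refine Finset.sum_congr rfl fun n _ => ?_
      rw [Algebra.smul_def]
      congr 1
      exact ha n
    have h8 : p' = 0 := hi1 (by rw [h7, map_zero])
    ext n
    rw [coeff_zero]
    by_cases hn : n ≤ p.natDegree
    · have h9 := congrArg (fun q => q.coeff n) h8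
      simp only [p', finsetSum_coeff, coeff_C_mul, coeff_X_pow, coeff_zero, mul_ite, mul_one,
        mul_zero] at h9
      rw [Finset.sum_ite_eq (Finset.range (p.natDegree + 1)) n, if_pos (Finset.mem_range.2 (by omega))] at h9
      rw [← ha n, h9, map_zero]; rfl
    · rw [coeff_eq_zero_of_natDegree_lt (by omega)]

theorem isAlgClosed_equiv' {A B : Type*} [Field A] [Field B] [IsAlgClosed A] (e : A →+* B) :
    IsAlgClosed e.fieldRange := by
  apply IsAlgClosed.of_exists_root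
  intro p hp hirr
  have e' : A ≃+* e.fieldRange := RingEquiv.ofBijective e.rangeRestrictField
    ⟨e.rangeRestrictField.injective, fun ⟨_, x, hx⟩ => ⟨x, Subtype.ext hx⟩⟩
  obtain ⟨c, hc⟩ := IsAlgClosed.exists_root (p.map (e'.symm : e.fieldRange →+* A)) (by
    rw [degree_map]
    exact (degree_pos_of_irreducible hirr).ne')
  refine ⟨e' c, ?_⟩
  have h1 : e'.symm (p.eval (e' c)) = 0 := by
    rw [IsRoot.def, eval_map] at hc
    rw [← hc]
    have h2 := hom_eval₂ p (RingHom.id _) (e'.symm : e.fieldRange →+* A) (e' c)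
    rw [RingHom.comp_id] at h2
    simpa using h2
  rwa [map_eq_zero] at h1

/-- restriction of a place to a subfield. -/
noncomputable def Pl.resto {F C : Type*} [Field F] [Field C] (P : Pl F C) (E : Subfield F) :
    Pl E C where
  O := P.O.comap E.subtype
  ψ := P.ψ.comp
    { toFun := fun x : P.O.comap E.subtype => (⟨E.subtype x, x.2⟩ : P.O)
      map_one' := rfl
      map_mul' := fun _ _ => rfl
      map_zero' := rfl
      map_add' := fun _ _ => rfl }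
  ker := fun x => by
    rw [bot_val_lt_one]
    change P.ψ (⟨((x : E) : F), x.2⟩ : P.O) = 0 ↔ _
    rw [P.ker, bot_val_lt_one]
    constructor
    · rintro (h | h)
      · exact Or.inl (Subtype.ext h)
      · exact Or.inr h
    · rintro (h | h)
      · left
        change ((x : E) : F) = 0
        rw [h]
        rfl
      · exact Or.inr h

theorem Pl.mem_resto {F C : Type*} [Field F] [Field C] {P : Pl F C} {E : Subfield F} {x : E} :
    x ∈ (Pl.resto P E).O ↔ (x : F) ∈ P.O := Iff.rfl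

theorem Pl.resto_ev {F C : Type*} [Field F] [Field C] {P : Pl F C} {E : Subfield F} {x : E}
    (hx : (x : F) ∈ P.O) : (Pl.resto P E).ev x = P.ev x := by
  rw [(Pl.resto P E).ev_of_mem (x := x) hx, P.ev_of_mem hx]
  rfl

/-- bottom quasi-divisors. -/
theorem exists_botpl {K : Type u} [Field K] {k : Subfield K} {t s : K}
    (hs : ¬ IsAlgebraic k s) (ht : ¬ IsAlgebraic (adj k s) t) {κ : Type u} [Field κ]
    (P : Pl k κ) {c : k} (hc : c ∈ P.O) :
    ∃ (Ω : Type u) (_ : Field Ω) (i : κ →+* Ω) (W : Pl K Ω),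
      (∀ a : k, (a : K) ∈ W.O ↔ a ∈ P.O) ∧ (∀ a : k, a ∈ P.O → W.ev a = i (P.ev a)) ∧
      s ∈ W.O ∧ ¬ IsAlgebraic i.fieldRange (W.ev s) ∧ t - c ∈ W.O ∧ W.ev (t - c) = 0 ∧
      ∀ a : k, P.O.valuation a < 1 → ∀ n : ℕ,
        (a : K) / (t - c) ^ n ∈ W.O ∧ W.ev ((a : K) / (t - c) ^ n) = 0 := by
  obtain ⟨Ω1, _, i1, Q1, hΩ1, hQ1, hQ1e, hsQ, hsa⟩ := exists_gpl P hs
  obtain ⟨Ω2, _, i2, Q2, hΩ2, hQ2, hQ2e, htQ, hta⟩ := exists_gpl (Pl.resto Q1 (adj k s)) ht
  have hka : ∀ a : k, (a : K) ∈ adj k s := fun a => le_adj k s a.2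
  have hQ2k : ∀ a : k, (a : K) ∈ Q2.O ↔ a ∈ P.O := fun a => by
    rw [← hQ1 a]
    exact hQ2 ⟨a, hka a⟩
  have hQ2ke : ∀ a : k, a ∈ P.O → Q2.ev (a : K) = i2 (i1 (P.ev a)) := by
    intro a ha
    have h1 : (a : K) ∈ Q1.O := (hQ1 a).2 ha
    have h2 := hQ2e ⟨a, hka a⟩ h1
    rw [Pl.resto_ev (x := (⟨a, hka a⟩ : adj k s)) h1] at h2
    rw [← hQ1e a ha]
    exact h2
  have hl : IsAlgClosed i2.fieldRange := by
    haveI := hΩ1
    exact isAlgClosed_equiv' i2
  have hcl : Q2.ev (c : K) ∈ i2.fieldRange := by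
    rw [hQ2ke c hc]
    exact ⟨_, rfl⟩
  haveI := hΩ2
  obtain ⟨Q3, h3, h4, h5, -⟩ := exists_one (K := Ω2) (Ω := Ω2) (l := i2.fieldRange)
    (A := i2.fieldRange) hl le_rfl hta hcl
  have h3' : ∀ a ∈ i2.fieldRange, a ∈ Q3.O ∧ Q3.ev a = a := h3
  have h5' : Q3.ev (Q2.ev t) = Q2.ev (c : K) := h5
  have hcQ : (c : K) ∈ Q2.O := (hQ2k c).2 hc
  have htc : t - c ∈ Q2.O := sub_mem htQ hcQ
  have hne : Q2.ev (t - c) ≠ 0 := by
    rw [Q2.ev_sub htQ hcQ, sub_ne_zero]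
    intro h
    apply hta
    rw [h]
    exact isAlgebraic_of_mem hcl
  have htcU : Q2.O.valuation (t - c) = 1 := Q2.U_iff.1 ⟨htc, hne⟩
  refine ⟨Ω2, inferInstance, i2.comp i1, Pl.comp' Q2 Q3, fun a => ?_, fun a ha => ?_, ?_, ?_, ?_,
    ?_, fun a ha n => ?_⟩
  · rw [Pl.mem_comp', hQ2k]
    constructor
    · exact fun h => h.1
    · intro h
      refine ⟨h, ?_⟩
      rw [hQ2ke a h]
      exact (h3' _ ⟨_, rfl⟩).1
  · have h6 := hQ2ke a ha
    have h7 : Q2.ev (a : K) ∈ i2.fieldRange := by rw [h6]; exact ⟨_, rfl⟩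
    rw [Pl.comp'_ev ((hQ2k a).2 ha) (h3' _ h7).1, (h3' _ h7).2, h6]
    rfl
  · have h6 : s ∈ Q2.O := (hQ2 ⟨s, mem_adj k s⟩).2 hsQ
    have h7 : Q2.ev s = i2 (Q1.ev s) := by
      have h8 := hQ2e ⟨s, mem_adj k s⟩ hsQ
      rw [Pl.resto_ev (x := (⟨s, mem_adj k s⟩ : adj k s)) hsQ] at h8
      exact h8
    exact ⟨h6, by rw [h7]; exact (h3' _ ⟨_, rfl⟩).1⟩
  · have h6 : s ∈ Q2.O := (hQ2 ⟨s, mem_adj k s⟩).2 hsQ
    have h7 : Q2.ev s = i2 (Q1.ev s) := by
      have h8 := hQ2e ⟨s, mem_adj k s⟩ hsQ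
      rw [Pl.resto_ev (x := (⟨s, mem_adj k s⟩ : adj k s)) hsQ] at h8
      exact h8
    have h8 : Q2.ev s ∈ i2.fieldRange := by rw [h7]; exact ⟨_, rfl⟩
    rw [Pl.comp'_ev h6 (h3' _ h8).1, (h3' _ h8).2, h7]
    intro h9
    apply hsa
    refine isAlgebraic_of_map i2 (isAlgebraic_mono ?_ h9)
    rintro _ ⟨x, rfl⟩
    exact ⟨i1 x, ⟨x, rfl⟩, rfl⟩
  · refine ⟨htc, ?_⟩
    rw [Q2.ev_sub htQ hcQ]
    exact sub_mem h4 (h3' _ hcl).1
  · have h6 : Q2.ev (t - c) ∈ Q3.O := by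
      rw [Q2.ev_sub htQ hcQ]
      exact sub_mem h4 (h3' _ hcl).1
    rw [Pl.comp'_ev htc h6, Q2.ev_sub htQ hcQ, Q3.ev_sub h4 (h3' _ hcl).1, h5', (h3' _ hcl).2,
      sub_self]
  · have h6 : Q2.O.valuation (a : K) < 1 := by
      have h7 : a ∈ P.O := P.mem_of_lt ha
      rw [← Q2.ev_eq_zero_iff ((hQ2k a).2 h7), hQ2ke a h7, P.ev_of_lt ha, map_zero, map_zero]
    have h7 : Q2.O.valuation ((a : K) / (t - c) ^ n) < 1 := by
      rw [map_div₀, map_pow, htcU, one_pow, div_one]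
      exact h6
    have h8 : Q2.ev ((a : K) / (t - c) ^ n) = 0 := Q2.ev_of_lt h7
    have h9 : (a : K) / (t - c) ^ n ∈ (Pl.comp' Q2 Q3).O :=
      ⟨Q2.mem_of_lt h7, by rw [h8]; exact Q3.O.zero_mem⟩
    exact ⟨h9, by rw [Pl.comp'_ev h9.1 h9.2, h8, Q3.ev_zero]⟩

end bota

end Vale.Agent.P019P
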