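import Vale.Agent.P019R.R0
import Vale.Agent.P019Q.UPl

/-!
# Bottom valuations: the residue field of the constants is algebraic over a finite field
-/

namespace Vale.Agent.P019P

open Vale.Agent.P019

set_option linter.style.haveILetI false
set_option linter.unusedSectionVars false
set_option linter.unusedVariables false

open Polynomial Filter

/-- bottom valuation, on `k(t, s)`: a Gauss valuation of `k(t - c, s)` composed with the divisor
`t = c`. -/
structure Bot0 {K : Type*} [Field K] (k : Subfield K) (t s : K) (W : ValuationSubring K)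
    (c : K) : Prop where
  fin : Fin' (rbar k W)
  ck : c ∈ k
  cW : c ∈ W
  tc : W.valuation (t - c) < 1
  sW : s ∈ W
  sb : rs W s ∉ rbar k W
  inf : ∀ a ∈ k, W.valuation a < 1 → ∀ n : ℕ, W.valuation a < W.valuation (t - c) ^ n
  rep : ∀ z ∈ adj (adj k s) t, z ≠ 0 → ∃ (m : ℕ) (n : ℤ), ∃ a ∈ k, a ≠ 0 ∧
    W.valuation (z ^ ringExpChar K ^ m * (t - c) ^ n * a) = 1 ∧
    rs W (z ^ ringExpChar K ^ m * (t - c) ^ n * a) ∈ Vale.Agent.P019.adj (rbar k W) (rs W s)

/-- bottom valuation of the whole field. -/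
structure Bot {K : Type*} [Field K] (k : Subfield K) (t s θ : K) (W : ValuationSubring K)
    (c : K) : Prop extends Bot0 k t s W c where
  repT : ∀ z : K, z ≠ 0 → ∃ (m : ℕ) (n : ℤ), ∃ a ∈ k, a ≠ 0 ∧
    W.valuation (z ^ ringExpChar K ^ m * (t - c) ^ n * a) = 1
  θW : θ ∈ W
  gen : ∀ y : IsLocalRing.ResidueField W, ∃ m : ℕ, y ^ ringExpChar K ^ m ∈
    Vale.Agent.P019.adj (Vale.Agent.P019.adj (rbar k W) (rs W s)) (rs W θ)

end Vale.Agent.P019P
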