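import Vale.Agent.P019R.RsP
import Vale.Agent.P019R.R9
import Vale.Agent.P019Q.ApB3
import Vale.Agent.P019Q.URat

/-!
# Values and residues of polynomials at bottom valuations
-/

namespace Vale.Agent.P019P

open Vale.Agent.P019

set_option linter.style.haveILetI false
set_option linter.unusedSectionVars false

open Polynomial Filter

section botb

theorem bb_sum_ne {F : Type*} [Field F] {E : Subfield F} {x : F} (hx : ¬ IsAlgebraic E x)
    {n : ℕ} {a : ℕ → F} (ha : ∀ i, a i ∈ E) {i₀ : ℕ} (hi₀ : i₀ ≤ n) (h : a i₀ ≠ 0) :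
    ∑ i ∈ Finset.range (n + 1), a i * x ^ i ≠ 0 := by
  rw [← aeval_mkPol (hα := ha)]
  refine aeval_ne_of_transc hx ?_
  intro h0
  have h1 := congrArg (fun p => ((p.coeff i₀ : E) : F)) h0
  simp only [coeff_zero] at h1
  rw [coeff_mkPol hi₀] at h1
  exact h h1

variable {K : Type*} [Field K] {k : Subfield K} {t s : K} {W : ValuationSubring K} {c : K}

theorem rs_sum' {ι : Type*} (S : Finset ι) (f : ι → K) (h : ∀ i ∈ S, f i ∈ W) :
    rs W (∑ i ∈ S, f i) = ∑ i ∈ S, rs W (f i) := by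
  classical
  induction S using Finset.induction_on with
  | empty => rw [Finset.sum_empty, Finset.sum_empty, rs_zero]
  | insert a s ha ih =>
    rw [Finset.sum_insert ha, Finset.sum_insert ha, rs_add (h a (Finset.mem_insert_self a s))
      (sum_mem fun i hi => h i (Finset.mem_insert_of_mem hi)),
      ih fun i hi => h i (Finset.mem_insert_of_mem hi)]

/-- polynomials in `s` with integral coefficients, one of them a unit. -/
theorem bb_unit (hk : IsAlgClosed k) (hsW : s ∈ W) (hsb : rs W s ∉ rbar k W) {n : ℕ}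
    {b : ℕ → K} (hb : ∀ i, b i ∈ k) (hbW : ∀ i, b i ∈ W) {i₀ : ℕ} (hi₀ : i₀ ≤ n)
    (h : W.valuation (b i₀) = 1) :
    W.valuation (∑ i ∈ Finset.range (n + 1), b i * s ^ i) = 1 ∧
      rs W (∑ i ∈ Finset.range (n + 1), b i * s ^ i) ∈
        Vale.Agent.P019.adj (rbar k W) (rs W s) := by
  have hx : ¬ IsAlgebraic (rbar k W) (rs W s) := fun h1 =>
    hsb (RAC_of_isAlgClosed _ (rbar_ac hk W) _ h1)
  have h1 : ∀ i ∈ Finset.range (n + 1), b i * s ^ i ∈ W := fun i _ =>
    mul_mem (hbW i) (pow_mem hsW i)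
  have h2 : rs W (∑ i ∈ Finset.range (n + 1), b i * s ^ i) =
      ∑ i ∈ Finset.range (n + 1), rs W (b i) * rs W s ^ i := by
    rw [rs_sum' _ _ h1]
    refine Finset.sum_congr rfl fun i _ => ?_
    rw [rs_mul (hbW i) (pow_mem hsW i), rs_pow hsW]
  constructor
  · rw [← rs_ne_zero (sum_mem h1), h2]
    exact bb_sum_ne hx (fun i => rs_mem_rbar (hb i) (hbW i)) hi₀ ((rs_ne_zero (hbW i₀)).2 h)
  · rw [h2]
    refine sum_mem fun i _ => mul_mem (Vale.Agent.P019.le_adj _ _ (rs_mem_rbar (hb i) (hbW i)))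
      (pow_mem (Vale.Agent.P019.mem_adj _ _) i)

/-- normalization of polynomials in `s`. -/
theorem bb_poly1 (hk : IsAlgClosed k) (hsW : s ∈ W) (hsb : rs W s ∉ rbar k W) {f : k[X]}
    (hf : f ≠ 0) : ∃ a ∈ k, a ≠ 0 ∧ W.valuation (eval₂ k.subtype s f * a) = 1 ∧
      rs W (eval₂ k.subtype s f * a) ∈ Vale.Agent.P019.adj (rbar k W) (rs W s) := by
  classical
  obtain ⟨i₀, hi₀, hmax⟩ := f.support.exists_max_image
    (fun i => W.valuation ((f.coeff i : k) : K)) (by rwa [Polynomial.support_nonempty])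
  have h0 : ((f.coeff i₀ : k) : K) ≠ 0 := by
    rw [mem_support_iff] at hi₀
    exact fun h => hi₀ (Subtype.ext h)
  have hv0 : 0 < W.valuation ((f.coeff i₀ : k) : K) :=
    zero_lt_iff.2 ((Valuation.ne_zero_iff _).2 h0)
  have hle : ∀ i, W.valuation ((f.coeff i : k) : K) ≤ W.valuation ((f.coeff i₀ : k) : K) := by
    intro i
    by_cases hi : i ∈ f.support
    · exact hmax i hi
    · rw [notMem_support_iff.1 hi]
      change W.valuation (0 : K) ≤ _
      rw [map_zero]
      exact zero_le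
  refine ⟨((f.coeff i₀ : k) : K)⁻¹, k.inv_mem (f.coeff i₀).2, inv_ne_zero h0, ?_⟩
  have h1 : eval₂ k.subtype s f * ((f.coeff i₀ : k) : K)⁻¹ =
      ∑ i ∈ Finset.range (f.natDegree + 1),
        (((f.coeff i : k) : K) * ((f.coeff i₀ : k) : K)⁻¹) * s ^ i := by
    rw [eval₂_eq_sum_range, Finset.sum_mul]
    refine Finset.sum_congr rfl fun i _ => ?_
    rw [Subfield.subtype_apply]
    ring
  rw [h1]
  refine bb_unit hk hsW hsb (fun i => k.mul_mem (f.coeff i).2 (k.inv_mem (f.coeff i₀).2))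
    (fun i => ?_) (i₀ := i₀) (le_natDegree_of_mem_supp i₀ hi₀) ?_
  · rw [← W.valuation_le_one_iff, map_mul, map_inv₀, ← div_eq_mul_inv]
    exact (div_le_one₀ hv0).2 (hle i)
  · rw [mul_inv_cancel₀ h0, map_one]

/-- shift of the outer variable. -/
theorem bb_shift (cc : k) (f : k[X][X]) :
    apbEv k.subtype t s f = apbEv k.subtype (t - cc) s (f.comp (X + C (C cc))) := by
  unfold apbEv
  rw [coe_eval₂RingHom, coe_eval₂RingHom, eval₂_comp]
  congr 1
  rw [eval₂_add, eval₂_X, eval₂_C, coe_eval₂RingHom, eval₂_C, Subfield.subtype_apply,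
    sub_add_cancel]

theorem bb_comp_ne {f : k[X][X]} (hf : f ≠ 0) (cc : k) : f.comp (X + C (C cc)) ≠ 0 := by
  intro h
  rw [comp_eq_zero_iff] at h
  rcases h with h | ⟨-, h⟩
  · exact hf h
  · have h1 := congrArg natDegree h
    rw [natDegree_X_add_C, natDegree_C] at h1
    exact one_ne_zero h1

/-- the data of a bottom valuation. -/
structure PBot (k : Subfield K) (t s : K) (W : ValuationSubring K) (c : K) : Prop where
  ck : c ∈ k
  cW : c ∈ W
  tc : W.valuation (t - c) < 1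
  tne : t ≠ c
  sW : s ∈ W
  sb : rs W s ∉ rbar k W
  inf : ∀ a ∈ k, W.valuation a < 1 → ∀ n : ℕ, W.valuation a < W.valuation (t - c) ^ n

theorem PBot.vpos (h : PBot k t s W c) : 0 < W.valuation (t - c) :=
  zero_lt_iff.2 ((Valuation.ne_zero_iff _).2 (sub_ne_zero.2 h.tne))

theorem PBot.inf' (h : PBot k t s W c) {a : K} (ha : a ∈ k) (ha0 : a ≠ 0) {n : ℤ}
    (he : W.valuation (a * (t - c) ^ n) = 1) : n = 0 ∧ W.valuation a = 1 := by
  have hv0 := h.vpos
  have ha1 : 0 < W.valuation a := zero_lt_iff.2 ((Valuation.ne_zero_iff _).2 ha0)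
  rw [map_mul, map_zpow₀] at he
  rcases lt_trichotomy n 0 with hn | hn | hn
  · exfalso
    obtain ⟨m, hm⟩ := Int.eq_ofNat_of_zero_le (neg_nonneg.2 hn.le)
    have hn' : n = -(m : ℤ) := by rw [← hm, neg_neg]
    have hm0 : m ≠ 0 := by rintro rfl; rw [hn'] at hn; simp at hn
    rw [hn', zpow_neg, zpow_natCast] at he
    have h1 : W.valuation a = W.valuation (t - c) ^ m := by
      rw [mul_inv_eq_one₀ (pow_pos hv0 m).ne'] at he
      exact he
    have h2 := h.inf a ha (h1 ▸ pow_lt_one₀ hv0.le h.tc hm0) m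
    rw [h1] at h2
    exact lt_irrefl _ h2
  · refine ⟨hn, ?_⟩
    rw [hn, zpow_zero, mul_one] at he
    exact he
  · exfalso
    obtain ⟨m, hm⟩ := Int.eq_ofNat_of_zero_le hn.le
    have hm0 : m ≠ 0 := by rintro rfl; rw [hm] at hn; simp at hn
    rw [hm, zpow_natCast] at he
    have h1 : W.valuation a⁻¹ = W.valuation (t - c) ^ m := by
      rw [map_inv₀]
      exact inv_eq_of_mul_eq_one_right he
    have h2 := h.inf a⁻¹ (k.inv_mem ha) (h1 ▸ pow_lt_one₀ hv0.le h.tc hm0) m
    rw [h1] at h2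
    exact lt_irrefl _ h2

/-- normalization of polynomials in `t`, `s`. -/
theorem PBot.poly2 (hk : IsAlgClosed k) (h : PBot k t s W c) {f : k[X][X]} (hf : f ≠ 0) :
    ∃ (n : ℕ), ∃ a ∈ k, a ≠ 0 ∧
      W.valuation (apbEv k.subtype t s f * (((t - c) ^ n)⁻¹ * a)) = 1 ∧
      rs W (apbEv k.subtype t s f * (((t - c) ^ n)⁻¹ * a)) ∈
        Vale.Agent.P019.adj (rbar k W) (rs W s) := by
  classical
  have hv0 := h.vpos
  rw [bb_shift (t := t) (s := s) ⟨c, h.ck⟩ f]
  set g := f.comp (X + C (C ⟨c, h.ck⟩)) with hg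
  have hg0 : g ≠ 0 := bb_comp_ne hf _
  change ∃ (n : ℕ), ∃ a ∈ k, a ≠ 0 ∧
      W.valuation (apbEv k.subtype (t - c) s g * (((t - c) ^ n)⁻¹ * a)) = 1 ∧
      rs W (apbEv k.subtype (t - c) s g * (((t - c) ^ n)⁻¹ * a)) ∈
        Vale.Agent.P019.adj (rbar k W) (rs W s)
  -- the coefficients
  have h1 : ∀ j, ∃ a : K, j ∈ g.support → a ∈ k ∧ a ≠ 0 ∧
      W.valuation (eval₂ k.subtype s (g.coeff j) * a) = 1 ∧
      rs W (eval₂ k.subtype s (g.coeff j) * a) ∈ Vale.Agent.P019.adj (rbar k W) (rs W s) := by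
    intro j
    by_cases hj : j ∈ g.support
    · obtain ⟨a, ha, ha0, h2, h3⟩ := bb_poly1 hk h.sW h.sb (mem_support_iff.1 hj)
      exact ⟨a, fun _ => ⟨ha, ha0, h2, h3⟩⟩
    · exact ⟨0, fun h' => absurd h' hj⟩
  choose a ha using h1
  have hval : ∀ j ∈ g.support, W.valuation (eval₂ k.subtype s (g.coeff j) * (t - c) ^ j) =
      (W.valuation (a j))⁻¹ * W.valuation (t - c) ^ j := by
    intro j hj
    obtain ⟨-, h2, h3, -⟩ := ha j hj
    have h4 : 0 < W.valuation (a j) := zero_lt_iff.2 ((Valuation.ne_zero_iff _).2 h2)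
    rw [map_mul] at h3
    rw [map_mul, map_pow, eq_inv_of_mul_eq_one_left h3]
  obtain ⟨j₀, hj₀, hmax⟩ := g.support.exists_max_image
    (fun j => W.valuation (eval₂ k.subtype s (g.coeff j) * (t - c) ^ j))
    (by rwa [Polynomial.support_nonempty])
  have hstrict : ∀ j ∈ g.support.erase j₀,
      W.valuation (eval₂ k.subtype s (g.coeff j) * (t - c) ^ j) <
        W.valuation (eval₂ k.subtype s (g.coeff j₀) * (t - c) ^ j₀) := by
    intro j hj
    have hj' := Finset.mem_of_mem_erase hj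
    refine lt_of_le_of_ne (hmax j hj') fun he => ?_
    obtain ⟨hak, ha0, -, -⟩ := ha j hj'
    obtain ⟨hak', ha0', -, -⟩ := ha j₀ hj₀
    rw [hval j hj', hval j₀ hj₀] at he
    have h4 : 0 < W.valuation (a j) := zero_lt_iff.2 ((Valuation.ne_zero_iff _).2 ha0)
    have h5 : 0 < W.valuation (a j₀) := zero_lt_iff.2 ((Valuation.ne_zero_iff _).2 ha0')
    have h6 : W.valuation ((a j₀ / a j) * (t - c) ^ ((j : ℤ) - j₀)) = 1 := by
      rw [map_mul, map_div₀, map_zpow₀, zpow_sub₀ hv0.ne', zpow_natCast, zpow_natCast]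
      have h7 : W.valuation (a j₀) / W.valuation (a j) *
          (W.valuation (t - c) ^ j / W.valuation (t - c) ^ j₀) =
          ((W.valuation (a j))⁻¹ * W.valuation (t - c) ^ j) *
            (W.valuation (a j₀) * (W.valuation (t - c) ^ j₀)⁻¹) := by
        rw [div_eq_mul_inv, div_eq_mul_inv, mul_comm (W.valuation (a j₀)) _, mul_mul_mul_comm]
      rw [h7, he]
      have h8 := (pow_pos hv0 j₀).ne'
      rw [mul_comm (W.valuation (a j₀)) _, mul_assoc, ← mul_assoc (W.valuation (t - c) ^ j₀),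
        mul_inv_cancel₀ h8, one_mul, inv_mul_cancel₀ h5.ne']
    have h9 := (h.inf' (k.div_mem hak' hak) (div_ne_zero ha0' ha0) h6).1
    have h10 : j = j₀ := by omega
    exact (Finset.ne_of_mem_erase hj) h10
  have hsum : apbEv k.subtype (t - c) s g =
      eval₂ k.subtype s (g.coeff j₀) * (t - c) ^ j₀ +
        ∑ j ∈ g.support.erase j₀, eval₂ k.subtype s (g.coeff j) * (t - c) ^ j := by
    rw [Finset.add_sum_erase _ (fun j => eval₂ k.subtype s (g.coeff j) * (t - c) ^ j) hj₀]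
    unfold apbEv
    rw [coe_eval₂RingHom, eval₂_eq_sum, sum_def]
    rfl
  obtain ⟨hak', ha0', hv1, hv2⟩ := ha j₀ hj₀
  have htc0 : (t - c) ^ j₀ ≠ 0 := pow_ne_zero _ (sub_ne_zero.2 h.tne)
  set u := ((t - c) ^ j₀)⁻¹ * a j₀ with hu
  have hmain : eval₂ k.subtype s (g.coeff j₀) * (t - c) ^ j₀ * u =
      eval₂ k.subtype s (g.coeff j₀) * a j₀ := by
    rw [hu]
    field_simp
  have hmne : W.valuation (eval₂ k.subtype s (g.coeff j₀) * (t - c) ^ j₀) ≠ 0 := by
    intro h0
    have h11 : W.valuation (eval₂ k.subtype s (g.coeff j₀) * (t - c) ^ j₀ * u) = 1 := by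
      rw [hmain, hv1]
    rw [map_mul, h0, zero_mul] at h11
    exact zero_ne_one h11
  have hrest : W.valuation ((∑ j ∈ g.support.erase j₀,
      eval₂ k.subtype s (g.coeff j) * (t - c) ^ j) * u) < 1 := by
    have h12 := Valuation.map_sum_lt W.valuation hmne hstrict
    have h13 : W.valuation (eval₂ k.subtype s (g.coeff j₀) * (t - c) ^ j₀ * u) = 1 := by
      rw [hmain, hv1]
    rw [map_mul] at h13 ⊢
    have hu0 : 0 < W.valuation u := by
      rw [zero_lt_iff]
      intro h0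
      rw [h0, mul_zero] at h13
      exact zero_ne_one h13
    rw [← h13]
    exact mul_lt_mul_of_pos_right h12 hu0
  have hfin : apbEv k.subtype (t - c) s g * u = eval₂ k.subtype s (g.coeff j₀) * a j₀ +
      (∑ j ∈ g.support.erase j₀, eval₂ k.subtype s (g.coeff j) * (t - c) ^ j) * u := by
    rw [hsum, add_mul, hmain]
  have hmemr : (∑ j ∈ g.support.erase j₀, eval₂ k.subtype s (g.coeff j) * (t - c) ^ j) * u ∈ W :=
    (W.valuation_le_one_iff _).1 hrest.le
  have hres : rs W (apbEv k.subtype (t - c) s g * u) =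
      rs W (eval₂ k.subtype s (g.coeff j₀) * a j₀) := by
    rw [hfin, rs_add (mem_of_val hv1) hmemr, (rs_eq_zero hmemr).2 hrest, add_zero]
  refine ⟨j₀, a j₀, hak', ha0', ?_, ?_⟩
  · rw [← rs_ne_zero, hres]
    · exact (rs_ne_zero (mem_of_val hv1)).2 hv1
    · rw [hfin]
      exact add_mem (mem_of_val hv1) hmemr
  · rw [hres]
    exact hv2

/-- the field `k(s, t)`. -/
theorem bb_adj_le [PerfectField K] :
    adj (adj k s) t ≤ pf (Vale.Agent.P019.adj (Vale.Agent.P019.adj k s) t) :=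
  adj_le (pf_mono (Vale.Agent.P019.le_adj _ _))
    (le_pf _ (Vale.Agent.P019.mem_adj _ _))

theorem PBot.rep [PerfectField K] (hk : IsAlgClosed k) (h : PBot k t s W c) {z : K}
    (hz : z ∈ adj (adj k s) t) (hz0 : z ≠ 0) : ∃ (m : ℕ) (n : ℤ), ∃ a ∈ k, a ≠ 0 ∧
    W.valuation (z ^ ringExpChar K ^ m * (t - c) ^ n * a) = 1 ∧
    rs W (z ^ ringExpChar K ^ m * (t - c) ^ n * a) ∈
      Vale.Agent.P019.adj (rbar k W) (rs W s) := by
  obtain ⟨m, hm⟩ := mem_pf.1 (bb_adj_le hz)
  obtain ⟨f, g, hg, hfg⟩ := apb_mem_adj2 hm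
  have hw0 : z ^ ringExpChar K ^ m ≠ 0 := pow_ne_zero _ hz0
  have hf0 : f ≠ 0 := by
    rintro rfl
    rw [map_zero, zero_div] at hfg
    exact hw0 hfg
  have hg0 : g ≠ 0 := by
    rintro rfl
    rw [map_zero] at hg
    exact hg rfl
  obtain ⟨n₁, a₁, ha₁, ha₁0, h1, h2⟩ := h.poly2 hk hf0
  obtain ⟨n₂, a₂, ha₂, ha₂0, h3, h4⟩ := h.poly2 hk hg0
  have htc := sub_ne_zero.2 h.tne
  have key : z ^ ringExpChar K ^ m * (t - c) ^ ((n₂ : ℤ) - n₁) * (a₁ / a₂) =
      (apbEv k.subtype t s f * (((t - c) ^ n₁)⁻¹ * a₁)) *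
        (apbEv k.subtype t s g * (((t - c) ^ n₂)⁻¹ * a₂))⁻¹ := by
    rw [hfg, zpow_sub₀ htc, zpow_natCast, zpow_natCast]
    field_simp
  refine ⟨m, (n₂ : ℤ) - n₁, a₁ / a₂, k.div_mem ha₁ ha₂, div_ne_zero ha₁0 ha₂0, ?_, ?_⟩
  · rw [key, map_mul, map_inv₀, h1, h3, inv_one, mul_one]
  · have h5 : (apbEv k.subtype t s g * (((t - c) ^ n₂)⁻¹ * a₂))⁻¹ ∈ W := by
      rw [← W.valuation_le_one_iff, map_inv₀, h3, inv_one]
    rw [key, rs_mul (mem_of_val h1) h5, rs_inv h3]
    exact Subfield.mul_mem _ h2 (Subfield.inv_mem _ h4)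

theorem Bot0.pbot (h : Bot0 k t s W c) : PBot k t s W c where
  ck := h.ck
  cW := h.cW
  tc := h.tc
  tne := by
    rintro rfl
    have h1 := h.inf 0 k.zero_mem (by rw [map_zero]; exact zero_lt_one) 1
    rw [sub_self, pow_one] at h1
    exact lt_irrefl _ h1
  sW := h.sW
  sb := h.sb
  inf := h.inf

/-- the exponential characteristic of the residue field. -/
theorem rfp_char (W : ValuationSubring K) :
    ringExpChar K = 1 ∨ ringExpChar K = ringExpChar (RFP W) := by
  rcases expChar_is_prime_or_one K (ringExpChar K) with h | h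
  · right
    have h1 : ((ringExpChar K : ℕ) : K) = 0 := natCast_expChar_eq_zero K _ h
    have h2 : ((ringExpChar K : ℕ) : RFP W) = 0 := by
      have h3 : rf W (rs W ((ringExpChar K : ℕ) : K)) = ((ringExpChar K : ℕ) : RFP W) := by
        rw [rs_natCast, map_natCast]
      rw [← h3, h1, rs_zero, map_zero]
    haveI : CharP (RFP W) (ringExpChar K) := (CharP.charP_iff_prime_eq_zero h).2 h2
    haveI : ExpChar (RFP W) (ringExpChar K) := ExpChar.prime h
    exact (ringExpChar.eq (RFP W) (ringExpChar K)).symm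
  · exact Or.inl h

/-- perfect subfields of the perfect closure of the residue field. -/
theorem mem_of_pow_rfp {E : Subfield (RFP W)} [PerfectField E] {x : RFP W} {m : ℕ}
    (h : x ^ ringExpChar K ^ m ∈ E) : x ∈ E := by
  rcases rfp_char W with h1 | h1
  · rwa [h1, one_pow, pow_one] at h
  · rw [h1] at h
    exact mem_of_pow_q h

theorem rsP_mem_adj0 {x : IsLocalRing.ResidueField W}
    (hx : x ∈ Vale.Agent.P019.adj (rbar k W) (rs W s)) :
    rf W x ∈ adj (rbarP k W) (rsP W s) := by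
  have h1 : Vale.Agent.P019.adj (rbar k W) (rs W s) ≤
      (adj (rbarP k W) (rsP W s)).comap (rf W) := by
    refine Vale.Agent.P019.adj_le (fun y hy => ?_) ?_
    · exact le_adj _ _ (rf_mem_rbarP.2 hy)
    · exact mem_adj _ _
  exact h1 hx

/-- residues of the elements of `k(s, t)`. -/
theorem PBot.res_mem [PerfectField K] (hk : IsAlgClosed k) (h : PBot k t s W c) {z : K}
    (hz : z ∈ adj (adj k s) t) (hzW : z ∈ W) : rsP W z ∈ adj (rbarP k W) (rsP W s) := by
  by_cases hz1 : W.valuation z = 1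
  · have hz0 : z ≠ 0 := by rintro rfl; rw [map_zero] at hz1; exact zero_ne_one hz1
    obtain ⟨m, n, a, ha, ha0, h1, h2⟩ := h.rep hk hz hz0
    have h3 : W.valuation (a * (t - c) ^ n) = 1 := by
      rw [map_mul, map_mul, map_pow, hz1, one_pow, one_mul] at h1
      rw [map_mul, mul_comm]
      exact h1
    obtain ⟨hn, hva⟩ := h.inf' ha ha0 h3
    rw [hn, zpow_zero, mul_one, rs_mul (pow_mem hzW _) (mem_of_val hva), rs_pow hzW] at h2
    have h4 : rs W z ^ ringExpChar K ^ m ∈ Vale.Agent.P019.adj (rbar k W) (rs W s) := by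
      have h5 : rs W a ≠ 0 := (rs_ne_zero (mem_of_val hva)).2 hva
      have h6 := Subfield.div_mem _ h2
        (Vale.Agent.P019.le_adj _ (rs W s) (rs_mem_rbar ha (mem_of_val hva)))
      rwa [mul_div_cancel_right₀ _ h5] at h6
    have h7 := rsP_mem_adj0 h4
    rw [map_pow] at h7
    exact mem_of_pow_rfp h7
  · have h1 : W.valuation z < 1 := lt_of_le_of_ne ((W.valuation_le_one_iff z).2 hzW) hz1
    rw [(rsP_eq_zero hzW).2 h1]
    exact Subfield.zero_mem _

theorem Bot0.res_mem [PerfectField K] (hk : IsAlgClosed k) (h : Bot0 k t s W c) {z : K}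
    (hz : z ∈ adj (adj k s) t) (hzW : z ∈ W) : rsP W z ∈ adj (rbarP k W) (rsP W s) :=
  h.pbot.res_mem hk hz hzW

theorem Bot0.transc (hk : IsAlgClosed k) (h : Bot0 k t s W c) :
    ¬ IsAlgebraic (rbarP k W) (rsP W s) := fun h1 =>
  h.sb (rf_mem_rbarP.1 (RAC_of_isAlgClosed _ (rbarP_ac hk W) _ h1))

/-- reduction of the minimal polynomial of an element. -/
theorem bot_red [PerfectField K] {I : Type*} {U : Ultrafilter I} {W : I → ValuationSubring K}
    {c : I → K} (hk : IsAlgClosed k) (hS : Srf k t s)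
    (hW : ∀ᶠ i in U, Bot0 k t s (W i) (c i)) (hu : Ulu U W) (θ : K) :
    ∀ᶠ i in U, IsAlgebraic (adj (rbarP k (W i)) (rsP (W i) s)) (rsP (W i) θ) ∧
      (minpoly (adj (rbarP k (W i)) (rsP (W i) s)) (rsP (W i) θ)).natDegree ≤
        (minpoly (adj (adj k s) t) θ).natDegree := by
  classical
  set F := adj (adj k s) t with hF
  have hint : IsIntegral F θ := (hS.alg θ).isIntegral
  set d := (minpoly F θ).natDegree with hd
  have hmem : ∀ z : K, ∀ᶠ i in U, z ∈ W i := by
    intro z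
    by_cases hz : z = 0
    · rw [hz]; exact Eventually.of_forall fun i => (W i).zero_mem
    · exact (hu z hz).mono fun i hi => mem_of_val hi
  have hco : ∀ᶠ i in U, ∀ j ∈ Finset.range (d + 1), (((minpoly F θ).coeff j : F) : K) ∈ W i := by
    rw [Filter.eventually_all_finset]
    exact fun j _ => hmem _
  filter_upwards [hW, hmem θ, hco] with i h1 h2 h3
  set A := adj (rbarP k (W i)) (rsP (W i) s) with hA
  let a : ℕ → RFP (W i) := fun j => if j ∈ Finset.range (d + 1) then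
    rsP (W i) (((minpoly F θ).coeff j : F) : K) else 0
  have haA : ∀ j, a j ∈ A := by
    intro j
    by_cases hj : j ∈ Finset.range (d + 1)
    · simp only [a, if_pos hj]
      exact h1.res_mem hk ((minpoly F θ).coeff j).2 (h3 j hj)
    · simp only [a, if_neg hj]
      exact A.zero_mem
  have h4 : ∑ j ∈ Finset.range (d + 1), a j * rsP (W i) θ ^ j = 0 := by
    have h5 : ∑ j ∈ Finset.range (d + 1), (((minpoly F θ).coeff j : F) : K) * θ ^ j = 0 := by
      rw [← aeval_eq_sum_le hd.symm.le]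
      exact minpoly.aeval F θ
    have h6 := congrArg (rsP (W i)) h5
    rw [rsP_zero, rsP_sum _ _ fun j hj => mul_mem (h3 j hj) (pow_mem h2 j)] at h6
    rw [← h6]
    refine Finset.sum_congr rfl fun j hj => ?_
    rw [rsP_mul (h3 j hj) (pow_mem h2 j), rsP_pow h2]
    simp only [a, if_pos hj]
  have had : a d = 1 := by
    simp only [a, if_pos (Finset.mem_range.2 (Nat.lt_succ_self d))]
    rw [hd, coeff_natDegree, (minpoly.monic hint).leadingCoeff]
    exact rsP_one
  have h5 : aeval (rsP (W i) θ) (mkPol A d a haA) = 0 := by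
    rw [aeval_mkPol]
    exact h4
  have h6 : mkPol A d a haA ≠ 0 := by
    intro h0
    have h7 := congrArg (fun p => ((p.coeff d : A) : RFP (W i))) h0
    simp only [coeff_zero] at h7
    rw [coeff_mkPol le_rfl] at h7
    change a d = 0 at h7
    rw [had] at h7
    exact one_ne_zero h7
  exact ⟨⟨_, h6, h5⟩, (natDegree_le_of_dvd (minpoly.dvd A _ h5) h6).trans natDegree_mkPol⟩

end botb

end Vale.Agent.P019P
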