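import Vale.Agent.P019Q.URat

/-!
# Ultraproducts of families of fields
-/

namespace Vale.Agent.P019P

open Vale.Agent.P019

set_option linter.style.haveILetI false
set_option linter.unusedSectionVars false

open Polynomial Filter

section dg

variable {I : Type*} (U : Ultrafilter I) (κ : I → Type*) [∀ i, Field (κ i)]

/-- families vanishing almost everywhere. -/
def dgI : Ideal (∀ i, κ i) where
  carrier := {f | ∀ᶠ i in U, f i = 0}
  zero_mem' := Eventually.of_forall fun _ => rfl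
  add_mem' := fun {f g} (hf : ∀ᶠ i in U, f i = 0) (hg : ∀ᶠ i in U, g i = 0) =>
    (hf.and hg).mono fun i hi => by
      change f i + g i = 0
      rw [hi.1, hi.2, add_zero]
  smul_mem' := fun c f (hf : ∀ᶠ i in U, f i = 0) => hf.mono fun i hi => by
    change c i * f i = 0
    rw [hi, mul_zero]

theorem mem_dgI {f : ∀ i, κ i} : f ∈ dgI U κ ↔ ∀ᶠ i in U, f i = 0 := Iff.rfl

instance dgI_max : (dgI U κ).IsMaximal := by
  rw [Ideal.isMaximal_iff]
  refine ⟨fun h => ?_, fun J f hJ hf hfJ => ?_⟩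
  · rw [mem_dgI] at h
    obtain ⟨i, hi⟩ := h.exists
    exact one_ne_zero hi
  · rw [mem_dgI, ← Ultrafilter.eventually_not] at hf
    have h1 : (1 - f * fun i => (f i)⁻¹) ∈ dgI U κ := by
      rw [mem_dgI]
      refine hf.mono fun i hi => ?_
      change 1 - f i * (f i)⁻¹ = 0
      rw [mul_inv_cancel₀ hi, sub_self]
    have h2 := J.add_mem (hJ h1) (J.mul_mem_right (fun i => (f i)⁻¹) hfJ)
    rwa [sub_add_cancel] at h2

/-- the ultraproduct. -/
def DGm : Type _ := (∀ i, κ i) ⧸ dgI U κ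

noncomputable instance DGm.field : Field (DGm U κ) := Ideal.Quotient.field (dgI U κ)

/-- the class of a family. -/
noncomputable def dgm : (∀ i, κ i) →+* DGm U κ := Ideal.Quotient.mk (dgI U κ)

theorem dgm_surj (z : DGm U κ) : ∃ f : ∀ i, κ i, dgm U κ f = z := Ideal.Quotient.mk_surjective z

variable {U κ}

theorem dgm_eq_zero {f : ∀ i, κ i} : dgm U κ f = 0 ↔ ∀ᶠ i in U, f i = 0 :=
  Ideal.Quotient.eq_zero_iff_mem

theorem dgm_eq {f g : ∀ i, κ i} : dgm U κ f = dgm U κ g ↔ ∀ᶠ i in U, f i = g i := by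
  rw [← sub_eq_zero, ← map_sub, dgm_eq_zero]
  simp only [Pi.sub_apply, sub_eq_zero]

theorem dgm_ne {f g : ∀ i, κ i} : dgm U κ f ≠ dgm U κ g ↔ ∀ᶠ i in U, f i ≠ g i := by
  rw [Ne, dgm_eq, Ultrafilter.eventually_not]

theorem dgm_ne_zero {f : ∀ i, κ i} : dgm U κ f ≠ 0 ↔ ∀ᶠ i in U, f i ≠ 0 := by
  rw [Ne, dgm_eq_zero, Ultrafilter.eventually_not]

theorem dgm_mul (f g : ∀ i, κ i) : dgm U κ (fun i => f i * g i) = dgm U κ f * dgm U κ g :=
  map_mul (dgm U κ) f g

theorem dgm_add (f g : ∀ i, κ i) : dgm U κ (fun i => f i + g i) = dgm U κ f + dgm U κ g :=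
  map_add (dgm U κ) f g

theorem dgm_neg (f : ∀ i, κ i) : dgm U κ (fun i => - f i) = - dgm U κ f :=
  map_neg (dgm U κ) f

theorem dgm_sub (f g : ∀ i, κ i) : dgm U κ (fun i => f i - g i) = dgm U κ f - dgm U κ g :=
  map_sub (dgm U κ) f g

theorem dgm_pow (f : ∀ i, κ i) (n : ℕ) : dgm U κ (fun i => f i ^ n) = dgm U κ f ^ n :=
  map_pow (dgm U κ) f n

theorem dgm_inv (f : ∀ i, κ i) : dgm U κ (fun i => (f i)⁻¹) = (dgm U κ f)⁻¹ := by
  by_cases h : dgm U κ f = 0
  · rw [h, inv_zero, dgm_eq_zero]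
    exact (dgm_eq_zero.1 h).mono fun i hi => by rw [hi, inv_zero]
  · refine eq_inv_of_mul_eq_one_left ?_
    rw [← dgm_mul, ← map_one (dgm U κ), dgm_eq]
    refine (dgm_ne_zero.1 h).mono fun i hi => ?_
    exact inv_mul_cancel₀ hi

theorem dgm_div (f g : ∀ i, κ i) : dgm U κ (fun i => f i / g i) = dgm U κ f / dgm U κ g := by
  rw [div_eq_mul_inv, ← dgm_inv, ← dgm_mul]
  simp only [div_eq_mul_inv]

theorem dgm_sum {ι : Type*} (s : Finset ι) (f : ι → ∀ i, κ i) :
    dgm U κ (fun i => ∑ j ∈ s, f j i) = ∑ j ∈ s, dgm U κ (f j) := by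
  rw [← map_sum]
  congr 1
  ext i
  rw [Finset.sum_apply]

theorem dgm_natCast (n : ℕ) : dgm U κ (fun _ => (n : _)) = (n : DGm U κ) :=
  map_natCast (dgm U κ) n

/-- the characteristic of almost all factors if the ultraproduct has positive characteristic. -/
theorem dgm_char {p : ℕ} [Fact p.Prime] [CharP (DGm U κ) p] :
    ∀ᶠ i in U, CharP (κ i) p := by
  have h1 : ((p : ℕ) : DGm U κ) = 0 := CharP.cast_eq_zero _ p
  rw [← dgm_natCast, dgm_eq_zero] at h1
  refine h1.mono fun i hi => ?_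
  exact (CharP.charP_iff_prime_eq_zero (Fact.out : p.Prime)).2 hi

instance perfect_dgm [∀ i, PerfectField (κ i)] : PerfectField (DGm U κ) := by
  obtain ⟨p, hp⟩ := ExpChar.exists (DGm U κ)
  haveI : PerfectRing (DGm U κ) p := by
    cases hp with
    | zero => infer_instance
    | prime hp' =>
      haveI : Fact p.Prime := ⟨hp'⟩
      refine PerfectRing.ofSurjective _ _ fun z => ?_
      obtain ⟨f, rfl⟩ := dgm_surj U κ z
      have h : ∀ i, ∃ y : κ i, CharP (κ i) p → y ^ p = f i := by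
        intro i
        by_cases hi : CharP (κ i) p
        · haveI := hi
          haveI : ExpChar (κ i) p := ExpChar.prime hp'
          obtain ⟨y, hy⟩ := (PerfectField.toPerfectRing (K := κ i) p).bijective_frobenius.2 (f i)
          exact ⟨y, fun _ => hy⟩
        · exact ⟨0, fun h => absurd h hi⟩
      choose y hy using h
      refine ⟨dgm U κ y, ?_⟩
      rw [frobenius_def, ← dgm_pow, dgm_eq]
      exact dgm_char.mono fun i hi => hy i hi
  exact PerfectRing.toPerfectField (DGm U κ) p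

/-- ultraproducts of subfields. -/
def dSub (U : Ultrafilter I) (E : ∀ i, Subfield (κ i)) : Subfield (DGm U κ) where
  carrier := {z | ∃ f : ∀ i, κ i, dgm U κ f = z ∧ ∀ i, f i ∈ E i}
  mul_mem' := by
    rintro _ _ ⟨f, rfl, hf⟩ ⟨g, rfl, hg⟩
    exact ⟨fun i => f i * g i, dgm_mul f g, fun i => (E i).mul_mem (hf i) (hg i)⟩
  one_mem' := ⟨1, map_one _, fun i => (E i).one_mem⟩
  add_mem' := by
    rintro _ _ ⟨f, rfl, hf⟩ ⟨g, rfl, hg⟩
    exact ⟨fun i => f i + g i, dgm_add f g, fun i => (E i).add_mem (hf i) (hg i)⟩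
  zero_mem' := ⟨0, map_zero _, fun i => (E i).zero_mem⟩
  neg_mem' := by
    rintro _ ⟨f, rfl, hf⟩
    exact ⟨fun i => - f i, dgm_neg f, fun i => (E i).neg_mem (hf i)⟩
  inv_mem' := by
    rintro _ ⟨f, rfl, hf⟩
    exact ⟨fun i => (f i)⁻¹, dgm_inv f, fun i => (E i).inv_mem (hf i)⟩

theorem dgm_mem_dSub {E : ∀ i, Subfield (κ i)} {f : ∀ i, κ i} :
    dgm U κ f ∈ dSub U E ↔ ∀ᶠ i in U, f i ∈ E i := by
  classical
  constructor
  · rintro ⟨g, hg, hgE⟩
    exact (dgm_eq.1 hg).mono fun i hi => hi ▸ hgE i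
  · intro h
    refine ⟨fun i => if f i ∈ E i then f i else 0, ?_, fun i => ?_⟩
    · exact dgm_eq.2 (h.mono fun i hi => if_pos hi)
    · dsimp only
      split_ifs with hi
      · exact hi
      · exact (E i).zero_mem

theorem dSub_mono {E F : ∀ i, Subfield (κ i)} (h : ∀ i, E i ≤ F i) : dSub U E ≤ dSub U F := by
  rintro _ ⟨f, rfl, hf⟩
  exact ⟨f, rfl, fun i => h i (hf i)⟩

theorem isAlgClosed_dSub {E : ∀ i, Subfield (κ i)} (h : ∀ i, IsAlgClosed (E i)) :
    IsAlgClosed (dSub U E) := by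
  refine IsAlgClosed.of_exists_root _ ?_
  intro p hmon hirr
  -- lifts of the coefficients
  have h1 : ∀ j, ∃ f : ∀ i, κ i, dgm U κ f = ((p.coeff j : dSub U E) : DGm U κ) ∧
      ∀ i, f i ∈ E i := fun j => (p.coeff j).2
  choose f hf hfE using h1
  set n := p.natDegree with hn
  have hn0 : 0 < n := hirr.natDegree_pos
  have h2 : ∀ i, ∃ x : E i, ((x : κ i)) ^ n + ∑ j ∈ Finset.range n, f j i * (x : κ i) ^ j = 0 := by
    intro i
    haveI := h i
    let P : (E i)[X] := X ^ n + ∑ j ∈ Finset.range n, C ⟨f j i, hfE j i⟩ * X ^ j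
    have hdeg : P.degree = (n : WithBot ℕ) := by
      have h3 : (∑ j ∈ Finset.range n, C (⟨f j i, hfE j i⟩ : E i) * X ^ j).degree <
          (n : WithBot ℕ) := by
        refine (degree_sum_le _ _).trans_lt ?_
        rw [Finset.sup_lt_iff (by exact_mod_cast WithBot.bot_lt_coe n)]
        intro j hj
        refine (degree_C_mul_X_pow_le _ _).trans_lt ?_
        exact_mod_cast Finset.mem_range.1 hj
      change (X ^ n + ∑ j ∈ Finset.range n, C (⟨f j i, hfE j i⟩ : E i) * X ^ j).degree =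
        (n : WithBot ℕ)
      rw [degree_add_eq_left_of_degree_lt]
      · rw [degree_X_pow]
      · rw [degree_X_pow]; exact h3
    obtain ⟨x, hx⟩ := IsAlgClosed.exists_root P (by
      rw [hdeg]; exact_mod_cast hn0.ne')
    refine ⟨x, ?_⟩
    have h4 : eval x P = 0 := hx
    have h5 := congrArg (Subfield.subtype (E i)) h4
    simp only [P, eval_add, eval_pow, eval_X, eval_finsetSum, eval_mul, eval_C, map_add, map_pow,
      map_sum, map_mul, map_zero, Subfield.subtype_apply] at h5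
    exact h5
  choose x hx using h2
  refine ⟨⟨dgm U κ (fun i => (x i : κ i)), ⟨_, rfl, fun i => (x i).2⟩⟩, ?_⟩
  apply Subtype.ext
  have h6 : ((eval (⟨dgm U κ (fun i => (x i : κ i)), ⟨_, rfl, fun i => (x i).2⟩⟩ : dSub U E) p :
      dSub U E) : DGm U κ) =
      dgm U κ (fun i => ((x i : κ i)) ^ n + ∑ j ∈ Finset.range n, f j i * (x i : κ i) ^ j) := by
    rw [dgm_add, dgm_pow, dgm_sum]
    conv_lhs => rw [hmon.as_sum]
    rw [eval_add, eval_pow, eval_X, eval_finsetSum]
    simp only [eval_mul, eval_C, eval_pow, eval_X, Subfield.coe_add, SubmonoidClass.coe_pow,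
      AddSubmonoidClass.coe_finsetSum, Subfield.coe_mul, dgm_mul, dgm_pow, hf]
    rfl
  change ((eval (⟨dgm U κ (fun i => (x i : κ i)), ⟨_, rfl, fun i => (x i).2⟩⟩ : dSub U E) p :
      dSub U E) : DGm U κ) = 0
  rw [h6]
  refine (congrArg (dgm U κ) (funext hx)).trans ?_
  exact map_zero (dgm U κ)

end dg

end Vale.Agent.P019P
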