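import Vale.Agent.P019R.DG
import Vale.Agent.P019Q.SA3

/-!
# Rational functions in an ultraproduct
-/

namespace Vale.Agent.P019P

open Vale.Agent.P019

set_option linter.style.haveILetI false
set_option linter.unusedSectionVars false

open Polynomial Filter

section drat

attribute [local irreducible] DGm.field

variable {I : Type*} {U : Ultrafilter I} {κ : I → Type*} [∀ i, Field (κ i)]

/-- lifts of polynomials. -/
theorem exists_dlift_coeff {E : ∀ i, Subfield (κ i)} (A : (dSub U E)[X]) :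
    ∃ α : ℕ → ∀ i, κ i, (∀ j, dgm U κ (α j) = ((A.coeff j : dSub U E) : DGm U κ)) ∧
      ∀ j i, α j i ∈ E i := by
  have h1 : ∀ j, ∃ f : ∀ i, κ i, dgm U κ f = ((A.coeff j : dSub U E) : DGm U κ) ∧ ∀ i, f i ∈ E i :=
    fun j => (A.coeff j).2
  choose f hf hfE using h1
  exact ⟨f, hf, hfE⟩

/-- transcendence in the ultrapower. -/
theorem dgm_transc {E : ∀ i, Subfield (κ i)} {g : ∀ i, κ i} (hg : ∀ᶠ i in U, ¬ IsAlgebraic (E i) (g i)) :
    ¬ IsAlgebraic (dSub U E) (dgm U κ g) := by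
  rintro ⟨A, hA0, hA⟩
  obtain ⟨α, hα, hαE⟩ := exists_dlift_coeff A
  obtain ⟨j, hj⟩ : ∃ j, A.coeff j ≠ 0 := by
    by_contra hcon
    push Not at hcon
    exact hA0 (Polynomial.ext fun j => by rw [hcon j, coeff_zero])
  have hjd : j ≤ A.natDegree := le_natDegree_of_ne_zero hj
  have h1 : ∀ᶠ i in U, α j i ≠ 0 := by
    have h2 : dgm U κ (α j) ≠ 0 := by
      rw [hα]
      intro h
      exact hj (Subtype.ext h)
    rw [← map_zero (dgm U κ)] at h2
    exact dgm_ne.1 h2
  have h3 : ∀ᶠ i in U, ∑ j ∈ Finset.range (A.natDegree + 1), α j i * g i ^ j = 0 := by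
    rw [← dgm_eq_zero, ← hA, aeval_eq_sum_le le_rfl, dgm_sum]
    refine Finset.sum_congr rfl fun j _ => ?_
    rw [dgm_mul, dgm_pow, hα]
  obtain ⟨i, hi1, hi2, hi3⟩ := (h1.and (h3.and hg)).exists
  refine hi3 ⟨mkPol (E i) A.natDegree (fun j => α j i) (fun j => hαE j i), ?_, ?_⟩
  · intro h
    have h4 := congrArg (fun p => ((p.coeff j : E i) : κ i)) h
    simp only [coeff_zero] at h4
    rw [coeff_mkPol hjd] at h4
    exact hi1 h4
  · rw [aeval_mkPol]
    exact hi2

variable [∀ i, PerfectField (κ i)]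

/-- rational functions are relatively algebraically closed in the ultraproduct. -/
theorem rat_dgm {E : ∀ i, Subfield (κ i)} {g : ∀ i, κ i}
    (hg : ∀ᶠ i in U, ¬ IsAlgebraic (E i) (g i)) {r : DGm U κ}
    (hr : r ∈ dSub U (fun i => adj (E i) (g i)))
    (halg : IsAlgebraic (adj (dSub U E) (dgm U κ g)) r) : r ∈ adj (dSub U E) (dgm U κ g) := by
  classical
  have hgt : ¬ IsAlgebraic (dSub U E) (dgm U κ g) := dgm_transc hg
  by_cases hr0 : r = 0
  · rw [hr0]; exact Subfield.zero_mem _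
  obtain ⟨f, rfl, hf⟩ := hr
  set F := adj (dSub U E) (dgm U κ g) with hF
  set F0 := Vale.Agent.P019.adj (dSub U E) (dgm U κ g) with hF0
  set r : DGm U κ := dgm U κ f with hrdef
  set m := minpoly F r with hm
  have hint : IsIntegral F r := halg.isIntegral
  have hsep : m.Separable := PerfectField.separable_of_irreducible (minpoly.irreducible hint)
  set n := m.natDegree with hn
  -- common exponent
  have hN : ∃ N : ℕ, ∀ i ∈ Finset.range (n + 1),
      ((m.coeff i : F) : DGm U κ) ^ (ringExpChar (DGm U κ)) ^ N ∈ F0 := by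
    have h1 : ∀ i, ∃ N : ℕ, ((m.coeff i : F) : DGm U κ) ^ (ringExpChar (DGm U κ)) ^ N ∈ F0 := by
      intro i
      exact mem_pf.1 (m.coeff i).2
    choose N hN using h1
    refine ⟨(Finset.range (n + 1)).sup N, fun i hi => ?_⟩
    obtain ⟨k, hk⟩ := Nat.exists_eq_add_of_le (Finset.le_sup (f := N) hi)
    rw [hk, pow_add, pow_mul]
    exact Subfield.pow_mem _ (hN i) _
  obtain ⟨N, hN⟩ := hN
  let φ : DGm U κ →+* DGm U κ := iterateFrobenius (DGm U κ) (ringExpChar (DGm U κ)) N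
  have hφ : ∀ z, φ z = z ^ (ringExpChar (DGm U κ)) ^ N := fun z => iterateFrobenius_def _ _ _
  let c : ℕ → DGm U κ := fun i => φ ((m.coeff i : F) : DGm U κ)
  have hcF : ∀ i ∈ Finset.range (n + 1), c i ∈ F0 := by
    intro i hi
    change φ _ ∈ F0
    rw [hφ]
    exact hN i hi
  set ρ := φ r with hρ
  have hsum0 : ∑ i ∈ Finset.range (n + 1), c i * ρ ^ i = 0 := by
    have h1 : aeval r m = 0 := minpoly.aeval F r
    rw [aeval_eq_sum_le le_rfl] at h1
    have h2 := congrArg φ h1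
    rw [map_sum, map_zero] at h2
    rw [← h2]
    refine Finset.sum_congr rfl fun i _ => ?_
    rw [map_mul, map_pow]
  have hsum1 : ∑ i ∈ Finset.range (n + 1), c i * ((i : DGm U κ) * ρ ^ (i - 1)) ≠ 0 := by
    have h1 : aeval r (derivative m) ≠ 0 := by
      intro h
      obtain ⟨a, b, hab⟩ := hsep
      have h2 := congrArg (aeval r) hab
      rw [map_add, map_mul, map_mul, minpoly.aeval, h, mul_zero, mul_zero, add_zero, map_one] at h2
      exact zero_ne_one h2
    intro h2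
    apply h1
    apply φ.injective
    rw [map_zero, ← h2]
    conv_lhs => rw [m.as_sum_range]
    rw [derivative_sum, map_sum, map_sum]
    refine Finset.sum_congr rfl fun i _ => ?_
    rw [derivative_monomial, aeval_monomial, map_mul, map_pow, map_mul, map_mul, map_natCast,
      map_natCast]
    change c i * _ * _ = _
    ring
  obtain ⟨D, hD0, hDA⟩ := common_den hgt c (Finset.range (n + 1)) hcF
  have hDg : aeval (dgm U κ g) D ≠ 0 := aeval_ne_of_transc hgt hD0
  choose! A hA using hDA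
  -- extend by zero
  have hcn : c n ≠ 0 := by
    change φ _ ≠ 0
    rw [hn, hm, coeff_natDegree, (minpoly.monic hint).leadingCoeff]
    rw [show (((1 : F) : F) : DGm U κ) = 1 from rfl, map_one]
    exact one_ne_zero
  have hc0 : c 0 ≠ 0 := by
    change φ _ ≠ 0
    rw [Ne, map_eq_zero]
    intro h
    exact minpoly.coeff_zero_ne_zero hint hr0 (Subtype.ext h)
  have hAne : ∀ i ∈ Finset.range (n + 1), c i ≠ 0 → A i ≠ 0 := by
    intro i hi hci h
    have h1 := hA i hi
    rw [h, map_zero] at h1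
    exact mul_ne_zero hDg hci h1.symm
  set H := (Finset.range (n + 1)).sup (fun i => (A i).natDegree) with hH
  have hAH : ∀ i ∈ Finset.range (n + 1), (A i).natDegree ≤ H := fun i hi =>
    Finset.le_sup (f := fun i => (A i).natDegree) hi
  have hlift : ∀ i, ∃ α : ℕ → ∀ i, κ i, (∀ j, dgm U κ (α j) = (((A i).coeff j : dSub U E) : DGm U κ)) ∧
      ∀ j ι, α j ι ∈ E ι := fun i => exists_dlift_coeff (A i)
  choose α hα hαE using hlift
  have hev : ∀ i ∈ Finset.range (n + 1), aeval (dgm U κ g) (A i) =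
      dgm U κ (fun ι => ∑ j ∈ Finset.range (H + 1), α i j ι * g ι ^ j) := by
    intro i hi
    rw [aeval_eq_sum_le (hAH i hi), dgm_sum]
    refine Finset.sum_congr rfl fun j _ => ?_
    rw [dgm_mul, dgm_pow, hα]
  have hρg : ρ = dgm U κ (fun ι => f ι ^ (ringExpChar (DGm U κ)) ^ N) := by
    rw [hρ, hφ, dgm_pow]
  have hne : ∀ i ∈ Finset.range (n + 1), A i ≠ 0 →
      ∀ᶠ ι in U, mkPol (E ι) H (fun j => α i j ι) (fun j => hαE i j ι) ≠ 0 := by
    intro i hi hAi
    obtain ⟨j, hj⟩ : ∃ j, (A i).coeff j ≠ 0 := by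
      by_contra hcon
      push Not at hcon
      exact hAi (Polynomial.ext fun j => by rw [hcon j, coeff_zero])
    have hjd : j ≤ H := (le_natDegree_of_ne_zero hj).trans (hAH i hi)
    have h1 : ∀ᶠ ι in U, α i j ι ≠ 0 := by
      have h2 : dgm U κ (α i j) ≠ 0 := by
        rw [hα]
        intro h
        exact hj (Subtype.ext h)
      rw [← map_zero (dgm U κ)] at h2
      exact dgm_ne.1 h2
    refine h1.mono fun ι hι h => hι ?_
    have h4 := congrArg (fun p => ((p.coeff j : E ι) : κ ι)) h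
    simp only [coeff_zero] at h4
    rw [coeff_mkPol hjd] at h4
    exact h4
  have e0 : ∀ᶠ ι in U, ∑ i ∈ Finset.range (n + 1),
      (∑ j ∈ Finset.range (H + 1), α i j ι * g ι ^ j) *
        (f ι ^ (ringExpChar (DGm U κ)) ^ N) ^ i = 0 := by
    rw [← dgm_eq_zero, dgm_sum]
    have h1 : ∑ i ∈ Finset.range (n + 1), dgm U κ (fun ι =>
        (∑ j ∈ Finset.range (H + 1), α i j ι * g ι ^ j) * (f ι ^ (ringExpChar (DGm U κ)) ^ N) ^ i) =
        aeval (dgm U κ g) D * ∑ i ∈ Finset.range (n + 1), c i * ρ ^ i := by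
      rw [Finset.mul_sum]
      refine Finset.sum_congr rfl fun i hi => ?_
      rw [dgm_mul, ← hev i hi, hA i hi, dgm_pow, ← hρg]
      ring
    rw [h1, hsum0, mul_zero]
  have e1 : ∀ᶠ ι in U, ∑ i ∈ Finset.range (n + 1),
      (∑ j ∈ Finset.range (H + 1), α i j ι * g ι ^ j) *
        ((i : κ ι) * (f ι ^ (ringExpChar (DGm U κ)) ^ N) ^ (i - 1)) ≠ 0 := by
    have h2 : dgm U κ (fun ι => ∑ i ∈ Finset.range (n + 1),
      (∑ j ∈ Finset.range (H + 1), α i j ι * g ι ^ j) *
        ((i : κ ι) * (f ι ^ (ringExpChar (DGm U κ)) ^ N) ^ (i - 1))) ≠ dgm U κ 0 := by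
      rw [map_zero, dgm_sum]
      have h1 : ∑ i ∈ Finset.range (n + 1), dgm U κ (fun ι =>
          (∑ j ∈ Finset.range (H + 1), α i j ι * g ι ^ j) *
            ((i : κ ι) * (f ι ^ (ringExpChar (DGm U κ)) ^ N) ^ (i - 1))) =
          aeval (dgm U κ g) D * ∑ i ∈ Finset.range (n + 1), c i * ((i : DGm U κ) * ρ ^ (i - 1)) := by
        rw [Finset.mul_sum]
        refine Finset.sum_congr rfl fun i hi => ?_
        rw [dgm_mul, ← hev i hi, hA i hi, dgm_mul, dgm_pow, ← hρg]
        have h3 : dgm U κ (fun ι => (i : κ ι)) = (i : DGm U κ) := map_natCast (dgm U κ) i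
        rw [h3]
        ring
      rw [h1]
      exact mul_ne_zero hDg hsum1
    exact dgm_ne.1 h2
  have h0n : (0 : ℕ) ∈ Finset.range (n + 1) := Finset.mem_range.2 (Nat.succ_pos n)
  have hnn : n ∈ Finset.range (n + 1) := Finset.mem_range.2 (Nat.lt_succ_self n)
  have hfin : ∀ᶠ ι in U, ∃ u v : (E ι)[X], u.natDegree ≤ H ∧ v.natDegree ≤ H ∧ v ≠ 0 ∧
      (f ι ^ (ringExpChar (DGm U κ)) ^ N) * aeval (g ι) v = aeval (g ι) u := by
    filter_upwards [hg, e0, e1, hne 0 h0n (hAne 0 h0n hc0), hne n hnn (hAne n hnn hcn)]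
      with ι h1 h2 h3 h4 h5
    refine rat_root h1 (Subfield.pow_mem _ (hf ι) _) (n := n)
      (fun i => mkPol (E ι) H (fun j => α i j ι) (fun j => hαE i j ι))
      (fun i => natDegree_mkPol) h4 h5 ?_ ?_
    · simp only [aeval_mkPol]
      exact h2
    · simp only [aeval_mkPol]
      exact h3
  have hex : ∀ ι, ∃ u v : (E ι)[X], ((∃ u v : (E ι)[X], u.natDegree ≤ H ∧ v.natDegree ≤ H ∧
      v ≠ 0 ∧ (f ι ^ (ringExpChar (DGm U κ)) ^ N) * aeval (g ι) v = aeval (g ι) u) →
      u.natDegree ≤ H ∧ v.natDegree ≤ H ∧ v ≠ 0 ∧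
      (f ι ^ (ringExpChar (DGm U κ)) ^ N) * aeval (g ι) v = aeval (g ι) u) := by
    intro ι
    by_cases h : ∃ u v : (E ι)[X], u.natDegree ≤ H ∧ v.natDegree ≤ H ∧
      v ≠ 0 ∧ (f ι ^ (ringExpChar (DGm U κ)) ^ N) * aeval (g ι) v = aeval (g ι) u
    · obtain ⟨u, v, huv⟩ := h
      exact ⟨u, v, fun _ => huv⟩
    · exact ⟨0, 0, fun h' => absurd h' h⟩
  choose u v huv using hex
  have hmem : ∀ w : (ι : I) → (E ι)[X],
      dgm U κ (fun ι => ∑ j ∈ Finset.range (H + 1), (((w ι).coeff j : E ι) : κ ι) * g ι ^ j) ∈ F0 := by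
    intro w
    rw [dgm_sum]
    refine sum_mem fun j _ => ?_
    rw [dgm_mul, dgm_pow]
    refine mul_mem (Vale.Agent.P019.le_adj _ _ ?_)
      (pow_mem (Vale.Agent.P019.mem_adj _ _) j)
    exact ⟨_, rfl, fun ι => ((w ι).coeff j).2⟩
  have hv0 : dgm U κ (fun ι => ∑ j ∈ Finset.range (H + 1), (((v ι).coeff j : E ι) : κ ι) * g ι ^ j) ≠
      dgm U κ 0 := by
    rw [dgm_ne]
    filter_upwards [hfin, hg] with ι h1 h2
    obtain ⟨-, h3, h4, -⟩ := huv ι h1
    rw [← aeval_eq_sum_le h3]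
    exact aeval_ne_of_transc h2 h4
  rw [map_zero] at hv0
  have hρv : ρ * dgm U κ (fun ι => ∑ j ∈ Finset.range (H + 1), (((v ι).coeff j : E ι) : κ ι) * g ι ^ j) =
      dgm U κ (fun ι => ∑ j ∈ Finset.range (H + 1), (((u ι).coeff j : E ι) : κ ι) * g ι ^ j) := by
    rw [hρg, ← dgm_mul, dgm_eq]
    filter_upwards [hfin] with ι h1
    obtain ⟨h5, h3, h4, h6⟩ := huv ι h1
    rw [← aeval_eq_sum_le h3, ← aeval_eq_sum_le h5]
    exact h6
  have hρF : ρ ∈ F0 := by
    rw [← eq_div_iff hv0] at hρv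
    rw [hρv]
    exact Subfield.div_mem _ (hmem u) (hmem v)
  rw [hρ, hφ] at hρF
  exact mem_pf.2 ⟨N, hρF⟩

/-- the characteristic exponents of almost all factors. -/
theorem dgm_expChar : ∀ᶠ i in (U : Filter I), ringExpChar (DGm U κ) = 1 ∨
    ringExpChar (κ i) = ringExpChar (DGm U κ) := by
  obtain ⟨p, hp⟩ := ExpChar.exists (DGm U κ)
  rw [ringExpChar.eq (DGm U κ) p]
  cases hp with
  | zero => exact Eventually.of_forall fun i => Or.inl rfl
  | prime hp' =>
    haveI : Fact p.Prime := ⟨hp'⟩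
    refine (dgm_char (U := U) (κ := κ) (p := p)).mono fun i hi => Or.inr ?_
    haveI := hi
    haveI : ExpChar (κ i) p := ExpChar.prime hp'
    exact ringExpChar.eq (κ i) p

/-- simple extensions of ultraproducts. -/
theorem adj_le_dSub {E : ∀ i, Subfield (κ i)} {g : ∀ i, κ i} :
    adj (dSub U E) (dgm U κ g) ≤ dSub U (fun i => adj (E i) (g i)) := by
  have h0 : Vale.Agent.P019.adj (dSub U E) (dgm U κ g) ≤
      dSub U (fun i => Vale.Agent.P019.adj (E i) (g i)) := by
    refine sup_le (dSub_mono fun i => Vale.Agent.P019.le_adj _ _) ?_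
    rw [Subfield.closure_le]
    rintro _ rfl
    exact dgm_mem_dSub.2 (Eventually.of_forall fun i => Vale.Agent.P019.mem_adj _ _)
  intro z hz
  obtain ⟨n, hn⟩ := mem_pf.1 hz
  obtain ⟨f, rfl⟩ := dgm_surj U κ z
  have h1 := h0 hn
  rw [← dgm_pow, dgm_mem_dSub] at h1
  rw [dgm_mem_dSub]
  filter_upwards [h1, dgm_expChar (U := U) (κ := κ)] with i hi hq
  rcases hq with hq | hq
  · rw [hq, one_pow, pow_one] at hi
    exact adj0_le_adj _ _ hi
  · rw [← hq] at hi
    exact mem_pf.2 ⟨n, hi⟩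

/-- limits of bounded relations. -/
theorem dgm_alg_of_brel {E : ∀ i, Subfield (κ i)} (hE : ∀ i, IsAlgClosed (E i))
    {X Y : ∀ i, κ i} (hX : dgm U κ X ∉ dSub U E) {d : ℕ}
    (h : ∀ᶠ i in (U : Filter I), BRel (E i) d (X i) (Y i)) :
    IsAlgebraic (adj (dSub U E) (dgm U κ X)) (dgm U κ Y) := by
  classical
  have h1 : ∀ i, ∃ c : ℕ → ℕ → κ i, (∀ a b, c a b ∈ E i) ∧ (BRel (E i) d (X i) (Y i) →
      (∃ a ∈ Finset.range (d + 1), ∃ b ∈ Finset.range (d + 1), c a b ≠ 0) ∧
      ∑ a ∈ Finset.range (d + 1), ∑ b ∈ Finset.range (d + 1), c a b * X i ^ a * Y i ^ b = 0) := by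
    intro i
    by_cases hi : BRel (E i) d (X i) (Y i)
    · obtain ⟨c, hc, hc0, hcs⟩ := hi
      exact ⟨c, hc, fun _ => ⟨hc0, hcs⟩⟩
    · exact ⟨fun _ _ => 0, fun _ _ => (E i).zero_mem, fun h' => absurd h' hi⟩
  choose c hc hcr using h1
  have hcu : ∀ a b, dgm U κ (fun i => c i a b) ∈ dSub U E :=
    fun a b => ⟨fun i => c i a b, rfl, fun i => hc i a b⟩
  refine brel_alg (RAC_of_isAlgClosed _ (isAlgClosed_dSub hE)) hX (d := d)
    (c := fun a b => dgm U κ (fun i => c i a b)) hcu ?_ ?_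
  · have h3 : ∃ a ∈ Finset.range (d + 1), ∃ b ∈ Finset.range (d + 1),
        ∀ᶠ i in (U : Filter I), c i a b ≠ 0 := by
      by_contra hcon
      push Not at hcon
      have h4 : ∀ᶠ i in (U : Filter I), ∀ a ∈ Finset.range (d + 1),
          ∀ b ∈ Finset.range (d + 1), c i a b = 0 := by
        rw [Filter.eventually_all_finset]
        intro a ha
        rw [Filter.eventually_all_finset]
        intro b hb
        exact hcon a ha b hb
      obtain ⟨i, hi, hb⟩ := (h4.and h).exists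
      obtain ⟨⟨a, ha, b, hb, hab⟩, -⟩ := hcr i hb
      exact hab (hi a ha b hb)
    obtain ⟨a, ha, b, hb, hab⟩ := h3
    exact ⟨a, ha, b, hb, dgm_ne_zero.2 hab⟩
  · have h5 : dgm U κ (fun i => ∑ a ∈ Finset.range (d + 1), ∑ b ∈ Finset.range (d + 1),
        c i a b * X i ^ a * Y i ^ b) = 0 := by
      rw [dgm_eq_zero]
      exact h.mono fun i hi => (hcr i hi).2
    rw [← h5, dgm_sum]
    refine Finset.sum_congr rfl fun a _ => ?_
    rw [dgm_sum]
    refine Finset.sum_congr rfl fun b _ => ?_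
    rw [dgm_mul, dgm_mul, dgm_pow, dgm_pow]

/-- the degree of elements of the limit. -/
theorem dgm_deg_le {E : ∀ i, Subfield (κ i)} (hE : ∀ i, IsAlgClosed (E i)) {g : ∀ i, κ i}
    (hg : dgm U κ g ∉ dSub U E) {d : ℕ}
    (hd : ∀ᶠ i in (U : Filter I), Module.Finite (adj (E i) (g i)) (κ i) ∧
      Module.finrank (adj (E i) (g i)) (κ i) ≤ d) {w : DGm U κ}
    (halg : IsAlgebraic (adj (dSub U E) (dgm U κ g)) w) :
    (minpoly (adj (dSub U E) (dgm U κ g)) w).natDegree ≤ d := by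
  classical
  have hgt : ∀ᶠ i in (U : Filter I), ¬ IsAlgebraic (E i) (g i) := by
    rw [dgm_mem_dSub, ← Ultrafilter.eventually_not] at hg
    exact hg.mono fun i hi h => hi (RAC_of_isAlgClosed _ (hE i) _ h)
  refine (ul1_natDegree adj_le_dSub (fun z hz h => rat_dgm hgt hz h) halg).trans ?_
  obtain ⟨v, rfl⟩ := dgm_surj U κ w
  set R := dSub U (fun i => adj (E i) (g i)) with hR
  have h1 : ∀ i, ∃ a : ℕ → κ i, (∀ j, a j ∈ adj (E i) (g i)) ∧ a d = 1 ∧
      ((Module.Finite (adj (E i) (g i)) (κ i) ∧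
      Module.finrank (adj (E i) (g i)) (κ i) ≤ d) →
      ∑ j ∈ Finset.range (d + 1), a j * v i ^ j = 0) := by
    intro i
    by_cases hc : Module.Finite (adj (E i) (g i)) (κ i) ∧
      Module.finrank (adj (E i) (g i)) (κ i) ≤ d
    · obtain ⟨hfin, hrank⟩ := hc
      set m := minpoly (adj (E i) (g i)) (v i) with hm
      have hint : IsIntegral (adj (E i) (g i)) (v i) := IsIntegral.of_finite _ _
      have hmd : m.natDegree ≤ d := (minpoly.natDegree_le _).trans hrank
      have hmm : m.Monic := minpoly.monic hint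
      set p := m * Polynomial.X ^ (d - m.natDegree) with hp
      have hpm : p.Monic := hmm.mul (monic_X_pow _)
      have hpd : p.natDegree = d := by
        rw [hp, hmm.natDegree_mul (monic_X_pow _), natDegree_X_pow]
        omega
      have hp0 : aeval (v i) p = 0 := by
        rw [hp, map_mul, hm, minpoly.aeval, zero_mul]
      refine ⟨fun j => ((p.coeff j : adj (E i) (g i)) : κ i), fun j => (p.coeff j).2, ?_,
        fun _ => ?_⟩
      · have h3 : p.coeff d = 1 := by
          rw [← hpd]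
          exact hpm.coeff_natDegree
        change ((p.coeff d : adj (E i) (g i)) : κ i) = 1
        rw [h3]
        rfl
      · rw [← hp0, aeval_eq_sum_range' (n := d + 1) (by omega)]
        refine Finset.sum_congr rfl fun j _ => ?_
        rw [Algebra.smul_def]
        rfl
    · exact ⟨fun _ => 1, fun _ => Subfield.one_mem _, rfl, fun h' => absurd h' hc⟩
  choose a ha had hav using h1
  have hau : ∀ j, dgm U κ (fun i => a i j) ∈ R := fun j =>
    ⟨fun i => a i j, rfl, fun i => ha i j⟩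
  refine (apd_minpoly (E := R) (n := d) (a := fun j => ⟨dgm U κ (fun i => a i j), hau j⟩)
    ?_ ?_).2
  · refine ⟨d, Finset.mem_range.2 (Nat.lt_succ_self d), fun h0 => ?_⟩
    have h3 : dgm U κ (fun i => a i d) = 0 := congrArg Subtype.val h0
    rw [dgm_eq_zero] at h3
    obtain ⟨i, hi⟩ := h3.exists
    rw [had] at hi
    exact one_ne_zero hi
  · change ∑ j ∈ Finset.range (d + 1), dgm U κ (fun i => a i j) * dgm U κ v ^ j = 0
    have h3 : dgm U κ (fun i => ∑ j ∈ Finset.range (d + 1), a i j * v i ^ j) = 0 :=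
      dgm_eq_zero.2 (hd.mono fun i hi => hav i hi)
    rw [← h3, dgm_sum]
    refine Finset.sum_congr rfl fun j _ => ?_
    rw [dgm_mul, dgm_pow]

end drat

end Vale.Agent.P019P
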