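import Vale.Agent.P019R.RsP
import Vale.Agent.P019R.DRat
import Vale.Agent.P019Q.UPl

/-!
# The embedding in the ultraproduct of the perfect closures of the residue fields
-/

namespace Vale.Agent.P019P

open Vale.Agent.P019

set_option linter.style.haveILetI false
set_option linter.unusedSectionVars false

open Polynomial Filter

section dj

variable {I : Type*} {U : Ultrafilter I} {L : Type*} [Field L] {O : I → ValuationSubring L}

/-- the embedding of the field in the ultraproduct. -/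
noncomputable def Ulu.dj (hu : Ulu U O) : L →+* DGm U (fun i => RFP (O i)) where
  toFun z := dgm U _ (fun i => rsP (O i) z)
  map_one' := by
    rw [← map_one (dgm U fun i => RFP (O i))]
    exact congrArg _ (funext fun i => rsP_one)
  map_zero' := by
    rw [← map_zero (dgm U fun i => RFP (O i))]
    exact congrArg _ (funext fun i => rsP_zero)
  map_mul' x y := by
    by_cases hx : x = 0
    · rw [hx, zero_mul]
      have h1 : dgm U (fun i => RFP (O i)) (fun i => rsP (O i) (0 : L)) = 0 :=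
        dgm_eq_zero.2 (Eventually.of_forall fun i => rsP_zero)
      rw [h1, zero_mul]
    by_cases hy : y = 0
    · rw [hy, mul_zero]
      have h1 : dgm U (fun i => RFP (O i)) (fun i => rsP (O i) (0 : L)) = 0 :=
        dgm_eq_zero.2 (Eventually.of_forall fun i => rsP_zero)
      rw [h1, mul_zero]
    rw [← dgm_mul, dgm_eq]
    filter_upwards [hu x hx, hu y hy] with i h1 h2
    exact rsP_mul (((O i).valuation_le_one_iff x).1 h1.le)
      (((O i).valuation_le_one_iff y).1 h2.le)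
  map_add' x y := by
    by_cases hx : x = 0
    · rw [hx, zero_add]
      have h1 : dgm U (fun i => RFP (O i)) (fun i => rsP (O i) (0 : L)) = 0 :=
        dgm_eq_zero.2 (Eventually.of_forall fun i => rsP_zero)
      rw [h1, zero_add]
    by_cases hy : y = 0
    · rw [hy, add_zero]
      have h1 : dgm U (fun i => RFP (O i)) (fun i => rsP (O i) (0 : L)) = 0 :=
        dgm_eq_zero.2 (Eventually.of_forall fun i => rsP_zero)
      rw [h1, add_zero]
    rw [← dgm_add, dgm_eq]
    filter_upwards [hu x hx, hu y hy] with i h1 h2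
    exact rsP_add (((O i).valuation_le_one_iff x).1 h1.le)
      (((O i).valuation_le_one_iff y).1 h2.le)

theorem Ulu.dj_apply (hu : Ulu U O) (z : L) :
    hu.dj z = dgm U (fun i => RFP (O i)) (fun i => rsP (O i) z) := rfl

theorem Ulu.mem (hu : Ulu U O) (z : L) : ∀ᶠ i in U, z ∈ O i := by
  by_cases hz : z = 0
  · rw [hz]; exact Eventually.of_forall fun i => (O i).zero_mem
  · exact (hu z hz).mono fun i hi => ((O i).valuation_le_one_iff z).1 hi.le

/-- the residues of the constants in the ultraproduct. -/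
noncomputable def dR (U : Ultrafilter I) (O : I → ValuationSubring L) (l : Subfield L) :
    Subfield (DGm U (fun i => RFP (O i))) := dSub U (fun i => rbarP l (O i))

theorem dR_ac {l : Subfield L} (hl : IsAlgClosed l) : IsAlgClosed (dR U O l) :=
  isAlgClosed_dSub fun i => rbarP_ac hl (O i)

theorem Ulu.dj_mem_of_mem (hu : Ulu U O) {l : Subfield L} {z : L} (hz : z ∈ l) :
    hu.dj z ∈ dR U O l := by
  rw [hu.dj_apply, dR, dgm_mem_dSub]
  exact (hu.mem z).mono fun i hi => rsP_mem_rbarP hz hi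

theorem Ulu.map_le (hu : Ulu U O) (l : Subfield L) : l.map hu.dj ≤ dR U O l := by
  rintro _ ⟨z, hz, rfl⟩
  exact hu.dj_mem_of_mem hz

/-- constants of the limit. -/
theorem Ulu.dj_mem_dR (hu : Ulu U O) {l : Subfield L} {h : L} :
    hu.dj h ∈ dR U O l ↔
      ∃ c : I → L, (∀ i, c i ∈ l) ∧ ∀ᶠ i in U, (O i).valuation (h - c i) < 1 := by
  classical
  rw [hu.dj_apply, dR, dgm_mem_dSub]
  constructor
  · intro h1
    have h2 : ∀ i, ∃ c : L, c ∈ l ∧ (h ∈ O i → rsP (O i) h ∈ rbarP l (O i) →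
        (O i).valuation (h - c) < 1) := by
      intro i
      by_cases h3 : h ∈ O i ∧ rsP (O i) h ∈ rbarP l (O i)
      · obtain ⟨c, hc, hcO, h4⟩ := mem_rbarP.1 h3.2
        exact ⟨c, hc, fun _ _ => (rsP_eq h3.1 hcO).1 h4.symm⟩
      · exact ⟨0, l.zero_mem, fun h4 h5 => absurd ⟨h4, h5⟩ h3⟩
    choose c hc hc' using h2
    refine ⟨c, hc, ?_⟩
    filter_upwards [h1, hu.mem h] with i h3 h4
    exact hc' i h4 h3
  · rintro ⟨c, hc, h1⟩
    filter_upwards [h1, hu.mem h] with i h3 h4
    have h5 : c i ∈ O i := by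
      have h6 : h - c i ∈ O i := ((O i).valuation_le_one_iff _).1 h3.le
      have h7 := sub_mem h4 h6
      rwa [sub_sub_cancel] at h7
    rw [(rsP_eq h4 h5).2 h3]
    exact rsP_mem_rbarP (hc i) h5

/-- `ℓ`-th powers in the ultraproduct. -/
theorem Ulu.dj_root (hu : Ulu U O) {ℓ : ℕ} [Fact ℓ.Prime] [NeZero (ℓ : L)] {z : L}
    (hz : z ≠ 0) : (∃ w, w ^ ℓ = hu.dj z) ↔ ∀ᶠ i in U, cl ℓ z ∈ U1 ℓ (O i) := by
  have hℓ : ∀ᶠ i in U, (O i).valuation (ℓ : L) = 1 := hu _ (NeZero.ne _)
  constructor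
  · rintro ⟨w, hw⟩
    obtain ⟨w', rfl⟩ := dgm_surj U _ w
    rw [← dgm_pow, hu.dj_apply, dgm_eq] at hw
    filter_upwards [hw, hu z hz, hℓ] with i h1 h2 h3
    have h4 : rs (O i) z ≠ 0 := (rs_ne_zero (((O i).valuation_le_one_iff z).1 h2.le)).2 h2
    rw [cl_mem_U1_iff h2]
    exact cl_zero_of_rf h3 h1
  · intro h
    have h1 : ∀ i, ∃ w : RFP (O i), (O i).valuation z = 1 → cl ℓ z ∈ U1 ℓ (O i) →
        w ^ ℓ = rsP (O i) z := by
      intro i
      by_cases h2 : (O i).valuation z = 1 ∧ cl ℓ z ∈ U1 ℓ (O i)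
      · obtain ⟨h2, h3⟩ := h2
        have h4 : rs (O i) z ≠ 0 := (rs_ne_zero (((O i).valuation_le_one_iff z).1 h2.le)).2 h2
        rw [cl_mem_U1_iff h2, cl_eq_zero_iff ℓ h4] at h3
        obtain ⟨c, -, hc⟩ := h3
        exact ⟨rf (O i) c, fun _ _ => by rw [← map_pow, hc, rsP]⟩
      · exact ⟨0, fun h3 h4 => absurd ⟨h3, h4⟩ h2⟩
    choose w hw using h1
    refine ⟨dgm U _ w, ?_⟩
    rw [← dgm_pow, hu.dj_apply, dgm_eq]
    filter_upwards [h, hu z hz] with i h2 h3
    exact hw i h3 h2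

/-- the ultraproduct of the rational function fields. -/
noncomputable def dF (U : Ultrafilter I) (O : I → ValuationSubring L) (l : Subfield L) (s : L) :
    Subfield (DGm U (fun i => RFP (O i))) :=
  dSub U (fun i => adj (rbarP l (O i)) (rsP (O i) s))

theorem Ulu.adj_le_dF (hu : Ulu U O) {l : Subfield L} {s : L} :
    adj (dR U O l) (hu.dj s) ≤ dF U O l s := adj_le_dSub

theorem Ulu.dF_rac (hu : Ulu U O) {l : Subfield L} {s : L}
    (hs : ∀ᶠ i in U, ¬ IsAlgebraic (rbarP l (O i)) (rsP (O i) s)) :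
    ∀ z ∈ dF U O l s, IsAlgebraic (adj (dR U O l) (hu.dj s)) z → z ∈ adj (dR U O l) (hu.dj s) :=
  fun _ hz h => rat_dgm hs hz h

theorem Ulu.dj_transc (hu : Ulu U O) {l : Subfield L} {s : L}
    (hs : ∀ᶠ i in U, ¬ IsAlgebraic (rbarP l (O i)) (rsP (O i) s)) :
    ¬ IsAlgebraic (dR U O l) (hu.dj s) := dgm_transc hs

end dj

end Vale.Agent.P019P
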