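import Vale.Agent.P019R.DRat
import Vale.Agent.P019Q.SA4

/-!
# A special element of an ultraproduct
-/

namespace Vale.Agent.P019P

open Vale.Agent.P019

set_option linter.style.haveILetI false
set_option linter.unusedSectionVars false

open Polynomial Filter

attribute [local irreducible] DGm.field

variable {I : Type*} {U : Ultrafilter I} {κ : I → Type*} [∀ i, Field (κ i)]
  [∀ i, PerfectField (κ i)]

omit [∀ i, PerfectField (κ i)] in
/-- degrees of minimal polynomials and embeddings. -/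
theorem natDegree_minpoly_map_le {K Ω : Type*} [Field K] [Field Ω] (j : K →+* Ω)
    {E : Subfield K} {M : Subfield Ω} (hM : E.map j ≤ M) {w : K} (hw : IsAlgebraic E w) :
    (minpoly M (j w)).natDegree ≤ (minpoly E w).natDegree := by
  let e : E →+* M := (j.comp E.subtype).codRestrict M fun x => hM ⟨x, x.2, rfl⟩
  have hint : IsIntegral E w := hw.isIntegral
  have h1 : aeval (j w) ((minpoly E w).map e) = 0 := by
    rw [aeval_def, eval₂_map]
    have h2 : (algebraMap M Ω).comp e = j.comp (algebraMap E K) := RingHom.ext fun _ => rfl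
    rw [h2, ← hom_eval₂]
    have h3 : eval₂ (algebraMap E K) w (minpoly E w) = 0 := minpoly.aeval E w
    rw [h3, map_zero]
  refine (natDegree_le_of_dvd (minpoly.dvd M (j w) h1) ?_).trans natDegree_map_le
  exact ((minpoly.monic hint).map e).ne_zero

/-- the main case: infinitely many classes die in almost all fields of bounded degree. -/
theorem dspecial {L : Type*} [Field L] [PerfectField L] {ℓ : ℕ} [Fact ℓ.Prime] [NeZero (ℓ : L)]
    (j : L →+* DGm U κ) {l : Subfield L} (hl : IsAlgClosed l) (hfg : FG l (⊤ : Subfield L))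
    {E : ∀ i, Subfield (κ i)} (hE : ∀ i, IsAlgClosed (E i)) (hlE : ∀ x ∈ l, j x ∈ dSub U E)
    {y1 y2 : L} (h1 : ¬ IsAlgebraic l y1) (h2 : ¬ IsAlgebraic (adj l y1) y2)
    (halg : ∀ z : L, IsAlgebraic (adj (adj l y1) y2) z) {g1 g2 : ∀ i, κ i}
    (hg1 : j y1 = dgm U κ g1) (hg2 : j y2 = dgm U κ g2) {d : ℕ}
    (hd : ∀ᶠ i in (U : Filter I), g1 i ∉ E i → Module.Finite (adj (E i) (g1 i)) (κ i) ∧
      Module.finrank (adj (E i) (g1 i)) (κ i) ≤ d) {d' : ℕ}
    (hrel : ∀ᶠ i in (U : Filter I), BRel (E i) d' (g1 i) (g2 i)) {X : Set L}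
    (hX : ∀ x ∈ X, x ≠ 0 ∧ ∃ w : DGm U κ, w ^ ℓ = j x)
    (hinf : ∀ n : ℕ, ∃ x : Fin n → L, (∀ i, x i ∈ X) ∧ ∀ i j, i ≠ j → cl ℓ (x i) ≠ cl ℓ (x j)) :
    ∃ h : L, h ∉ l ∧ j h ∈ dSub U E := by
  classical
  have hℓ : 0 < ℓ := (Fact.out : ℓ.Prime).pos
  haveI : PerfectField l := perfect_of_RAC (RAC_of_isAlgClosed l hl)
  by_cases hy : j y1 ∈ dSub U E
  · exact ⟨y1, fun h => h1 (isAlgebraic_of_mem h), hy⟩
  have hy' : dgm U κ g1 ∉ dSub U E := by rwa [← hg1]
  have hd' : ∀ᶠ i in (U : Filter I), Module.Finite (adj (E i) (g1 i)) (κ i) ∧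
      Module.finrank (adj (E i) (g1 i)) (κ i) ≤ d := by
    have h4 := hy'
    rw [dgm_mem_dSub, ← Ultrafilter.eventually_not] at h4
    exact (h4.and hd).mono fun i hi => hi.2 hi.1
  have h3' := dgm_alg_of_brel hE hy' hrel
  set D := dSub U E with hDdef
  have hDac : IsAlgClosed D := isAlgClosed_dSub hE
  set Ω := AlgebraicClosure (DGm U κ) with hΩ
  set c : DGm U κ →+* Ω := algebraMap (DGm U κ) Ω with hc
  set J : L →+* Ω := c.comp j with hJ
  haveI : NeZero (ℓ : Ω) := ⟨by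
    rw [← map_natCast J, Ne, map_eq_zero]
    exact NeZero.ne (ℓ : L)⟩
  set Bs := D.map c with hBs
  have hBsac : IsAlgClosed Bs := isAlgClosed_map c hDac
  have hBsR : RAC Bs := RAC_of_isAlgClosed Bs hBsac
  haveI : PerfectField Bs := perfect_of_RAC hBsR
  set M := adj Bs (J y1) with hM
  have hJy1 : J y1 = c (dgm U κ g1) := by rw [← hg1]; rfl
  have hJy2 : J y2 = c (dgm U κ g2) := by rw [← hg2]; rfl
  have hmapM : (adj D (dgm U κ g1)).map c ≤ M := by
    refine (map_adj_le c _ _).trans ?_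
    rw [hM, hJy1]
  have h3 : IsAlgebraic M (J y2) := by
    rw [hJy2]
    exact isAlgebraic_mono hmapM (isAlgebraic_map c h3')
  haveI : PerfectField c.fieldRange := perfect_fieldRange _
  have hBR : Bs ≤ c.fieldRange := by
    rintro _ ⟨x, -, rfl⟩
    exact ⟨x, rfl⟩
  have hjR : ∀ x, J x ∈ c.fieldRange := fun x => ⟨j x, rfl⟩
  set κ' := c.fieldRange ⊓ rac M with hκ
  have hMκ : M ≤ κ' := le_inf (adj_le hBR (hjR y1)) (le_rac _)
  have hκalg : ∀ r ∈ κ', IsAlgebraic M r := fun r hr => mem_rac.1 (Subfield.mem_inf.1 hr).2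
  have hMmap : M ≤ (adj D (dgm U κ g1)).map c := by
    rw [hM, hJy1]
    exact adj_map_le c D (dgm U κ g1)
  obtain ⟨γ, hγ, hγκ⟩ := bd_prim hMκ hκalg (d := d) (by
    intro r hr
    obtain ⟨w, rfl⟩ := (Subfield.mem_inf.1 hr).1
    have h5 : IsAlgebraic (adj D (dgm U κ g1)) w :=
      isAlgebraic_of_map c (isAlgebraic_mono hMmap (hκalg _ hr))
    exact (natDegree_minpoly_map_le c hmapM h5).trans (dgm_deg_le hE hy' hd' h5))
  have hκeq : κ' = adj M γ := le_antisymm (hγκ.trans (adj0_le_adj _ _)) (adj_le hMκ hγ)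
  have hfgκ : FG Bs κ' := by
    rw [hκeq]
    exact (FG.refl'.adj_right _).adj_right _
  have hlB : l.map J ≤ Bs := by
    rintro _ ⟨x, hx, rfl⟩
    exact ⟨j x, hlE x hx, rfl⟩
  have hLM : ∀ x, IsAlgebraic M (J x) := by
    intro x
    have h5 : adj (adj (l.map J) (J y1)) (J y2) ≤ rac M := by
      haveI : PerfectField (rac M) := perfect_rac M
      exact adj_le ((adj_mono hlB _).trans (le_rac _)) (mem_rac.2 h3)
    have h6 : IsAlgebraic (adj (adj (l.map J) (J y1)) (J y2)) (J x) :=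
      isAlgebraic_mono ((map_adj_le J _ _).trans (adj_mono (map_adj_le J _ _) _))
        (isAlgebraic_map J (halg x))
    exact isAlgebraic_rac (isAlgebraic_mono h5 h6)
  have hLκ : (⊤ : Subfield L).map J ≤ κ' := by
    rintro _ ⟨x, -, rfl⟩
    exact Subfield.mem_inf.2 ⟨hjR x, mem_rac.2 (hLM x)⟩
  obtain ⟨_, ⟨h, -, rfl⟩, hhB, hhl⟩ := ft_sub ℓ (l := l.map J) (L := (⊤ : Subfield L).map J)
    (Bs := Bs) (κ := κ') (y1 := J y1) (y2 := J y2) (isAlgClosed_map J hl) (fg_map J hfg) hlB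
    hBsac ⟨y1, Subfield.mem_top _, rfl⟩ ⟨y2, Subfield.mem_top _, rfl⟩ (by
      rintro _ ⟨x, -, rfl⟩
      exact isAlgebraic_mono ((map_adj_le J _ _).trans (adj_mono (map_adj_le J _ _) _))
        (isAlgebraic_map J (halg x)))
    (fun h => by
      obtain ⟨x, hx, hxy⟩ := hBsR _ h
      apply hy
      have h7 : x = j y1 := c.injective hxy
      rwa [← h7])
    (fun h => h2 (isAlgebraic_of_map J (isAlgebraic_mono (adj_map_le J l y1) h)))
    h3 hfgκ hLκ (J '' X) (by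
      rintro _ ⟨x, hx, rfl⟩
      exact ⟨⟨x, Subfield.mem_top x, rfl⟩, by rw [Ne, map_eq_zero]; exact (hX x hx).1⟩) (by
      intro n
      obtain ⟨x, hxX, hx⟩ := hinf n
      refine ⟨fun i => J (x i), fun i => ⟨x i, hxX i, rfl⟩, ?_⟩
      rintro a b hab ⟨_, ⟨w, -, rfl⟩, hw⟩
      refine hx a b hab ?_
      rw [← map_pow, ← map_mul] at hw
      have hw' := J.injective hw
      have hw0 : w ≠ 0 := by
        rintro rfl
        rw [zero_pow hℓ.ne', mul_zero] at hw'
        exact (hX _ (hxX a)).1 hw'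
      rw [cl_eq_iff ℓ (hX _ (hxX a)).1 (hX _ (hxX b)).1]
      exact ⟨w, hw0, hw'⟩) (by
      rintro _ ⟨x, hx, rfl⟩
      obtain ⟨w, hw⟩ := (hX x hx).2
      have h5 : c w ^ ℓ = J x := by
        rw [← map_pow, hw]
        rfl
      refine ⟨c w, Subfield.mem_inf.2 ⟨⟨w, rfl⟩, ?_⟩, h5⟩
      rw [mem_rac]
      refine IsAlgebraic.of_pow hℓ ?_
      rw [h5]
      exact hLM x)
  refine ⟨h, fun hh => hhl ⟨h, hh, rfl⟩, ?_⟩
  obtain ⟨x, hx, hxh⟩ := hhB
  have h7 : x = j h := c.injective hxh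
  rwa [← h7]

end Vale.Agent.P019P
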