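import Mathlib

/-!
# Extension of valuations without `ℓ`-ramification
-/

namespace Vale.Agent.P019R

open Finset Filter

/-! ### Nagata elements -/

section Nagata

variable {N : Type*} [Field N]

theorem ext_geom_split {R : Type*} [CommRing R] (x : R) {k : ℕ} (hk : ∑ j ∈ range k, x ^ j = 0)
    (q : ℕ) : ∑ j ∈ range (k * q + 1), x ^ j = 1 := by
  have hk1 : x ^ k = 1 := by
    have h := geom_sum_mul x k
    rw [hk, zero_mul] at h
    exact (sub_eq_zero.1 h.symm)
  induction q with
  | zero => simp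
  | succ q ih =>
    rw [show k * (q + 1) + 1 = k + (k * q + 1) by ring, Finset.sum_range_add, hk, zero_add]
    have h : ∀ j ∈ range (k * q + 1), x ^ (k + j) = x ^ j := fun j _ => by
      rw [pow_add, hk1, one_mul]
    rw [Finset.sum_congr rfl h, ih]

theorem ext_geom_lt {Γ : Type*} [LinearOrderedCommGroupWithZero Γ] (v : Valuation N Γ) {x : N}
    (hx : 1 < v x) (m : ℕ) : v (∑ j ∈ range (m + 1), x ^ j) = v x ^ m := by
  induction m with
  | zero => simp
  | succ m ih =>
    rw [Finset.sum_range_succ, Valuation.map_add_eq_of_lt_right, map_pow]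
    rw [ih, map_pow]
    exact pow_lt_pow_right₀ hx (Nat.lt_succ_self m)

/-- the exponent of a Nagata element at one valuation ring. -/
theorem ext_expo (O : ValuationSubring N) (x : N) : ∃ k : ℕ, 0 < k ∧ (x ∈ O → ∀ q : ℕ, 0 < q →
    O.valuation (∑ j ∈ range (k * q + 1), x ^ j) = 1) := by
  by_cases hx : x ∈ O
  swap
  · exact ⟨1, one_pos, fun h => absurd h hx⟩
  set y : IsLocalRing.ResidueField O := IsLocalRing.residue O ⟨x, hx⟩ with hy
  have key : ∀ n : ℕ, ∑ j ∈ range n, y ^ j ≠ 0 → O.valuation (∑ j ∈ range n, x ^ j) = 1 := by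
    intro n hn
    have h1 : IsLocalRing.residue O (∑ j ∈ range n, (⟨x, hx⟩ : O) ^ j) ≠ 0 := by
      rw [map_sum]
      simpa only [map_pow] using hn
    rw [IsLocalRing.residue_ne_zero_iff_isUnit, ValuationSubring.valuation_eq_one_iff] at h1
    have h2 : ((∑ j ∈ range n, (⟨x, hx⟩ : O) ^ j : O) : N) = ∑ j ∈ range n, x ^ j := by
      push_cast
      rfl
    rw [← h2]
    exact h1
  by_cases h : ∃ k : ℕ, 0 < k ∧ ∑ j ∈ range k, y ^ j = 0
  · obtain ⟨k, hk, hk0⟩ := h
    refine ⟨k, hk, fun _ q _ => key _ ?_⟩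
    rw [ext_geom_split y hk0]
    exact one_ne_zero
  · push Not at h
    exact ⟨1, one_pos, fun _ q _ => key _ (h _ (Nat.succ_pos _))⟩

/-- Nagata elements: for `x` and finitely many embeddings `h i`. -/
theorem ext_nagata {ι : Type*} (s : Finset ι) (O : ι → ValuationSubring N) (x : N) :
    ∃ z : N, ∀ i ∈ s, z ∈ O i ∧ (x ∈ O i → (O i).valuation z = 1) ∧
      (x ∉ O i → (O i).valuation z < 1) := by
  choose k hk0 hk using fun i => ext_expo (O i) x
  set n := ∏ i ∈ s, k i with hn
  have hn0 : 0 < n := Finset.prod_pos fun i _ => hk0 i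
  have hu : ∀ i ∈ s, x ∈ O i → (O i).valuation (∑ j ∈ range (n + 1), x ^ j)⁻¹ = 1 := by
    intro i hi hx
    obtain ⟨q, hq⟩ := Finset.dvd_prod_of_mem k hi
    have h1 : 0 < q := by
      rcases Nat.eq_zero_or_pos q with h | h
      · rw [h, mul_zero] at hq
        omega
      · exact h
    rw [map_inv₀, hn, hq, hk i hx q h1, inv_one]
  have hl : ∀ i ∈ s, x ∉ O i → (O i).valuation (∑ j ∈ range (n + 1), x ^ j)⁻¹ < 1 := by
    intro i hi hx
    rw [← ValuationSubring.valuation_le_one_iff, not_le] at hx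
    rw [map_inv₀, ext_geom_lt _ hx]
    exact inv_lt_one_of_one_lt₀ (one_lt_pow₀ hx hn0.ne')
  refine ⟨(∑ j ∈ range (n + 1), x ^ j)⁻¹, fun i hi => ⟨?_, hu i hi, hl i hi⟩⟩
  rw [← ValuationSubring.valuation_le_one_iff]
  by_cases hx : x ∈ O i
  · exact (hu i hi hx).le
  · exact (hl i hi hx).le

end Nagata

/-! ### Valuations of preimages -/

section Comap

variable {K N : Type*} [Field K] [Field N] (O : ValuationSubring N) (f : K →+* N)

theorem ext_le_iff {x y : N} : O.valuation x ≤ O.valuation y ↔ x = 0 ∨ (y ≠ 0 ∧ x / y ∈ O) := by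
  by_cases hx : x = 0
  · simp [hx]
  by_cases hy : y = 0
  · simp [hx, hy]
  have h : O.valuation y ≠ 0 := (Valuation.ne_zero_iff _).2 hy
  rw [← ValuationSubring.valuation_le_one_iff, map_div₀, div_le_one₀ (zero_lt_iff.2 h)]
  simp [hx, hy]

theorem ext_comap_le {x y : K} : (O.comap f).valuation x ≤ (O.comap f).valuation y ↔
    O.valuation (f x) ≤ O.valuation (f y) := by
  rw [ext_le_iff, ext_le_iff, ValuationSubring.mem_comap, map_div₀, map_eq_zero, Ne, Ne,
    map_eq_zero]

theorem ext_comap_lt {x y : K} : (O.comap f).valuation x < (O.comap f).valuation y ↔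
    O.valuation (f x) < O.valuation (f y) := by
  rw [lt_iff_not_ge, lt_iff_not_ge, ext_comap_le]

theorem ext_comap_eq {x y : K} : (O.comap f).valuation x = (O.comap f).valuation y ↔
    O.valuation (f x) = O.valuation (f y) := by
  rw [le_antisymm_iff, le_antisymm_iff, ext_comap_le, ext_comap_le]

theorem ext_comap_lt_one {x : K} : (O.comap f).valuation x < 1 ↔ O.valuation (f x) < 1 := by
  have h := ext_comap_lt O f (x := x) (y := 1)
  rwa [map_one, map_one, map_one] at h

theorem ext_comap_eq_one {x : K} : (O.comap f).valuation x = 1 ↔ O.valuation (f x) = 1 := by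
  have h := ext_comap_eq O f (x := x) (y := 1)
  rwa [map_one, map_one, map_one] at h

theorem ext_comap_le_one {x : K} : (O.comap f).valuation x ≤ 1 ↔ O.valuation (f x) ≤ 1 := by
  have h := ext_comap_le O f (x := x) (y := 1)
  rwa [map_one, map_one, map_one] at h

theorem ext_prod_lt_one {Γ ι : Type*} [LinearOrderedCommGroupWithZero Γ] (s : Finset ι) (w : ι → Γ)
    (h1 : ∀ i ∈ s, w i ≤ 1) (h2 : ∃ i ∈ s, w i < 1) : ∏ i ∈ s, w i < 1 := by
  classical
  obtain ⟨i, hi, hi1⟩ := h2
  rw [← Finset.mul_prod_erase s w hi]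
  refine lt_of_le_of_lt (mul_le_of_le_one_right' ?_) hi1
  exact Finset.prod_le_one' fun j hj => h1 j (Finset.mem_of_mem_erase hj)

end Comap

/-! ### Stabilizers -/

section Stab

variable (Γ : Type*) {N : Type*} [Group Γ] [Field N] [MulSemiringAction Γ N]

/-- the decomposition group. -/
def extStab (O : ValuationSubring N) : Subgroup Γ where
  carrier := {g | ∀ x : N, g • x ∈ O ↔ x ∈ O}
  one_mem' := fun x => by rw [one_smul]
  mul_mem' := fun {a b} ha hb x => by rw [mul_smul]; exact (ha (b • x)).trans (hb x)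
  inv_mem' := fun {a} ha x => by
    have h := ha (a⁻¹ • x)
    rw [smul_inv_smul] at h
    exact h.symm

variable {Γ}

theorem mem_extStab {O : ValuationSubring N} {g : Γ} :
    g ∈ extStab Γ O ↔ ∀ x : N, g • x ∈ O ↔ x ∈ O := Iff.rfl

theorem extStab_comap {O : ValuationSubring N} {g : Γ} (hg : g ∈ extStab Γ O) :
    O.comap (MulSemiringAction.toRingHom Γ N g) = O := by
  ext x
  exact hg x

theorem extStab_lt {O : ValuationSubring N} {g : Γ} (hg : g ∈ extStab Γ O) (x y : N) :
    O.valuation (g • x) < O.valuation (g • y) ↔ O.valuation x < O.valuation y := by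
  have h := ext_comap_lt O (MulSemiringAction.toRingHom Γ N g) (x := x) (y := y)
  rw [extStab_comap hg] at h
  exact h.symm

theorem extStab_val [Finite Γ] {O : ValuationSubring N} {g : Γ}
    (hg : g ∈ extStab Γ O) (x : N) : O.valuation (g • x) = O.valuation x := by
  have hn : 0 < orderOf g := orderOf_pos g
  obtain ⟨n, hn⟩ : ∃ n, orderOf g = n + 1 := ⟨orderOf g - 1, by omega⟩
  have h1 : (g ^ (n + 1)) • x = x := by rw [← hn, pow_orderOf_eq_one, one_smul]
  have hs : ∀ m : ℕ, (g ^ (m + 1)) • x = g • ((g ^ m) • x) := fun m => by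
    rw [pow_succ', mul_smul]
  rcases lt_trichotomy (O.valuation (g • x)) (O.valuation x) with h | h | h
  · exfalso
    have h2 : ∀ m : ℕ, O.valuation ((g ^ (m + 1)) • x) < O.valuation x := by
      intro m
      induction m with
      | zero => simpa using h
      | succ m ih =>
        rw [hs]
        exact ((extStab_lt hg _ _).2 ih).trans h
    have h3 := h2 n
    rw [h1] at h3
    exact lt_irrefl _ h3
  · exact h
  · exfalso
    have h2 : ∀ m : ℕ, O.valuation x < O.valuation ((g ^ (m + 1)) • x) := by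
      intro m
      induction m with
      | zero => simpa using h
      | succ m ih =>
        rw [hs]
        exact h.trans ((extStab_lt hg _ _).2 ih)
    have h3 := h2 n
    rw [h1] at h3
    exact lt_irrefl _ h3

theorem ext_not_stab [Finite Γ] {O : ValuationSubring N} {g : Γ}
    (hg : g ∉ extStab Γ O) : ∃ x : N, x ∈ O ∧ g • x ∉ O := by
  by_contra hcon
  push Not at hcon
  apply hg
  intro x
  refine ⟨fun hx => ?_, hcon x⟩
  have hn : 0 < orderOf g := orderOf_pos g
  obtain ⟨n, hn⟩ : ∃ n, orderOf g = n + 1 := ⟨orderOf g - 1, by omega⟩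
  have h1 : ∀ m : ℕ, ∀ y ∈ O, (g ^ m) • y ∈ O := by
    intro m
    induction m with
    | zero => exact fun y hy => by rwa [pow_zero, one_smul]
    | succ m ih =>
      intro y hy
      rw [pow_succ', mul_smul]
      exact hcon _ (ih y hy)
  have h2 : (g ^ n) • (g • x) = x := by
    rw [← mul_smul, ← pow_succ, ← hn, pow_orderOf_eq_one, one_smul]
  rw [← h2]
  exact h1 n _ hx

/-- an element which is a unit at `O` and small at the other conjugates. -/
theorem ext_sep (Γ : Type*) {N : Type*} [Group Γ] [Field N] [MulSemiringAction Γ N] [Finite Γ]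
    (O : ValuationSubring N) :
    ∃ r : N, (∀ τ ∈ extStab Γ O, τ • r = r) ∧ O.valuation r = 1 ∧
      ∀ g : Γ, g ∉ extStab Γ O → O.valuation (g • r) < 1 := by
  classical
  have _ := Fintype.ofFinite Γ
  have key : ∀ g : Γ, g ∉ extStab Γ O → ∃ z : N, O.valuation z = 1 ∧
      O.valuation (g • z) < 1 ∧ ∀ h : Γ, O.valuation (h • z) ≤ 1 := by
    intro g hg
    obtain ⟨x, hx, hgx⟩ := ext_not_stab hg
    obtain ⟨z, hz⟩ := ext_nagata (Finset.univ : Finset Γ)
      (fun h => O.comap (MulSemiringAction.toRingHom Γ N h)) x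
    refine ⟨z, ?_, ?_, fun h => ?_⟩
    · have h1 := (hz 1 (Finset.mem_univ _)).2.1 (by
        rw [ValuationSubring.mem_comap, MulSemiringAction.toRingHom_apply, one_smul]
        exact hx)
      rw [ext_comap_eq_one, MulSemiringAction.toRingHom_apply, one_smul] at h1
      exact h1
    · have h1 := (hz g (Finset.mem_univ _)).2.2 hgx
      rw [ext_comap_lt_one] at h1
      exact h1
    · have h1 := (hz h (Finset.mem_univ _)).1
      rw [ValuationSubring.mem_comap, ← ValuationSubring.valuation_le_one_iff] at h1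
      exact h1
  choose! z hz using key
  set y : N := ∏ g ∈ Finset.univ.filter (fun g : Γ => g ∉ extStab Γ O), z g with hy
  have hy1 : O.valuation y = 1 := by
    rw [hy, map_prod]
    exact Finset.prod_eq_one fun g hg => (hz g (Finset.mem_filter.1 hg).2).1
  have hy2 : ∀ h : Γ, h ∉ extStab Γ O → O.valuation (h • y) < 1 := by
    intro h hh
    rw [hy, Finset.smul_prod', map_prod]
    exact ext_prod_lt_one _ _ (fun g hg => (hz g (Finset.mem_filter.1 hg).2).2.2 h)
      ⟨h, Finset.mem_filter.2 ⟨Finset.mem_univ _, hh⟩, (hz h hh).2.1⟩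
  refine ⟨∏ τ : extStab Γ O, (τ : Γ) • y, fun τ hτ => ?_, ?_, fun h hh => ?_⟩
  · rw [Finset.smul_prod', ← Equiv.prod_comp (Equiv.mulLeft (⟨τ, hτ⟩ : extStab Γ O))
      (fun σ : extStab Γ O => (σ : Γ) • y)]
    refine Finset.prod_congr rfl fun σ _ => ?_
    rw [← mul_smul]
    rfl
  · rw [map_prod]
    exact Finset.prod_eq_one fun τ _ => by rw [extStab_val τ.2, hy1]
  · rw [Finset.smul_prod', map_prod]
    have h1 : ∀ τ : extStab Γ O, O.valuation (h • ((τ : Γ) • y)) < 1 := by
      intro τ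
      rw [← mul_smul]
      refine hy2 (h * τ) fun hcon => hh ?_
      have h2 := (extStab Γ O).mul_mem hcon ((extStab Γ O).inv_mem τ.2)
      rwa [mul_inv_cancel_right] at h2
    exact ext_prod_lt_one _ _ (fun τ _ => (h1 τ).le) ⟨1, Finset.mem_univ _, h1 1⟩

end Stab

/-! ### The Newton polygon -/

section Newton

theorem ext_prod_lt {Γ ι : Type*} [LinearOrderedCommGroupWithZero Γ] {s t : Finset ι} (w : ι → Γ)
    (hc : s.card = t.card) (hs : s.Nonempty) (h : ∀ a ∈ s, ∀ b ∈ t, w a < w b) :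
    ∏ i ∈ s, w i < ∏ i ∈ t, w i := by
  have ht : t.Nonempty := by
    rw [← Finset.card_pos, ← hc, Finset.card_pos]
    exact hs
  obtain ⟨a, ha, hamax⟩ := Finset.exists_max_image s w hs
  obtain ⟨b, hb, hbmin⟩ := Finset.exists_min_image t w ht
  calc ∏ i ∈ s, w i ≤ w a ^ s.card := Finset.prod_le_pow_card _ _ _ hamax
    _ < w b ^ s.card := pow_lt_pow_left₀ (h a ha b hb) zero_le (Finset.card_pos.2 hs).ne'
    _ = w b ^ t.card := by rw [hc]
    _ ≤ ∏ i ∈ t, w i := Finset.pow_card_le_prod _ _ _ hbmin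

theorem ext_esym {N Γ ι : Type*} [Field N] [LinearOrderedCommGroupWithZero Γ] [Fintype ι]
    [DecidableEq ι] (v : Valuation N Γ) (f : ι → N) (hf : ∀ i, f i ≠ 0) (T0 : Finset ι)
    (h : ∀ a, a ∉ T0 → ∀ b ∈ T0, v (f a) < v (f b)) :
    v (∑ T ∈ Finset.powersetCard T0.card Finset.univ, ∏ i ∈ T, f i) = ∏ i ∈ T0, v (f i) := by
  have hmem : T0 ∈ Finset.powersetCard T0.card (Finset.univ : Finset ι) :=
    Finset.mem_powersetCard.2 ⟨Finset.subset_univ _, rfl⟩
  rw [← Finset.add_sum_erase _ _ hmem, Valuation.map_add_eq_of_lt_left, map_prod]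
  refine Valuation.map_sum_lt _ ?_ fun T hT => ?_
  · rw [Valuation.ne_zero_iff, Finset.prod_ne_zero_iff]
    exact fun i _ => hf i
  · rw [Finset.mem_erase, Finset.mem_powersetCard] at hT
    obtain ⟨hne, -, hcard⟩ := hT
    rw [map_prod, map_prod, ← Finset.prod_inter_mul_prod_sdiff T T0,
      ← Finset.prod_inter_mul_prod_sdiff T0 T, Finset.inter_comm T0 T]
    have hpos : 0 < ∏ i ∈ T ∩ T0, v (f i) := by
      rw [zero_lt_iff, Finset.prod_ne_zero_iff]
      exact fun i _ => (Valuation.ne_zero_iff _).2 (hf i)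
    refine mul_lt_mul_of_pos_left ?_ hpos
    refine ext_prod_lt (fun i => v (f i)) (Finset.card_sdiff_comm hcard) ?_ fun a ha b hb => ?_
    · rw [Finset.nonempty_iff_ne_empty, Ne, Finset.sdiff_eq_empty_iff_subset]
      intro hsub
      exact hne (Finset.eq_of_subset_of_card_le hsub hcard.ge)
    · exact h a (Finset.mem_sdiff.1 ha).2 b (Finset.mem_sdiff.1 hb).1

open Polynomial in
/-- the value of an element fixed by a subgroup of the decomposition group. -/
theorem ext_newton {Γ N : Type*} [Group Γ] [Field N] [MulSemiringAction Γ N] [Finite Γ]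
    (O : ValuationSubring N) {S : Subgroup Γ} (hS : S ≤ extStab Γ O)
    {x : N} (hx : x ≠ 0) (hfix : ∀ s ∈ S, s • x = x) :
    ∃ (m : ℕ) (c : N), m * Nat.card S = Nat.card (extStab Γ O) ∧ c ≠ 0 ∧
      (∀ g : Γ, g • c = c) ∧ O.valuation x ^ m = O.valuation c := by
  classical
  obtain ⟨r, hr1, hr2, hr3⟩ := ext_sep Γ O
  have hr0 : r ≠ 0 := by
    rintro rfl
    rw [map_zero] at hr2
    exact zero_ne_one hr2
  have hg0 : ∀ (g : Γ) {y : N}, y ≠ 0 → O.valuation (g • y) ≠ 0 := fun g y hy =>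
    (Valuation.ne_zero_iff _).2 ((smul_ne_zero_iff_ne g).2 hy)
  -- the exponent
  obtain ⟨n, hn⟩ : ∃ n : ℕ, ∀ g : Γ, g ∉ extStab Γ O →
      O.valuation (g • (r ^ n * x)) ≠ O.valuation x := by
    have hfin : (⋃ g : Γ, {n : ℕ | g ∉ extStab Γ O ∧
        O.valuation (g • (r ^ n * x)) = O.valuation x}).Finite := by
      refine Set.finite_iUnion fun g => Set.Subsingleton.finite ?_
      rintro n ⟨hg, h1⟩ m ⟨-, h2⟩
      rw [← h2, smul_mul', smul_mul', smul_pow', smul_pow', map_mul, map_mul, map_pow,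
        map_pow] at h1
      have h3 := mul_right_cancel₀ (hg0 g hx) h1
      rcases lt_trichotomy n m with h | h | h
      · exact absurd h3 (pow_lt_pow_right_of_lt_one₀ (zero_lt_iff.2 (hg0 g hr0))
          (hr3 g hg) h).ne'
      · exact h
      · exact absurd h3 (pow_lt_pow_right_of_lt_one₀ (zero_lt_iff.2 (hg0 g hr0))
          (hr3 g hg) h).ne
    obtain ⟨n, hn⟩ := hfin.exists_notMem
    refine ⟨n, fun g hg h => hn (Set.mem_iUnion.2 ⟨g, hg, h⟩)⟩
  set b : N := r ^ n * x with hb
  have hb0 : b ≠ 0 := mul_ne_zero (pow_ne_zero _ hr0) hx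
  have hbv : O.valuation b = O.valuation x := by rw [hb, map_mul, map_pow, hr2, one_pow, one_mul]
  have hbS : ∀ s ∈ S, s • b = b := fun s hs => by
    rw [hb, smul_mul', smul_pow', hr1 s (hS hs), hfix s hs]
  have hbZ : ∀ g : Γ, O.valuation (g • b) = O.valuation x ↔ g ∈ extStab Γ O := by
    intro g
    constructor
    · intro h
      by_contra hg
      exact hn g hg h
    · intro hg
      rw [extStab_val hg, hbv]
  -- the conjugates
  let _ : Fintype (Γ ⧸ S) := Fintype.ofFinite _
  set f : Γ ⧸ S → N := fun q => q.out • b with hf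
  have hfmk : ∀ g : Γ, f (QuotientGroup.mk g) = g • b := by
    intro g
    obtain ⟨h, hh⟩ := QuotientGroup.mk_out_eq_mul S g
    show (QuotientGroup.mk g : Γ ⧸ S).out • b = g • b
    rw [hh, mul_smul, hbS h.1 h.2]
  have hfg : ∀ (g : Γ) (q : Γ ⧸ S), f (g • q) = g • (f q) := by
    intro g q
    obtain ⟨h, rfl⟩ := QuotientGroup.mk_surjective q
    rw [MulAction.Quotient.smul_mk, hfmk, hfmk, smul_eq_mul, mul_smul]
  have hf0 : ∀ q, f q ≠ 0 := fun q => (smul_ne_zero_iff_ne q.out).2 hb0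
  -- the polynomial
  set P : N[X] := ∏ q : Γ ⧸ S, (X + C (f q)) with hP
  have hcoeff : ∀ T0 : Finset (Γ ⧸ S), (∀ a, a ∉ T0 → ∀ b ∈ T0,
      O.valuation (f a) < O.valuation (f b)) →
      ∃ c : N, (∀ g : Γ, g • c = c) ∧ O.valuation c = ∏ q ∈ T0, O.valuation (f q) := by
    intro T0 hT0
    refine ⟨P.coeff (Fintype.card (Γ ⧸ S) - T0.card), fun g => ?_, ?_⟩
    · have h2 : P.map (MulSemiringAction.toRingHom Γ N g) = P := by
        rw [hP, Polynomial.map_prod]
        rw [← Equiv.prod_comp (MulAction.toPerm g)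
          (fun q : Γ ⧸ S => (X + C (f q) : N[X]))]
        refine Finset.prod_congr rfl fun q _ => ?_
        rw [MulAction.toPerm_apply, hfg, Polynomial.map_add, Polynomial.map_X, Polynomial.map_C]
        rfl
      have h3 := congrArg (fun R : N[X] => R.coeff (Fintype.card (Γ ⧸ S) - T0.card)) h2
      simp only [Polynomial.coeff_map] at h3
      exact h3
    · have h4 := Finset.prod_X_add_C_coeff (Finset.univ : Finset (Γ ⧸ S)) f
        (k := Fintype.card (Γ ⧸ S) - T0.card) (by rw [Finset.card_univ]; omega)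
      have h5 : (Finset.univ : Finset (Γ ⧸ S)).card -
          (Fintype.card (Γ ⧸ S) - T0.card) = T0.card := by
        have := T0.card_le_univ
        rw [Finset.card_univ]
        omega
      rw [h5] at h4
      rw [hP, h4, ext_esym O.valuation f hf0 T0 hT0]
  set A : Finset (Γ ⧸ S) :=
    Finset.univ.filter fun q => O.valuation x < O.valuation (f q) with hA
  set M : Finset (Γ ⧸ S) :=
    Finset.univ.filter fun q => O.valuation (f q) = O.valuation x with hM
  have hdisj : Disjoint A M := by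
    rw [Finset.disjoint_left]
    intro q hq hq'
    exact (Finset.mem_filter.1 hq).2.ne' (Finset.mem_filter.1 hq').2
  obtain ⟨c1, hc1g, hc1⟩ := hcoeff A fun a ha b hb => by
    have h1 : O.valuation (f a) ≤ O.valuation x := by
      by_contra hcon
      exact ha (Finset.mem_filter.2 ⟨Finset.mem_univ _, not_le.1 hcon⟩)
    exact h1.trans_lt (Finset.mem_filter.1 hb).2
  obtain ⟨c2, hc2g, hc2⟩ := hcoeff (A ∪ M) fun a ha b hb => by
    rw [Finset.mem_union, not_or] at ha
    have h1 : O.valuation (f a) < O.valuation x := by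
      rcases lt_trichotomy (O.valuation (f a)) (O.valuation x) with h | h | h
      · exact h
      · exact absurd (show a ∈ M from Finset.mem_filter.2 ⟨Finset.mem_univ _, h⟩) ha.2
      · exact absurd (show a ∈ A from Finset.mem_filter.2 ⟨Finset.mem_univ _, h⟩) ha.1
    rcases Finset.mem_union.1 hb with h | h
    · exact h1.trans (Finset.mem_filter.1 h).2
    · rw [(Finset.mem_filter.1 h).2]
      exact h1
  have hne : ∏ q ∈ A, O.valuation (f q) ≠ 0 := Finset.prod_ne_zero_iff.2 fun q _ =>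
    (Valuation.ne_zero_iff _).2 (hf0 q)
  have hMp : ∏ q ∈ M, O.valuation (f q) = O.valuation x ^ M.card := by
    rw [Finset.prod_congr rfl fun q hq => (Finset.mem_filter.1 hq).2, Finset.prod_const]
  rw [Finset.prod_union hdisj, hMp] at hc2
  refine ⟨M.card, c2 / c1, ?_, ?_, fun g => ?_, ?_⟩
  · have h1 : (QuotientGroup.mk ⁻¹' (M : Set (Γ ⧸ S)) : Set Γ) = (extStab Γ O : Set Γ) := by
      ext g
      rw [Set.mem_preimage, Finset.mem_coe, hM, Finset.mem_filter, hfmk, hbZ]
      simp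
    have h2 := Nat.card_congr (QuotientGroup.preimageMkEquivSubgroupProdSet S
      (M : Set (Γ ⧸ S)))
    rw [h1, Nat.card_prod] at h2
    have h3 : Nat.card ((M : Set (Γ ⧸ S))) = M.card := by
      rw [Nat.card_coe_set_eq, Set.ncard_coe_finset]
    rw [h3, mul_comm] at h2
    exact h2.symm
  · have e1 : c1 ≠ 0 := by
      rintro rfl
      rw [map_zero] at hc1
      exact hne hc1.symm
    have e2 : c2 ≠ 0 := by
      rintro rfl
      rw [map_zero] at hc2
      exact mul_ne_zero hne (pow_ne_zero _ ((Valuation.ne_zero_iff _).2 hx)) hc2.symm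
    exact div_ne_zero e2 e1
  · rw [smul_div₀', hc1g, hc2g]
  · rw [map_div₀, hc1, hc2, mul_div_cancel_left₀ _ hne]

end Newton

/-! ### Conjugacy -/

section Conj

theorem ext_conj_half {Γ N : Type*} [Group Γ] [Field N] [MulSemiringAction Γ N] [Finite Γ]
    (O O' : ValuationSubring N) (h : ∀ x : N, (∀ g : Γ, g • x = x) → (x ∈ O ↔ x ∈ O')) :
    ∃ g : Γ, ∀ x : N, g • x ∈ O' → x ∈ O := by
  classical
  have _ := Fintype.ofFinite Γ
  have hlt : ∀ x : N, (∀ g : Γ, g • x = x) → O.valuation x < 1 → O'.valuation x < 1 := by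
    intro x hx h1
    by_contra h2
    rw [not_lt] at h2
    have hx0 : x ≠ 0 := by
      rintro rfl
      rw [map_zero] at h2
      exact absurd h2 (by simp)
    have h3 : x⁻¹ ∈ O' := by
      rw [← ValuationSubring.valuation_le_one_iff, map_inv₀]
      exact inv_le_one_of_one_le₀ h2
    rw [← h x⁻¹ fun g => by rw [smul_inv'', hx], ← ValuationSubring.valuation_le_one_iff,
      map_inv₀] at h3
    exact absurd h1 (not_lt.2 ((inv_le_one₀ (zero_lt_iff.2
      ((Valuation.ne_zero_iff _).2 hx0))).1 h3))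
  let B : Subring N :=
    { carrier := {z | ∀ g : Γ, g • z ∈ O ∧ g • z ∈ O'}
      mul_mem' := fun {a b} ha hb g => by
        rw [smul_mul']
        exact ⟨O.mul_mem _ _ (ha g).1 (hb g).1, O'.mul_mem _ _ (ha g).2 (hb g).2⟩
      one_mem' := fun g => by
        rw [smul_one]
        exact ⟨O.one_mem, O'.one_mem⟩
      add_mem' := fun {a b} ha hb g => by
        rw [smul_add]
        exact ⟨O.add_mem _ _ (ha g).1 (hb g).1, O'.add_mem _ _ (ha g).2 (hb g).2⟩
      zero_mem' := fun g => by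
        rw [smul_zero]
        exact ⟨O.zero_mem, O'.zero_mem⟩
      neg_mem' := fun {a} ha g => by
        rw [smul_neg]
        exact ⟨O.neg_mem _ (ha g).1, O'.neg_mem _ (ha g).2⟩ }
  let ψ : B →+* O :=
    { toFun := fun z => ⟨z, by have := (z.2 1).1; rwa [one_smul] at this⟩
      map_one' := rfl
      map_mul' := fun _ _ => rfl
      map_zero' := rfl
      map_add' := fun _ _ => rfl }
  let φ : Γ → B →+* O' := fun g =>
    { toFun := fun z => ⟨g • (z : N), (z.2 g).2⟩
      map_one' := Subtype.ext (smul_one g)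
      map_mul' := fun a b => Subtype.ext (smul_mul' g (a : N) (b : N))
      map_zero' := Subtype.ext (smul_zero g)
      map_add' := fun a b => Subtype.ext (smul_add g (a : N) (b : N)) }
  let Q : Ideal B := (IsLocalRing.maximalIdeal O).comap ψ
  let P : Γ → Ideal B := fun g => (IsLocalRing.maximalIdeal O').comap (φ g)
  have hQ : ∀ z : B, z ∈ Q ↔ O.valuation (z : N) < 1 := fun z => by
    rw [Ideal.mem_comap, ValuationSubring.valuation_lt_one_iff]
    rfl
  have hP : ∀ g (z : B), z ∈ P g ↔ O'.valuation (g • (z : N)) < 1 := fun g z => by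
    rw [Ideal.mem_comap, ValuationSubring.valuation_lt_one_iff]
    rfl
  have hsub : (Q : Set B) ⊆ ⋃ g ∈ (↑(Finset.univ : Finset Γ) : Set Γ), (P g : Set B) := by
    intro z hz
    rw [SetLike.mem_coe, hQ] at hz
    have h1 : O.valuation (∏ g : Γ, g • (z : N)) < 1 := by
      rw [map_prod]
      refine ext_prod_lt_one _ _ (fun g _ => ?_) ⟨1, Finset.mem_univ _, by rwa [one_smul]⟩
      rw [ValuationSubring.valuation_le_one_iff]
      exact (z.2 g).1
    have h2 := hlt _ (fun g => Finset.smul_prod_perm (z : N) g) h1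
    rw [map_prod] at h2
    by_contra hcon
    simp only [Set.mem_iUnion, not_exists] at hcon
    refine absurd h2 (not_lt.2 (le_of_eq (Finset.prod_eq_one fun g hg => ?_).symm))
    have h3 := hcon g (by simp)
    rw [SetLike.mem_coe, hP, not_lt] at h3
    refine le_antisymm ?_ h3
    rw [ValuationSubring.valuation_le_one_iff]
    exact (z.2 g).2
  obtain ⟨g, -, hg⟩ := (Ideal.subset_union_prime 1 1
    (fun g _ _ _ => Ideal.IsPrime.comap (φ g))).1 hsub
  refine ⟨g, fun x hx => ?_⟩
  by_contra hxO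
  obtain ⟨z, hz⟩ := ext_nagata (Finset.univ : Finset (Γ ⊕ Γ))
    (Sum.elim (fun h => O.comap (MulSemiringAction.toRingHom Γ N h))
      fun h => O'.comap (MulSemiringAction.toRingHom Γ N h)) x
  have hzB : z ∈ B := fun h => by
    have h1 : z ∈ O.comap (MulSemiringAction.toRingHom Γ N h) :=
      (hz (Sum.inl h) (Finset.mem_univ _)).1
    have h2 : z ∈ O'.comap (MulSemiringAction.toRingHom Γ N h) :=
      (hz (Sum.inr h) (Finset.mem_univ _)).1
    exact ⟨h1, h2⟩
  have h1 : x ∉ O.comap (MulSemiringAction.toRingHom Γ N 1) →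
      (O.comap (MulSemiringAction.toRingHom Γ N 1)).valuation z < 1 :=
    (hz (Sum.inl 1) (Finset.mem_univ _)).2.2
  have h2 : x ∈ O'.comap (MulSemiringAction.toRingHom Γ N g) →
      (O'.comap (MulSemiringAction.toRingHom Γ N g)).valuation z = 1 :=
    (hz (Sum.inr g) (Finset.mem_univ _)).2.1
  rw [ValuationSubring.mem_comap, MulSemiringAction.toRingHom_apply, one_smul,
    ext_comap_lt_one, MulSemiringAction.toRingHom_apply, one_smul] at h1
  rw [ValuationSubring.mem_comap, MulSemiringAction.toRingHom_apply,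
    ext_comap_eq_one, MulSemiringAction.toRingHom_apply] at h2
  have h3 := h1 hxO
  have h4 := h2 hx
  have h5 := hg ((hQ ⟨z, hzB⟩).2 h3)
  rw [hP] at h5
  exact absurd h4 h5.ne

/-- valuation rings with the same invariants are conjugate. -/
theorem ext_conj {Γ N : Type*} [Group Γ] [Field N] [MulSemiringAction Γ N] [Finite Γ]
    (O O' : ValuationSubring N) (h : ∀ x : N, (∀ g : Γ, g • x = x) → (x ∈ O ↔ x ∈ O')) :
    ∃ g : Γ, ∀ x : N, x ∈ O ↔ g • x ∈ O' := by
  obtain ⟨g, hg⟩ := ext_conj_half O O' h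
  obtain ⟨g', hg'⟩ := ext_conj_half O' O fun x hx => (h x hx).symm
  have h1 : g' * g ∈ extStab Γ O := by
    by_contra hcon
    have h2 : (g' * g)⁻¹ ∉ extStab Γ O := fun h3 => hcon (by
      have := (extStab Γ O).inv_mem h3
      rwa [inv_inv] at this)
    obtain ⟨x, hx, hx'⟩ := ext_not_stab h2
    apply hx'
    apply hg
    apply hg'
    rw [← mul_smul, smul_inv_smul]
    exact hx
  refine ⟨g, fun x => ⟨fun hx => ?_, hg x⟩⟩
  apply hg'
  rw [← mul_smul]
  exact (h1 x).2 hx

end Conj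

/-! ### Residue fields -/

section Res

variable {F N : Type*} [Field F] [Field N] [Algebra F N]

open Polynomial in
/-- no residue extension over an algebraically closed residue field. -/
theorem ext_res [FiniteDimensional F N] (O : ValuationSubring N)
    (hac : IsAlgClosed (IsLocalRing.ResidueField (O.comap (algebraMap F N)))) {β : N}
    (hβ : β ∈ O) : ∃ c : F, O.valuation (β - algebraMap F N c) < 1 := by
  classical
  let f : O.comap (algebraMap F N) →+* O :=
    { toFun := fun x => ⟨algebraMap F N x, x.2⟩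
      map_one' := Subtype.ext (map_one _)
      map_mul' := fun a b => Subtype.ext (map_mul (algebraMap F N) (a : F) (b : F))
      map_zero' := Subtype.ext (map_zero _)
      map_add' := fun a b => Subtype.ext (map_add (algebraMap F N) (a : F) (b : F)) }
  have hf : IsLocalHom f := by
    constructor
    intro a ha
    rw [ValuationSubring.valuation_eq_one_iff] at ha ⊢
    rw [ext_comap_eq_one]
    exact ha
  let ρ : IsLocalRing.ResidueField (O.comap (algebraMap F N)) →+* IsLocalRing.ResidueField O :=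
    IsLocalRing.ResidueField.map f
  have hρ : ∀ a : O.comap (algebraMap F N), ρ (IsLocalRing.residue _ a) =
      IsLocalRing.residue O (f a) := fun a => IsLocalRing.ResidueField.map_residue f a
  let _ : Algebra (IsLocalRing.ResidueField (O.comap (algebraMap F N)))
    (IsLocalRing.ResidueField O) := ρ.toAlgebra
  set p : F[X] := minpoly F β with hp
  have hp0 : p ≠ 0 := minpoly.ne_zero (Algebra.IsIntegral.isIntegral β)
  obtain ⟨i0, hi0, hmax⟩ := Finset.exists_max_image p.support
    (fun i => O.valuation (algebraMap F N (p.coeff i)))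
    (Polynomial.support_nonempty.2 hp0)
  have hc0 : p.coeff i0 ≠ 0 := Polynomial.mem_support_iff.1 hi0
  have hc0' : algebraMap F N (p.coeff i0) ≠ 0 := by
    rwa [Ne, map_eq_zero]
  have hmem : ∀ i, p.coeff i / p.coeff i0 ∈ O.comap (algebraMap F N) := by
    intro i
    rw [ValuationSubring.mem_comap, ← ValuationSubring.valuation_le_one_iff, map_div₀, map_div₀,
      div_le_one₀ (zero_lt_iff.2 ((Valuation.ne_zero_iff _).2 hc0'))]
    by_cases hi : i ∈ p.support
    · exact hmax i hi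
    · rw [Polynomial.notMem_support_iff.1 hi, map_zero, map_zero]
      exact zero_le
  set q : (IsLocalRing.ResidueField (O.comap (algebraMap F N)))[X] :=
    ∑ i ∈ range (p.natDegree + 1), C (IsLocalRing.residue _
      (⟨p.coeff i / p.coeff i0, hmem i⟩ : O.comap (algebraMap F N))) * X ^ i with hq
  have hq0 : q ≠ 0 := by
    intro h
    have h1 : q.coeff i0 = 1 := by
      rw [hq, Polynomial.finsetSum_coeff, Finset.sum_eq_single i0]
      · rw [Polynomial.coeff_C_mul_X_pow, if_pos rfl]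
        have : (⟨p.coeff i0 / p.coeff i0, hmem i0⟩ : O.comap (algebraMap F N)) = 1 :=
          Subtype.ext (div_self hc0)
        rw [this, map_one]
      · intro i _ hi
        rw [Polynomial.coeff_C_mul_X_pow, if_neg (Ne.symm hi)]
      · intro h2
        exfalso
        apply h2
        rw [Finset.mem_range]
        have := Polynomial.le_natDegree_of_mem_supp i0 hi0
        omega
    rw [h, Polynomial.coeff_zero] at h1
    exact zero_ne_one h1
  have hqβ : aeval (IsLocalRing.residue O ⟨β, hβ⟩) q = 0 := by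
    have h1 : ∑ i ∈ range (p.natDegree + 1),
        (⟨algebraMap F N (p.coeff i / p.coeff i0), hmem i⟩ : O) * ⟨β, hβ⟩ ^ i = 0 := by
      apply Subtype.ext
      have h5 : ((∑ i ∈ range (p.natDegree + 1),
          (⟨algebraMap F N (p.coeff i / p.coeff i0), hmem i⟩ : O) * ⟨β, hβ⟩ ^ i : O) : N) =
          ∑ i ∈ range (p.natDegree + 1), algebraMap F N (p.coeff i / p.coeff i0) * β ^ i :=
        map_sum O.subtype _ _
      rw [h5]
      have h2 : aeval β p = 0 := minpoly.aeval F β
      rw [Polynomial.aeval_eq_sum_range] at h2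
      have h3 : ∑ i ∈ range (p.natDegree + 1), algebraMap F N (p.coeff i / p.coeff i0) * β ^ i =
          (∑ i ∈ range (p.natDegree + 1), p.coeff i • β ^ i) / algebraMap F N (p.coeff i0) := by
        rw [Finset.sum_div]
        refine Finset.sum_congr rfl fun i _ => ?_
        rw [map_div₀, Algebra.smul_def]
        ring
      rw [h3, h2, zero_div]
      rfl
    rw [hq, map_sum]
    have h4 := congrArg (IsLocalRing.residue O) h1
    rw [map_sum, map_zero] at h4
    rw [← h4]
    refine Finset.sum_congr rfl fun i _ => ?_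
    rw [map_mul, map_mul, map_pow, map_pow, aeval_C, aeval_X]
    congr 1
  have hint : IsIntegral (IsLocalRing.ResidueField (O.comap (algebraMap F N)))
      (IsLocalRing.residue O ⟨β, hβ⟩) := by
    rw [← isAlgebraic_iff_isIntegral]
    exact ⟨q, hq0, hqβ⟩
  obtain ⟨c, hc⟩ := minpoly.mem_range_of_degree_eq_one
    (IsLocalRing.ResidueField (O.comap (algebraMap F N))) (IsLocalRing.residue O ⟨β, hβ⟩)
    (IsAlgClosed.degree_eq_one_of_irreducible _ (minpoly.irreducible hint))
  obtain ⟨c, rfl⟩ := IsLocalRing.residue_surjective c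
  refine ⟨c, ?_⟩
  have h5 : IsLocalRing.residue O (⟨β, hβ⟩ - f c) = 0 := by
    rw [map_sub, sub_eq_zero, ← hρ]
    exact hc.symm
  rw [IsLocalRing.residue_eq_zero_iff, ValuationSubring.valuation_lt_one_iff] at h5
  exact h5

/-- roots of unity are separated by the residue field. -/
theorem ext_root {ℓ : ℕ} (O : ValuationSubring N) (hℓ : O.valuation (ℓ : N) = 1) {ξ : N}
    (hξ1 : ξ ≠ 1) (hξ : ξ ^ ℓ = 1) : ¬ O.valuation (ξ - 1) < 1 := by
  intro h
  have hsum : ∑ i ∈ range ℓ, ξ ^ i = 0 := by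
    have h1 := geom_sum_mul ξ ℓ
    rw [hξ, sub_self] at h1
    exact (mul_eq_zero.1 h1).resolve_right (sub_ne_zero.2 hξ1)
  have h1 : ξ - 1 ∈ O := by
    rw [← ValuationSubring.valuation_le_one_iff]
    exact h.le
  have h2 : IsLocalRing.residue O ⟨ξ - 1, h1⟩ = 0 := by
    rw [IsLocalRing.residue_eq_zero_iff, ValuationSubring.valuation_lt_one_iff]
    exact h
  have h3 : ∑ i ∈ range ℓ, ((⟨ξ - 1, h1⟩ : O) + 1) ^ i = 0 := by
    apply Subtype.ext
    push_cast
    simp only [sub_add_cancel]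
    exact hsum
  have h4 := congrArg (IsLocalRing.residue O) h3
  rw [map_sum, map_zero] at h4
  simp only [map_pow, map_add, h2, map_one, zero_add, one_pow, Finset.sum_const,
    Finset.card_range, nsmul_eq_mul, mul_one] at h4
  have h5 : IsLocalRing.residue O (ℓ : O) = 0 := by
    rw [map_natCast]
    exact h4
  rw [IsLocalRing.residue_eq_zero_iff, ValuationSubring.valuation_lt_one_iff] at h5
  push_cast at h5
  rw [hℓ] at h5
  exact lt_irrefl _ h5

end Res

/-! ### Kummer theory -/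

section Kummer

variable {F N : Type*} [Field F] [Field N] [Algebra F N]

/-- an eigenvector for a subgroup of index `ℓ`. -/
theorem ext_kummer [FiniteDimensional F N] {ℓ : ℕ} [Fact ℓ.Prime] {ζ : F}
    (hζ : IsPrimitiveRoot ζ ℓ) (hℓ : (ℓ : N) ≠ 0) {S : Subgroup (N ≃ₐ[F] N)} {σ : N ≃ₐ[F] N}
    (hσ : σ ∉ S) (hσℓ : σ ^ ℓ ∈ S) (hnorm : ∀ s ∈ S, σ⁻¹ * s * σ ∈ S) :
    ∃ (α : N) (ξ : F), α ≠ 0 ∧ (∀ s ∈ S, s α = α) ∧ ξ ≠ 1 ∧ ξ ^ ℓ = 1 ∧
      σ α = algebraMap F N ξ * α := by
  have hℓp : ℓ.Prime := Fact.out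
  obtain ⟨y, hy, hσy⟩ : ∃ y : N, (∀ s ∈ S, s y = y) ∧ σ y ≠ y := by
    by_contra hcon
    push Not at hcon
    apply hσ
    rw [← IntermediateField.fixingSubgroup_fixedField S, IntermediateField.mem_fixingSubgroup_iff]
    intro x hx
    exact hcon x fun s hs => (IntermediateField.mem_fixedField_iff S x).1 hx s hs
  have hyi : ∀ i : ℕ, ∀ s ∈ S, s ((σ ^ i) y) = (σ ^ i) y := by
    intro i
    induction i with
    | zero => exact hy
    | succ i ih =>
      intro s hs
      have h1 : s ((σ ^ (i + 1)) y) = σ ((σ⁻¹ * s * σ) ((σ ^ i) y)) := by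
        rw [pow_succ']
        show s (σ ((σ ^ i) y)) = σ (σ.symm (s (σ ((σ ^ i) y))))
        rw [AlgEquiv.apply_symm_apply]
      rw [h1, ih _ (hnorm s hs), pow_succ']
      rfl
  let α : ℕ → N := fun j => ∑ i ∈ range ℓ, algebraMap F N (ζ ^ (i * j)) * (σ ^ i) y
  have hα : ∀ j, α j = ∑ i ∈ range ℓ, algebraMap F N (ζ ^ (i * j)) * (σ ^ i) y := fun _ => rfl
  have hσα : ∀ j, algebraMap F N (ζ ^ j) * σ (α j) = α j := by
    intro j
    have h1 : algebraMap F N (ζ ^ j) * σ (α j) =
        ∑ i ∈ range ℓ, algebraMap F N (ζ ^ ((i + 1) * j)) * (σ ^ (i + 1)) y := by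
      rw [hα, map_sum, Finset.mul_sum]
      refine Finset.sum_congr rfl fun i _ => ?_
      rw [map_mul, AlgEquiv.commutes, ← mul_assoc, ← map_mul, ← pow_add, pow_succ']
      congr 3
      ring
    have h2 := Finset.sum_range_succ (fun i => algebraMap F N (ζ ^ (i * j)) * (σ ^ i) y) ℓ
    have h3 := Finset.sum_range_succ' (fun i => algebraMap F N (ζ ^ (i * j)) * (σ ^ i) y) ℓ
    have h4 : algebraMap F N (ζ ^ (ℓ * j)) * (σ ^ ℓ) y =
        algebraMap F N (ζ ^ (0 * j)) * (σ ^ 0) y := by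
      rw [pow_mul, hζ.pow_eq_one, one_pow, zero_mul, pow_zero, hy _ hσℓ]
      rfl
    rw [h1]
    rw [h2, h4] at h3
    exact (add_right_cancel h3).symm
  have hsum : ∑ j ∈ range ℓ, α j = (ℓ : N) * y := by
    simp only [hα]
    rw [Finset.sum_comm]
    have h1 : ∀ i ∈ range ℓ, ∑ j ∈ range ℓ, algebraMap F N (ζ ^ (i * j)) * (σ ^ i) y =
        if i = 0 then (ℓ : N) * y else 0 := by
      intro i hi
      rw [← Finset.sum_mul, ← map_sum]
      split_ifs with h
      · subst h
        simp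
      · have h2 : ∑ j ∈ range ℓ, ζ ^ (i * j) = 0 := by
          have h3 := geom_sum_mul (ζ ^ i) ℓ
          rw [← pow_mul, mul_comm i ℓ, pow_mul, hζ.pow_eq_one, one_pow, sub_self] at h3
          have h4 : ζ ^ i - 1 ≠ 0 := sub_ne_zero.2
            (hζ.pow_ne_one_of_pos_of_lt h (Finset.mem_range.1 hi))
          rw [← (mul_eq_zero.1 h3).resolve_right h4]
          exact Finset.sum_congr rfl fun j _ => pow_mul _ _ _
        rw [h2, map_zero, zero_mul]
    rw [Finset.sum_congr rfl h1, Finset.sum_ite_eq' (range ℓ) 0, if_pos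
      (Finset.mem_range.2 hℓp.pos)]
  obtain ⟨j, hj, hj0, hαj⟩ : ∃ j ∈ range ℓ, j ≠ 0 ∧ α j ≠ 0 := by
    by_contra hcon
    push Not at hcon
    have h1 : ∑ j ∈ range ℓ, α j = α 0 :=
      Finset.sum_eq_single 0 (fun j hj hj0 => hcon j hj hj0)
        fun h => absurd (Finset.mem_range.2 hℓp.pos) h
    have h2 := hσα 0
    rw [← h1, hsum, pow_zero, map_one, one_mul, map_mul, map_natCast] at h2
    exact hσy (mul_left_cancel₀ hℓ h2)
  refine ⟨α j, (ζ ^ j)⁻¹, hαj, fun s hs => ?_, ?_, ?_, ?_⟩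
  · rw [hα, map_sum]
    refine Finset.sum_congr rfl fun i _ => ?_
    rw [map_mul, AlgEquiv.commutes, hyi i s hs]
  · intro h
    exact hζ.pow_ne_one_of_pos_of_lt hj0 (Finset.mem_range.1 hj) (inv_eq_one.1 h)
  · rw [inv_pow, ← pow_mul, mul_comm j ℓ, pow_mul, hζ.pow_eq_one, one_pow, inv_one]
  · have h1 := hσα j
    have h2 : algebraMap F N (ζ ^ j) ≠ 0 := by
      rw [Ne, map_eq_zero]
      exact pow_ne_zero _ (hζ.ne_zero hℓp.ne_zero)
    rw [map_inv₀]
    rw [eq_comm, inv_mul_eq_iff_eq_mul₀ h2]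
    exact h1.symm

end Kummer

/-! ### Sylow subgroups of decomposition groups -/

section Sylow

open scoped Pointwise in
/-- `ℓ`-subgroups of `Z` are conjugate into a Sylow subgroup. -/
theorem ext_sylow_conj {G : Type*} [Group G] [Finite G] {ℓ : ℕ} [Fact ℓ.Prime]
    {Z T S : Subgroup G} (hT : T ≤ Z) {n : ℕ} (hTc : Nat.card T = ℓ ^ n)
    (hn : ¬ ℓ ^ (n + 1) ∣ Nat.card Z) (hS : S ≤ Z) {a : ℕ} (hSc : Nat.card S = ℓ ^ a) :
    ∃ z ∈ Z, ∀ s ∈ S, z⁻¹ * s * z ∈ T := by
  have hTc' : Nat.card (T.subgroupOf Z) = ℓ ^ n := by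
    rw [Nat.card_congr (Subgroup.subgroupOfEquivOfLe hT).toEquiv, hTc]
  have hSc' : Nat.card (S.subgroupOf Z) = ℓ ^ a := by
    rw [Nat.card_congr (Subgroup.subgroupOfEquivOfLe hS).toEquiv, hSc]
  have hfac : n = (Nat.card Z).factorization ℓ := by
    have h1 : ℓ ^ n ∣ Nat.card Z := by
      rw [← hTc']
      exact Subgroup.card_subgroup_dvd_card _
    have hℓp : ℓ.Prime := Fact.out
    have h2 := (hℓp.pow_dvd_iff_le_factorization Nat.card_pos.ne').1 h1
    have h3 : ¬ n + 1 ≤ (Nat.card Z).factorization ℓ := fun h =>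
      hn ((hℓp.pow_dvd_iff_le_factorization Nat.card_pos.ne').2 h)
    omega
  let P : Sylow ℓ Z := Sylow.ofCard (T.subgroupOf Z) (by rw [hTc', hfac])
  obtain ⟨Q, hQ⟩ := (IsPGroup.of_card hSc').exists_le_sylow
  obtain ⟨z, hz⟩ := MulAction.exists_smul_eq Z P Q
  refine ⟨z, z.2, fun s hs => ?_⟩
  have h1 : (⟨s, hS hs⟩ : Z) ∈ Q := hQ (Subgroup.mem_subgroupOf.2 hs)
  rw [← hz] at h1
  have h2 : (⟨s, hS hs⟩ : Z) ∈ MulAut.conj z • (T.subgroupOf Z) := h1
  rw [Subgroup.mem_pointwise_smul_iff_inv_smul_mem, ← map_inv, MulAut.smul_def,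
    MulAut.conj_apply, inv_inv, Subgroup.mem_subgroupOf] at h2
  exact h2

variable {F N : Type*} [Field F] [Field N] [Algebra F N]

/-- the index of `Z ∩ H` in `Z` is prime to `ℓ`. -/
theorem ext_claim [FiniteDimensional F N] {ℓ : ℕ} [Fact ℓ.Prime] {ζ : F}
    (hζ : IsPrimitiveRoot ζ ℓ) (O : ValuationSubring N) (hℓ : O.valuation (ℓ : N) = 1)
    (hres : ∀ β ∈ O, ∃ c : F, O.valuation (β - algebraMap F N c) < 1)
    (H : Subgroup (N ≃ₐ[F] N)) (hram : ∀ x : N, x ≠ 0 → (∀ h ∈ H, h x = x) →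
      ∃ m : ℕ, ¬ ℓ ∣ m ∧ ∃ c : F, O.valuation x ^ m = O.valuation (algebraMap F N c))
    {S : Subgroup (N ≃ₐ[F] N)} (hSH : S ≤ H) (hSZ : S ≤ extStab (N ≃ₐ[F] N) O) {n : ℕ}
    (hS : Nat.card S = ℓ ^ n)
    (hSyl : ¬ ℓ ^ (n + 1) ∣ Nat.card (extStab (N ≃ₐ[F] N) O ⊓ H : Subgroup (N ≃ₐ[F] N))) :
    ¬ ℓ ^ (n + 1) ∣ Nat.card (extStab (N ≃ₐ[F] N) O) := by
  intro hdvd
  have hℓp : ℓ.Prime := Fact.out
  set Z := extStab (N ≃ₐ[F] N) O with hZ
  have hSc' : Nat.card (S.subgroupOf Z) = ℓ ^ n := by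
    rw [Nat.card_congr (Subgroup.subgroupOfEquivOfLe hSZ).toEquiv, hS]
  obtain ⟨K, hK, hSK⟩ := Sylow.exists_subgroup_card_pow_succ hdvd hSc'
  set S' : Subgroup (N ≃ₐ[F] N) := K.map Z.subtype with hS'
  have hS'c : Nat.card S' = ℓ ^ (n + 1) := by
    rw [hS', Nat.card_congr (Subgroup.equivMapOfInjective K Z.subtype
      Z.subtype_injective).symm.toEquiv, hK]
  have hS'Z : S' ≤ Z := Subgroup.map_subtype_le K
  have hSS' : S ≤ S' := fun s hs => by
    rw [hS', Subgroup.mem_map]
    exact ⟨⟨s, hSZ hs⟩, hSK (Subgroup.mem_subgroupOf.2 hs), rfl⟩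
  -- `S` is normal of index `ℓ` in `S'`
  have hindex : (S.subgroupOf S').index = ℓ := by
    have h1 := Subgroup.card_mul_index (S.subgroupOf S')
    rw [Nat.card_congr (Subgroup.subgroupOfEquivOfLe hSS').toEquiv, hS, hS'c, pow_succ] at h1
    exact Nat.eq_of_mul_eq_mul_left (pow_pos hℓp.pos n) h1
  have hnor : (S.subgroupOf S').Normal := by
    apply Subgroup.normal_of_index_eq_minFac_card
    rw [hindex, hS'c, hℓp.pow_minFac (Nat.succ_ne_zero n)]
  obtain ⟨σ, hσ', hσ⟩ : ∃ σ ∈ S', σ ∉ S := by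
    by_contra hcon
    push Not at hcon
    have h1 : S' = S := le_antisymm hcon hSS'
    rw [h1, hS] at hS'c
    exact absurd hS'c (Nat.pow_lt_pow_right hℓp.one_lt (Nat.lt_succ_self n)).ne
  have hnorm : ∀ s ∈ S, σ⁻¹ * s * σ ∈ S := by
    intro s hs
    have h1 := hnor.conj_mem ⟨s, hSS' hs⟩ (Subgroup.mem_subgroupOf.2 hs) ⟨σ, hσ'⟩⁻¹
    rw [Subgroup.mem_subgroupOf, inv_inv] at h1
    exact h1
  have hσℓ : σ ^ ℓ ∈ S := by
    have h1 := Subgroup.pow_index_mem (S.subgroupOf S') (⟨σ, hσ'⟩ : S')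
    rw [hindex, Subgroup.mem_subgroupOf] at h1
    exact h1
  have hℓ0 : (ℓ : N) ≠ 0 := by
    intro h
    rw [h, map_zero] at hℓ
    exact zero_ne_one hℓ
  obtain ⟨α, ξ, hα0, hαS, hξ1, hξℓ, hσα⟩ := ext_kummer hζ hℓ0 hσ hσℓ hnorm
  -- the value of `α`
  obtain ⟨m1, c, hm1, hc0, hcH, hαc⟩ := ext_newton (Γ := H) O (S := S.subgroupOf H)
    (fun s hs => fun x => hSZ (Subgroup.mem_subgroupOf.1 hs) x) hα0
    (fun s hs => hαS s (Subgroup.mem_subgroupOf.1 hs))
  have hm1' : ¬ ℓ ∣ m1 := by
    rintro ⟨q, rfl⟩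
    apply hSyl
    rw [Nat.card_congr (Subgroup.subgroupOfEquivOfLe hSH).toEquiv, hS] at hm1
    have h1 : Nat.card (extStab H O) = Nat.card (Z ⊓ H : Subgroup (N ≃ₐ[F] N)) := by
      have h2 : extStab H O = (Z ⊓ H).subgroupOf H := by
        ext g
        rw [Subgroup.mem_subgroupOf, Subgroup.mem_inf]
        exact ⟨fun h => ⟨h, g.2⟩, fun h => h.1⟩
      rw [h2, Nat.card_congr (Subgroup.subgroupOfEquivOfLe inf_le_right).toEquiv]
    rw [← h1, ← hm1]
    exact ⟨q, by ring⟩
  obtain ⟨m2, hm2, f, hf⟩ := hram c hc0 fun h hh => hcH ⟨h, hh⟩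
  have hβv : O.valuation (α ^ (m1 * m2)) = O.valuation (algebraMap F N f) := by
    rw [map_pow, pow_mul, hαc, hf]
  have hf0 : algebraMap F N f ≠ 0 := by
    intro h
    rw [h, map_zero, map_pow] at hβv
    exact pow_ne_zero _ ((Valuation.ne_zero_iff _).2 hα0) hβv
  set β : N := α ^ (m1 * m2) / algebraMap F N f with hβ
  have hβ1 : O.valuation β = 1 := by
    rw [hβ, map_div₀, hβv, div_self ((Valuation.ne_zero_iff _).2 hf0)]
  have hσβ : σ β = algebraMap F N (ξ ^ (m1 * m2)) * β := by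
    rw [hβ, map_div₀, map_pow, hσα, AlgEquiv.commutes, mul_pow, map_pow, mul_div_assoc]
  obtain ⟨b, hb⟩ := hres β (by rw [← ValuationSubring.valuation_le_one_iff, hβ1])
  have h1 : O.valuation (σ β - β) < 1 := by
    have h2 : O.valuation (σ (β - algebraMap F N b)) < 1 := by
      have h3 := extStab_val (hS'Z hσ') (β - algebraMap F N b)
      rw [AlgEquiv.smul_def] at h3
      rw [h3]
      exact hb
    have h3 : σ β - β = σ (β - algebraMap F N b) - (β - algebraMap F N b) := by
      rw [map_sub, AlgEquiv.commutes]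
      ring
    rw [h3]
    exact Valuation.map_sub_lt _ h2 hb
  rw [hσβ] at h1
  have h2 : algebraMap F N (ξ ^ (m1 * m2)) * β - β = (algebraMap F N (ξ ^ (m1 * m2)) - 1) * β := by
    ring
  rw [h2, map_mul, hβ1, mul_one] at h1
  refine ext_root O hℓ ?_ ?_ h1
  · intro h3
    rw [← map_one (algebraMap F N)] at h3
    have h4 := (algebraMap F N).injective h3
    have h5 : orderOf ξ = ℓ := orderOf_eq_prime hξℓ hξ1
    have h6 := orderOf_dvd_of_pow_eq_one h4
    rw [h5] at h6
    rcases hℓp.dvd_mul.1 h6 with h | h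
    · exact hm1' h
    · exact hm2 h
  · rw [← map_pow, ← pow_mul, mul_comm, pow_mul, hξℓ, one_pow, map_one]

end Sylow

/-! ### Extensions and limits -/

section Ext

variable {F N : Type*} [Field F] [Field N]

theorem ext_exists (f : F →+* N) (O : ValuationSubring F) :
    ∃ Q : ValuationSubring N, Q.comap f = O := by
  obtain ⟨A, hA, hloc⟩ := IsLocalRing.exists_factor_valuationRing (f.comp O.subtype)
  refine ⟨A, ?_⟩
  ext x
  rw [ValuationSubring.mem_comap]
  refine ⟨fun hx => ?_, fun hx => hA ⟨x, hx⟩⟩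
  by_contra hxO
  have hx0 : x ≠ 0 := fun h => hxO (h ▸ O.zero_mem)
  have h1 : x⁻¹ ∈ O := (O.mem_or_inv_mem x).resolve_left hxO
  have h2 : IsUnit (⟨x⁻¹, h1⟩ : O) := by
    apply hloc.map_nonunit
    refine isUnit_iff_exists_inv.2 ⟨⟨f x, hx⟩, Subtype.ext ?_⟩
    show f x⁻¹ * f x = 1
    rw [← map_mul, inv_mul_cancel₀ hx0, map_one]
  obtain ⟨y, hy⟩ := isUnit_iff_exists_inv.1 h2
  apply hxO
  have h3 : (y : F) = x := by
    have h4 : x⁻¹ * (y : F) = 1 := congrArg Subtype.val hy
    rw [inv_mul_eq_iff_eq_mul₀ hx0, mul_one] at h4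
    exact h4
  rw [← h3]
  exact y.2

/-- the limit of valuation rings along an ultrafilter. -/
def extLim {I : Type*} (U : Ultrafilter I) (Q : I → ValuationSubring N) : ValuationSubring N where
  carrier := {x | ∀ᶠ i in (U : Filter I), x ∈ Q i}
  mul_mem' := fun {a b} ha hb => by
    filter_upwards [ha, hb] with i h1 h2 using (Q i).mul_mem _ _ h1 h2
  one_mem' := Filter.Eventually.of_forall fun i => (Q i).one_mem
  add_mem' := fun {a b} ha hb => by
    filter_upwards [ha, hb] with i h1 h2 using (Q i).add_mem _ _ h1 h2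
  zero_mem' := Filter.Eventually.of_forall fun i => (Q i).zero_mem
  neg_mem' := fun {a} ha => by
    filter_upwards [ha] with i h1 using (Q i).neg_mem _ h1
  mem_or_inv_mem' := fun x => by
    show (∀ᶠ i in (U : Filter I), x ∈ Q i) ∨ ∀ᶠ i in (U : Filter I), x⁻¹ ∈ Q i
    rw [← Ultrafilter.eventually_or]
    exact Filter.Eventually.of_forall fun i => (Q i).mem_or_inv_mem x

theorem mem_extLim {I : Type*} {U : Ultrafilter I} {Q : I → ValuationSubring N} {x : N} :
    x ∈ extLim U Q ↔ ∀ᶠ i in (U : Filter I), x ∈ Q i := Iff.rfl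

theorem ext_const {I α : Type*} [Finite α] (U : Ultrafilter I) (f : I → α) :
    ∃ a, ∀ᶠ i in (U : Filter I), f i = a := by
  have h : ∀ᶠ i in (U : Filter I), ∃ a, f i = a :=
    Filter.Eventually.of_forall fun i => ⟨f i, rfl⟩
  exact (Ultrafilter.eventually_exists_iff).1 h

end Ext

/-! ### The main result of this file -/

section Main

/-- Galois form. -/
theorem ext_val_gal {F L N : Type*} [Field F] [Field L] [Field N] [Algebra F L] [Algebra L N]
    [Algebra F N] [IsScalarTower F L N] [FiniteDimensional F N] [IsGalois F N] {ℓ : ℕ}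
    [Fact ℓ.Prime] {ζ : F} (hζ : IsPrimitiveRoot ζ ℓ) {I : Type*} (U : Ultrafilter I)
    (O : I → ValuationSubring F) (W : ValuationSubring L)
    (hlim : ∀ x : F, algebraMap F L x ∈ W ↔ ∀ᶠ i in (U : Filter I), x ∈ O i)
    (hac : IsAlgClosed (IsLocalRing.ResidueField (W.comap (algebraMap F L))))
    (hℓ : W.valuation (ℓ : L) = 1)
    (hram : ∀ x : L, x ≠ 0 → ∃ m : ℕ, ¬ ℓ ∣ m ∧ ∃ c : F,
      W.valuation x ^ m = W.valuation (algebraMap F L c)) :
    ∃ Q : I → ValuationSubring L, (∀ i, (Q i).comap (algebraMap F L) = O i) ∧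
      (∀ x : L, x ∈ W ↔ ∀ᶠ i in (U : Filter I), x ∈ Q i) ∧
      ∀ᶠ i in (U : Filter I), ∀ x : L, x ≠ 0 → ∃ m : ℕ, ¬ ℓ ∣ m ∧ ∃ c : F,
        (Q i).valuation x ^ m = (Q i).valuation (algebraMap F L c) := by
  classical
  have hℓp : ℓ.Prime := Fact.out
  obtain ⟨W', hW'⟩ := ext_exists (algebraMap L N) W
  choose Q' hQ' using fun i => ext_exists (algebraMap F N) (O i)
  -- the decomposition groups
  set G := N ≃ₐ[F] N with hG
  have hfix : ∀ x : N, (∀ g : G, g • x = x) → ∃ c : F, algebraMap F N c = x := fun x hx =>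
    (IsGalois.mem_range_algebraMap_iff_fixed x).2 hx
  have hFL : ∀ c : F, algebraMap F N c = algebraMap L N (algebraMap F L c) := fun c =>
    IsScalarTower.algebraMap_apply F L N c
  have hWF : ∀ c : F, algebraMap F N c ∈ W' ↔ algebraMap F L c ∈ W := fun c => by
    rw [hFL, ← ValuationSubring.mem_comap, hW']
  have hQF : ∀ i (c : F), algebraMap F N c ∈ Q' i ↔ c ∈ O i := fun i c => by
    rw [← ValuationSubring.mem_comap, hQ']
  obtain ⟨g, hg⟩ := ext_conj (Γ := G) W' (extLim U Q') fun x hx => by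
    obtain ⟨c, rfl⟩ := hfix x hx
    rw [hWF, hlim, mem_extLim]
    simp only [hQF]
  set Q1 : I → ValuationSubring N := fun i =>
    (Q' i).comap (MulSemiringAction.toRingHom G N g) with hQ1
  have hQ1F : ∀ i (c : F), algebraMap F N c ∈ Q1 i ↔ c ∈ O i := fun i c => by
    rw [hQ1]
    simp only
    rw [ValuationSubring.mem_comap, MulSemiringAction.toRingHom_apply, AlgEquiv.smul_def,
      AlgEquiv.commutes, hQF]
  have hQ1W : ∀ x : N, x ∈ W' ↔ ∀ᶠ i in (U : Filter I), x ∈ Q1 i := fun x => by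
    rw [hg, mem_extLim]
    rfl
  set Z := extStab G W' with hZ
  have hZi : ∀ᶠ i in (U : Filter I), extStab G (Q1 i) ≤ Z := by
    have h1 : ∀ g : G, ∀ᶠ i in (U : Filter I), g ∈ extStab G (Q1 i) → g ∈ Z := by
      intro g
      by_cases hgZ : g ∈ Z
      · exact Filter.Eventually.of_forall fun _ _ => hgZ
      · obtain ⟨x, hx, hgx⟩ := ext_not_stab hgZ
        rw [hQ1W] at hx hgx
        rw [← Ultrafilter.eventually_not] at hgx
        filter_upwards [hx, hgx] with i h2 h3 h4
        exact absurd ((h4 x).2 h2) h3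
    have h2 := Filter.eventually_all.2 h1
    filter_upwards [h2] with i h3 g hg using h3 g hg
  -- the group of `L`
  set H : Subgroup G :=
    { carrier := {h | ∀ x : L, h (algebraMap L N x) = algebraMap L N x}
      one_mem' := fun _ => rfl
      mul_mem' := fun {a b} ha hb x => by
        show a (b _) = _
        rw [hb, ha]
      inv_mem' := fun {a} ha x => by
        show a.symm _ = _
        rw [AlgEquiv.symm_apply_eq, ha] } with hH
  have hHL : ∀ x : N, (∀ h ∈ H, h x = x) → ∃ y : L, algebraMap L N y = x := by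
    intro x hx
    have : IsGalois L N := IsGalois.tower_top_of_isGalois F L N
    have : FiniteDimensional L N := FiniteDimensional.right F L N
    refine (IsGalois.mem_range_algebraMap_iff_fixed x).2 fun f => ?_
    exact hx (f.restrictScalars F) fun y => f.commutes y
  -- Sylow subgroups
  set ZH : Subgroup G := Z ⊓ H with hZH
  let T0 : Sylow ℓ ZH := default
  set T : Subgroup G := (T0 : Subgroup ZH).map ZH.subtype with hT
  have hTle : T ≤ ZH := Subgroup.map_subtype_le _
  have hTc : Nat.card T = ℓ ^ (Nat.card ZH).factorization ℓ := by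
    rw [hT, Nat.card_congr (Subgroup.equivMapOfInjective (T0 : Subgroup ZH) ZH.subtype
      ZH.subtype_injective).symm.toEquiv]
    exact T0.card_eq_multiplicity
  have hTsyl : ¬ ℓ ^ ((Nat.card ZH).factorization ℓ + 1) ∣ Nat.card ZH :=
    Nat.pow_succ_factorization_not_dvd Nat.card_pos.ne' hℓp
  have hres : ∀ β ∈ W', ∃ c : F, W'.valuation (β - algebraMap F N c) < 1 := by
    intro β hβ
    refine ext_res W' ?_ hβ
    have h1 : W'.comap (algebraMap F N) = W.comap (algebraMap F L) := by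
      ext x
      rw [ValuationSubring.mem_comap, ValuationSubring.mem_comap, hWF]
    rw [h1]
    exact hac
  have hval : ∀ x y : L, W'.valuation (algebraMap L N x) = W'.valuation (algebraMap L N y) ↔
      W.valuation x = W.valuation y := fun x y => by
    have h := ext_comap_eq W' (algebraMap L N) (x := x) (y := y)
    rw [hW'] at h
    exact h.symm
  have hℓN : W'.valuation (ℓ : N) = 1 := by
    have h := hval (ℓ : L) 1
    rw [map_natCast, map_one, map_one, map_one] at h
    exact h.2 hℓ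
  have hclaim : ¬ ℓ ^ ((Nat.card ZH).factorization ℓ + 1) ∣ Nat.card Z := by
    refine ext_claim hζ W' hℓN hres H ?_ (hTle.trans inf_le_right) (hTle.trans inf_le_left)
      hTc hTsyl
    intro x hx0 hx
    obtain ⟨y, rfl⟩ := hHL x hx
    obtain ⟨m, hm, c, hc⟩ := hram y (by
      rintro rfl
      exact hx0 (map_zero _))
    refine ⟨m, hm, c, ?_⟩
    rw [← map_pow] at hc ⊢
    rw [hFL, ← map_pow, hval]
    exact hc
  -- the conjugating elements
  have hex : ∀ i, extStab G (Q1 i) ≤ Z → ∃ z ∈ Z, ∀ x : L, x ≠ 0 → ∃ m : ℕ, ¬ ℓ ∣ m ∧ ∃ c : F,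
      (Q1 i).valuation (z • algebraMap L N x) ^ m = (Q1 i).valuation (algebraMap F N c) := by
    intro i hi
    let S0 : Sylow ℓ (extStab G (Q1 i)) := default
    set S : Subgroup G := (S0 : Subgroup (extStab G (Q1 i))).map (extStab G (Q1 i)).subtype with hS
    have hSle : S ≤ extStab G (Q1 i) := Subgroup.map_subtype_le _
    have hSc : Nat.card S = ℓ ^ (Nat.card (extStab G (Q1 i))).factorization ℓ := by
      rw [hS, Nat.card_congr (Subgroup.equivMapOfInjective
        (S0 : Subgroup (extStab G (Q1 i))) (extStab G (Q1 i)).subtype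
        (extStab G (Q1 i)).subtype_injective).symm.toEquiv]
      exact S0.card_eq_multiplicity
    obtain ⟨z, hzZ, hz⟩ := ext_sylow_conj (hTle.trans inf_le_left) hTc hclaim
      (hSle.trans hi) hSc
    refine ⟨z, hzZ, fun x hx => ?_⟩
    have hx0 : z • algebraMap L N x ≠ 0 := by
      rw [smul_ne_zero_iff_ne, Ne, map_eq_zero]
      exact hx
    have hxS : ∀ s ∈ S, s • (z • algebraMap L N x) = z • algebraMap L N x := by
      intro s hs
      have h1 : z⁻¹ * s * z ∈ H := (hTle (hz s hs)).2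
      have h2 : (z⁻¹ * s * z) • algebraMap L N x = algebraMap L N x := h1 x
      have h3 : s • (z • algebraMap L N x) = z • ((z⁻¹ * s * z) • algebraMap L N x) := by
        rw [← mul_smul, ← mul_smul]
        congr 1
        group
      rw [h3, h2]
    obtain ⟨m, c, hm, hc0, hcG, hv⟩ := ext_newton (Γ := G) (Q1 i) hSle hx0 hxS
    refine ⟨m, ?_, ?_⟩
    · rintro ⟨q, rfl⟩
      refine Nat.pow_succ_factorization_not_dvd
        (Nat.card_pos (α := extStab G (Q1 i))).ne' hℓp ?_
      rw [hSc] at hm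
      refine ⟨q, hm.symm.trans ?_⟩
      rw [pow_succ]
      ring
    · obtain ⟨f, rfl⟩ := hfix c hcG
      exact ⟨f, hv⟩
  choose z hzZ hz using hex
  set z' : I → G := fun i => if h : extStab G (Q1 i) ≤ Z then z i h else 1 with hz'
  have hz'Z : ∀ i, z' i ∈ Z := by
    intro i
    rw [hz']
    simp only
    split_ifs with h
    · exact hzZ i h
    · exact Z.one_mem
  obtain ⟨z0, hz0⟩ := ext_const U z'
  have hz0Z : z0 ∈ Z := by
    obtain ⟨i, hi⟩ := hz0.exists
    rw [← hi]
    exact hz'Z i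
  set Q2 : I → ValuationSubring N := fun i =>
    (Q1 i).comap (MulSemiringAction.toRingHom G N (z' i)) with hQ2
  refine ⟨fun i => (Q2 i).comap (algebraMap L N), fun i => ?_, fun x => ?_, ?_⟩
  · ext c
    rw [ValuationSubring.mem_comap, ValuationSubring.mem_comap, hQ2]
    simp only
    rw [ValuationSubring.mem_comap, MulSemiringAction.toRingHom_apply, ← hFL,
      AlgEquiv.smul_def, AlgEquiv.commutes, hQ1F]
  · have h1 : x ∈ W ↔ algebraMap L N x ∈ W' := by rw [← ValuationSubring.mem_comap, hW']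
    rw [h1, ← hz0Z (algebraMap L N x), hQ1W]
    refine Filter.eventually_congr ?_
    filter_upwards [hz0] with i hi
    rw [ValuationSubring.mem_comap, hQ2]
    simp only
    rw [ValuationSubring.mem_comap, MulSemiringAction.toRingHom_apply, hi]
    exact Iff.rfl
  · filter_upwards [hZi] with i hi x hx
    obtain ⟨m, hm, c, hc⟩ := hz i hi x hx
    refine ⟨m, hm, c, ?_⟩
    rw [← map_pow, ext_comap_eq, map_pow, ← hFL, ← map_pow, hQ2]
    simp only
    rw [ext_comap_eq, MulSemiringAction.toRingHom_apply, MulSemiringAction.toRingHom_apply]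
    have h1 : z' i = z i hi := by
      rw [hz']
      simp only
      rw [dif_pos hi]
    rw [h1, map_pow (algebraMap L N), smul_pow', map_pow, hc, AlgEquiv.smul_def,
      AlgEquiv.commutes]

/-- Algebra form, for every finite separable extension. -/
theorem ext_val_alg {F L : Type*} [Field F] [Field L] [Algebra F L] [FiniteDimensional F L]
    [Algebra.IsSeparable F L] {ℓ : ℕ} [Fact ℓ.Prime] {ζ : F} (hζ : IsPrimitiveRoot ζ ℓ)
    {I : Type*} (U : Ultrafilter I) (O : I → ValuationSubring F) (W : ValuationSubring L)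
    (hlim : ∀ x : F, algebraMap F L x ∈ W ↔ ∀ᶠ i in (U : Filter I), x ∈ O i)
    (hac : IsAlgClosed (IsLocalRing.ResidueField (W.comap (algebraMap F L))))
    (hℓ : W.valuation (ℓ : L) = 1)
    (hram : ∀ x : L, x ≠ 0 → ∃ m : ℕ, ¬ ℓ ∣ m ∧ ∃ c : F,
      W.valuation x ^ m = W.valuation (algebraMap F L c)) :
    ∃ Q : I → ValuationSubring L, (∀ i, (Q i).comap (algebraMap F L) = O i) ∧
      (∀ x : L, x ∈ W ↔ ∀ᶠ i in (U : Filter I), x ∈ Q i) ∧
      ∀ᶠ i in (U : Filter I), ∀ x : L, x ≠ 0 → ∃ m : ℕ, ¬ ℓ ∣ m ∧ ∃ c : F,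
        (Q i).valuation x ^ m = (Q i).valuation (algebraMap F L c) := by
  let Ω := SeparableClosure F
  let φ : L →ₐ[F] Ω := IsSepClosed.lift
  let _ : Algebra L Ω := φ.toRingHom.toAlgebra
  have _ : IsScalarTower F L Ω := IsScalarTower.of_algebraMap_eq fun x => (φ.commutes x).symm
  exact ext_val_gal (N := IntermediateField.normalClosure F L Ω) hζ U O W hlim hac hℓ hram

/-- **Subfield form.** -/
theorem ext_val (ℓ : ℕ) [Fact ℓ.Prime] {L : Type*} [Field L] (M : Subfield L)
    [FiniteDimensional M L] [Algebra.IsSeparable M L] (hz : ∃ ζ : M, IsPrimitiveRoot ζ ℓ)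
    {I : Type*} (U : Ultrafilter I) (O : I → ValuationSubring M) (W : ValuationSubring L)
    (hlim : ∀ x : M, (x : L) ∈ W ↔ ∀ᶠ i in (U : Filter I), x ∈ O i)
    (hac : IsAlgClosed (IsLocalRing.ResidueField (W.comap M.subtype)))
    (hℓ : W.valuation (ℓ : L) = 1)
    (hram : ∀ x : L, x ≠ 0 → ∃ m : ℕ, ¬ ℓ ∣ m ∧ ∃ y : M,
      W.valuation (x ^ m) = W.valuation (y : L)) :
    ∃ Q : I → ValuationSubring L, (∀ i, (Q i).comap M.subtype = O i) ∧
      (∀ x : L, x ∈ W ↔ ∀ᶠ i in (U : Filter I), x ∈ Q i) ∧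
      ∀ᶠ i in (U : Filter I), ∀ x : L, x ≠ 0 → ∃ m : ℕ, ¬ ℓ ∣ m ∧ ∃ y : M,
        (Q i).valuation (x ^ m) = (Q i).valuation (y : L) := by
  obtain ⟨ζ, hζ⟩ := hz
  obtain ⟨Q, h1, h2, h3⟩ := ext_val_alg (F := M) (L := L) hζ U O W hlim hac hℓ
    fun x hx => by
      obtain ⟨m, hm, y, hy⟩ := hram x hx
      exact ⟨m, hm, y, by rw [← map_pow]; exact hy⟩
  refine ⟨Q, h1, h2, ?_⟩
  filter_upwards [h3] with i hi x hx
  obtain ⟨m, hm, y, hy⟩ := hi x hx
  exact ⟨m, hm, y, by rw [map_pow]; exact hy⟩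

end Main

end Vale.Agent.P019R
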