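import Vale.Agent.P019R.R16

/-!
# Reconstruction of function fields from mod-ℓ Milnor K-theory (draft of the hand-in)
-/

namespace Vale.Agent.P019R.Full

open Vale.Agent.P019

/-- Let `K/k` and `L/l` be function fields of transcendence degree at least two over algebraically
closed fields, and `ℓ` a prime invertible in `k` and in `l`. Let `K'`, `L'` be perfect closures of
`K`, `L`: perfect fields, purely inseparable over `K`, `L` (in characteristic zero `K' = K` and
`L' = L`). Then every compatible isomorphism `Θ : V_K → V_L` is of the form `c • α_*` with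
`c ∈ (ℤ/ℓ)ˣ` and `α : K' → L'` an isomorphism of fields with `α(k) = l`: if `Θ[x] = [y]` in `V_L`,
then `[y] = c • [α(x)]` in `V_{L'}`. -/
theorem result (ℓ : ℕ) [Fact ℓ.Prime] {k K l L : Type*} [Field k] [Field K] [Field l] [Field L]
    [Algebra k K] [Algebra l L] [IsAlgClosed k] [IsAlgClosed l]
    (hℓk : (ℓ : k) ≠ 0) (hℓl : (ℓ : l) ≠ 0)
    (hK : (⊤ : IntermediateField k K).FG) (hL : (⊤ : IntermediateField l L).FG)
    (hKtr : 2 ≤ Algebra.trdeg k K) (hLtr : 2 ≤ Algebra.trdeg l L)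
    {K' L' : Type*} [Field K'] [Field L'] [Algebra K K'] [Algebra L L']
    [PerfectField K'] [PerfectField L'] [IsPurelyInseparable K K'] [IsPurelyInseparable L L']
    (Θ : V ℓ K ≃ₗ[ZMod ℓ] V ℓ L) (hΘ : Compatible Θ) :
    ∃ (c : (ZMod ℓ)ˣ) (α : K' ≃+* L'),
      α '' Set.range (fun a : k => algebraMap K K' (algebraMap k K a)) =
        Set.range (fun b : l => algebraMap L L' (algebraMap l L b)) ∧
      ∀ (x : Kˣ) (y : Lˣ), Θ (V.mk ℓ x) = V.mk ℓ y →
        V.mk ℓ (Units.map (algebraMap L L' : L →* L') y) =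
          (c : ZMod ℓ) • V.mk ℓ (Units.map (α : K' →* L')
            (Units.map (algebraMap K K' : K →* K') x)) := by
  have h1 : NeZero (ℓ : K) := ⟨by
    rw [← map_natCast (algebraMap k K), Ne, map_eq_zero]; exact hℓk⟩
  have h2 : NeZero (ℓ : L) := ⟨by
    rw [← map_natCast (algebraMap l L), Ne, map_eq_zero]; exact hℓl⟩
  have h3 : NeZero (ℓ : K') := ⟨by
    rw [← map_natCast (algebraMap K K'), Ne, map_eq_zero]; exact h1.out⟩
  have h4 : NeZero (ℓ : L') := ⟨by
    rw [← map_natCast (algebraMap L L'), Ne, map_eq_zero]; exact h2.out⟩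
  have : Algebra.EssFiniteType k K := IntermediateField.fg_top_iff.1 hK
  have : Algebra.EssFiniteType l L := IntermediateField.fg_top_iff.1 hL
  let Θ' : V ℓ K' ≃ₗ[ZMod ℓ] V ℓ L' :=
    ((P019P.perfV ℓ K K').symm.trans Θ).trans (P019P.perfV ℓ L L')
  have hΘ' : Compatible Θ' :=
    P019P.Compatible.trans (P019P.Compatible.trans P019P.perfV_compatible.symm hΘ)
      P019P.perfV_compatible
  obtain ⟨c, α, h5, h6⟩ : ∃ (c : (ZMod ℓ)ˣ) (α : K' ≃+* L'),
      (∀ x, x ∈ P019P.cst' k K K' ↔ α x ∈ P019P.cst' l L L') ∧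
      ∀ x : K', Θ' (cl ℓ x) = (c : ZMod ℓ) • cl ℓ (α x) :=
    P019P.main_gen P019P.isAlgClosed_cst' P019P.fg_cst' P019P.isAlgClosed_cst' P019P.fg_cst' hΘ'
      (P019P.exists_two' hKtr) (P019P.exists_two' hLtr)
  refine ⟨c, α, ?_, ?_⟩
  · ext y
    constructor
    · rintro ⟨_, ⟨a, rfl⟩, rfl⟩
      obtain ⟨b, hb⟩ := P019P.mem_cst'.1 ((h5 _).1 (P019P.mem_cst'.2 ⟨a, rfl⟩))
      exact ⟨b, hb⟩
    · rintro ⟨b, rfl⟩
      have h7 : α (α.symm (algebraMap L L' (algebraMap l L b))) ∈ P019P.cst' l L L' := by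
        rw [RingEquiv.apply_symm_apply]
        exact P019P.mem_cst'.2 ⟨b, rfl⟩
      obtain ⟨a, ha⟩ := P019P.mem_cst'.1 ((h5 _).2 h7)
      exact ⟨_, ⟨a, ha⟩, RingEquiv.apply_symm_apply _ _⟩
  · intro x y hxy
    have h7 := h6 (algebraMap K K' (x : K))
    have h8 : Θ' (cl ℓ (algebraMap K K' (x : K))) = cl ℓ (algebraMap L L' (y : L)) := by
      rw [← Vmap_cl, ← Vmap_cl, cl_unit, cl_unit, ← hxy]
      change P019P.perfV ℓ L L' (Θ ((P019P.perfV ℓ K K').symm (P019P.perfV ℓ K K' _))) = _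
      rw [LinearEquiv.symm_apply_apply]
      rfl
    rw [h8] at h7
    rw [← cl_unit, ← cl_unit]
    exact h7

end Vale.Agent.P019R.Full
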