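import Vale.Agent.P019Q.UAlg
import Vale.Agent.P019Q.UFree

/-!
# Linear disjointness
-/

namespace Vale.Agent.P019P

open Vale.Agent.P019

set_option linter.style.haveILetI false
set_option linter.unusedSectionVars false

open Polynomial

section ld

variable {Ω : Type*} [Field Ω]

/-- linear independence over a relatively algebraically closed extension. -/
theorem ld_indep [PerfectField Ω] {E K B : Subfield Ω} [PerfectField E] (hEK : E ≤ K)
    (hEB : E ≤ B) (hrac : ∀ z ∈ K, IsAlgebraic E z → z ∈ E) (hB : ∀ b ∈ B, IsAlgebraic E b)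
    {ι : Type*} [Fintype ι] {p : ι → Ω} (hp : ∀ i, p i ∈ B) (h : LinearIndependent E p) :
    LinearIndependent K p := by
  classical
  obtain ⟨γ, hγ, hC⟩ := ul1_primitive (E := E) (Set.range p) (Set.finite_range p) (by
    rintro _ ⟨i, rfl⟩
    exact hB _ (hp i))
  set V := IntermediateField.adjoin E {γ} with hV
  set d := (minpoly E γ).natDegree with hd
  haveI : FiniteDimensional E V := IntermediateField.adjoin.finiteDimensional hγ.isIntegral
  have hfr : Module.finrank E V = d := IntermediateField.adjoin.finrank hγ.isIntegral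
  have hpV : ∀ i, p i ∈ V := fun i => by
    rw [← hC]
    exact IntermediateField.subset_adjoin E _ ⟨i, rfl⟩
  let p' : ι → V := fun i => ⟨p i, hpV i⟩
  have hp' : LinearIndependent E p' :=
    LinearIndependent.of_comp V.val.toLinearMap h
  have hs : LinearIndepOn E id (Set.range p') := hp'.linearIndepOn_id
  let b := Module.Basis.extend hs
  haveI : Fintype (hs.extend (Set.subset_univ _)) := FiniteDimensional.fintypeBasisIndex b
  have hcard : Fintype.card (hs.extend (Set.subset_univ _)) = d := by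
    rw [← hfr, Module.finrank_eq_card_basis b]
  -- the basis stays independent
  have hb : LinearIndependent K (fun i => ((b i : V) : Ω)) := by
    rw [linearIndependent_iff_card_le_finrank_span, hcard]
    have h1 : LinearIndependent K fun i : Fin d => γ ^ (i : ℕ) :=
      (_root_.linearIndependent_pow (K := K) γ).comp (Fin.castLE (ul1_natDegree hEK hrac hγ))
        (Fin.castLE_injective _)
    have h2 := finrank_span_eq_card h1
    rw [Fintype.card_fin] at h2
    rw [← h2]
    have hfin : FiniteDimensional K (Submodule.span K (Set.range fun i => ((b i : V) : Ω))) :=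
      FiniteDimensional.span_of_finite K (Set.finite_range _)
    refine Submodule.finrank_mono ?_
    rw [Submodule.span_le]
    rintro _ ⟨i, rfl⟩
    have h3 : γ ^ (i : ℕ) ∈ V := pow_mem (IntermediateField.mem_adjoin_simple_self E γ) (i : ℕ)
    have h4 := b.sum_repr ⟨_, h3⟩
    have h5 := congrArg (fun x : V => (x : Ω)) h4
    simp only at h5
    rw [SetLike.mem_coe]
    simp only
    rw [← h5]
    change V.val (∑ j, (b.repr ⟨_, h3⟩) j • b j) ∈ _
    rw [map_sum]
    refine Submodule.sum_mem _ fun j _ => ?_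
    rw [map_smul]
    have h6 : ((b.repr ⟨_, h3⟩) j • V.val (b j) : Ω) =
        (Subfield.inclusion hEK ((b.repr ⟨_, h3⟩) j)) • (V.val (b j) : Ω) := rfl
    rw [h6]
    exact Submodule.smul_mem _ _ (Submodule.subset_span ⟨j, rfl⟩)
  have hsub : ∀ i, p' i ∈ hs.extend (Set.subset_univ _) := fun i =>
    hs.subset_extend _ ⟨i, rfl⟩
  have h7 := hb.comp (fun i => (⟨p' i, hsub i⟩ : hs.extend (Set.subset_univ _)))
    (fun i j hij => hp'.injective (congrArg Subtype.val hij))
  have h8 : (fun i => ((b i : V) : Ω)) ∘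
      (fun i => (⟨p' i, hsub i⟩ : hs.extend (Set.subset_univ _))) = p := by
    funext i
    simp only [Function.comp_apply, b]
    rw [Module.Basis.extend_apply_self]
  rw [h8] at h7
  exact h7

/-- linear independence over a compositum with an algebraic extension. -/
theorem ld_tower [PerfectField Ω] {E F K B : Subfield Ω} [PerfectField E] (hEF : E ≤ F)
    (hFK : F ≤ K) (hEB : E ≤ B) (hrac : ∀ z ∈ K, IsAlgebraic E z → z ∈ E)
    (hB : ∀ b ∈ B, IsAlgebraic E b) {ι : Type*} [Fintype ι] {p : ι → Ω} (hp : ∀ i, p i ∈ K)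
    (h : LinearIndependent F p) : LinearIndependent (F ⊔ B : Subfield Ω) p := by
  classical
  have hBF : ∀ b ∈ B, IsAlgebraic F b := fun b hb => isAlgebraic_mono hEF (hB b hb)
  obtain ⟨T, hTB, hTspan, hTind⟩ := exists_linearIndependent E (B : Set Ω)
  have hBT : ∀ x ∈ F ⊔ B, x ∈ Submodule.span F T := by
    intro x hx
    have h1 := mem_span_of_mem_sup F B hBF hx
    refine (Submodule.span_le.2 ?_ : Submodule.span F (B : Set Ω) ≤ Submodule.span F T) h1
    intro y hy
    have h2 : y ∈ Submodule.span E T := by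
      rw [hTspan]
      exact Submodule.subset_span hy
    clear hy
    induction h2 using Submodule.span_induction with
    | mem y hy => exact Submodule.subset_span hy
    | zero => exact Submodule.zero_mem _
    | add y z _ _ hy hz => exact Submodule.add_mem _ hy hz
    | smul a y _ hy =>
      exact Submodule.smul_mem (Submodule.span F T) (Subfield.inclusion hEF a) hy
  rw [Fintype.linearIndependent_iff]
  intro g hg
  have h1 : ∀ i, ∃ f : T →₀ F, Finsupp.linearCombination F ((↑) : T → Ω) f = (g i : Ω) := by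
    intro i
    have h2 := hBT _ (g i).2
    rw [Finsupp.mem_span_iff_linearCombination] at h2
    exact h2
  choose f hf using h1
  let S : Finset T := Finset.univ.biUnion fun i => (f i).support
  have hS : ∀ i, (f i).support ⊆ S := fun i =>
    Finset.subset_biUnion_of_mem (fun i => (f i).support) (Finset.mem_univ i)
  have hgi : ∀ i, (g i : Ω) = ∑ j ∈ S, ((f i j : F) : Ω) * (j : Ω) := by
    intro i
    rw [← hf i, Finsupp.linearCombination_apply, Finsupp.sum_of_support_subset _ (hS i)]
    · rfl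
    · intro j _
      exact zero_smul F _
  have h3 : ∑ j ∈ S, (∑ i, ((f i j : F) : Ω) * p i) * (j : Ω) = 0 := by
    have h4 : ∑ i, (g i : Ω) * p i = 0 := hg
    rw [← h4]
    simp only [hgi, Finset.sum_mul]
    rw [Finset.sum_comm]
    refine Finset.sum_congr rfl fun i _ => Finset.sum_congr rfl fun j _ => ?_
    ring
  have hmem : ∀ j, (∑ i, ((f i j : F) : Ω) * p i) ∈ K := fun j =>
    K.sum_mem fun i _ => K.mul_mem (hFK (f i j).2) (hp i)
  have h5 : LinearIndependent K (fun j : S => ((j : T) : Ω)) := by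
    refine ld_indep (E := E) (K := K) (B := B) (hEF.trans hFK) hEB hrac hB
      (fun j => hTB (j : T).2) ?_
    exact hTind.comp (fun j : S => (j : T)) Subtype.val_injective
  rw [Fintype.linearIndependent_iff] at h5
  have h6 := h5 (fun j => ⟨_, hmem j⟩) (by
    change ∑ j : S, (∑ i, ((f i (j : T) : F) : Ω) * p i) * (((j : T)) : Ω) = 0
    rw [← h3, ← Finset.sum_coe_sort S])
  rw [Fintype.linearIndependent_iff] at h
  have h7 : ∀ j ∈ S, ∀ i, f i j = 0 := by
    intro j hj
    exact h (fun i => f i j) (congrArg Subtype.val (h6 ⟨j, hj⟩))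
  intro i
  apply Subtype.ext
  rw [hgi i]
  refine Finset.sum_eq_zero fun j hj => ?_
  rw [h7 j hj i]
  exact zero_mul _

/-- linearly independent powers bound the degree. -/
theorem ld_card {F : Subfield Ω} {θ : Ω} {d : ℕ}
    (h : LinearIndependent F fun i : Fin d => θ ^ (i : ℕ)) (halg : IsAlgebraic F θ) :
    d ≤ (minpoly F θ).natDegree := by
  haveI : FiniteDimensional F (IntermediateField.adjoin F {θ}) :=
    IntermediateField.adjoin.finiteDimensional halg.isIntegral
  rw [← IntermediateField.adjoin.finrank halg.isIntegral]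
  have h1 : LinearIndependent F fun i : Fin d =>
      (IntermediateField.AdjoinSimple.gen F θ) ^ (i : ℕ) := by
    refine LinearIndependent.of_comp (IntermediateField.adjoin F {θ}).val.toLinearMap ?_
    exact h
  have h2 := h1.fintype_card_le_finrank
  rwa [Fintype.card_fin] at h2

/-- degrees do not drop if the constants are extended. -/
theorem ld_deg [PerfectField Ω] {E K R : Subfield Ω} [PerfectField E] (hEK : E ≤ K) (hER : E ≤ R)
    (hR : IsAlgClosed R) (hrac : ∀ z ∈ K, IsAlgebraic E z → z ∈ E) {s θ : Ω} (hsK : s ∈ K)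
    (hs : ¬ IsAlgebraic R s) (hK : ∀ z ∈ K, IsAlgebraic (adj E s) z) (hθ : θ ∈ K) :
    (minpoly (adj E s) θ).natDegree ≤ (minpoly (adj R s) θ).natDegree := by
  have hlR : rac E ≤ R := (RAC_of_isAlgClosed R hR).le hER
  have hlac : IsAlgClosed (rac E) := isAlgClosed_of_RAC hR (RAC_rac E) hlR
  -- step 1
  have h1 : (minpoly (adj E s) θ).natDegree ≤ (minpoly (adj (rac E) s) θ).natDegree := by
    have e1 : adj (rac E) s = adj E s ⊔ rac E := by
      apply le_antisymm
      · exact adj_le le_sup_right ((le_sup_left : adj E s ≤ _) (mem_adj E s))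
      · exact sup_le (adj_mono (le_rac E) s) (le_adj _ s)
    rw [e1]
    have h2 := ld_tower (E := E) (F := adj E s) (K := pf K) (B := rac E) (le_adj E s)
      (pf_mono (Vale.Agent.P019.adj_le hEK hsK)) (le_rac E) (fun z hz halg => by
        obtain ⟨n, hn⟩ := mem_pf.1 hz
        exact mem_of_pow_q (hrac _ hn (halg.pow _)))
      (fun b hb => mem_rac.1 hb) (fun i => (pf K).pow_mem (le_pf K hθ) _)
      (_root_.linearIndependent_pow (K := adj E s) θ)
    exact ld_card h2 (isAlgebraic_mono le_sup_left (hK θ hθ))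
  -- step 2
  refine h1.trans (ul1_natDegree (adj_mono hlR s) ?_
    (isAlgebraic_mono (adj_mono (le_rac E) s) (hK θ hθ)))
  intro z hz halg
  obtain ⟨n, hn⟩ := mem_adj_iff.1 hz
  refine mem_of_pow_q (n := n) ?_
  refine rac_sup_gen (l := rac E) (A := adj (rac E) s) (B := R) (RAC_rac E) (le_adj _ s) hlR hR
    (Fre.of_one (y := s) (fun a ha => isAlgebraic_of_mem ha) hs) ?_ (halg.pow _)
  refine (Vale.Agent.P019.adj_le le_sup_right ?_ : Vale.Agent.P019.adj R s ≤ _) hn
  exact (le_sup_left : adj (rac E) s ≤ _) (mem_adj _ s)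

/-- `ℓ`-th powers after an extension of the constants. -/
theorem ld_pow [IsAlgClosed Ω] (ℓ : ℕ) [Fact ℓ.Prime] {E K R F : Subfield Ω} [PerfectField E]
    [PerfectField K] (hEK : E ≤ K) (hER : E ≤ R) (hR : IsAlgClosed R)
    (hrac : ∀ z ∈ K, IsAlgebraic E z → z ∈ E) {ζ : Ω} (hζE : ζ ∈ E) (hζ : IsPrimitiveRoot ζ ℓ)
    {s : Ω} (hsK : s ∈ K) (hs : ¬ IsAlgebraic R s) (hK : ∀ z ∈ K, IsAlgebraic (adj E s) z)
    (hF : adj R s ≤ F) (hFrac : ∀ z ∈ F, IsAlgebraic (adj R s) z → z ∈ adj R s) {w z : Ω}
    (hw : w ∈ K ⊔ F) (hz : z ∈ K) (hz0 : z ≠ 0) (hwz : w ^ ℓ = z) :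
    ∃ e ∈ E, ∃ u ∈ K, z = e * u ^ ℓ := by
  have hℓ : 0 < ℓ := (Fact.out : ℓ.Prime).pos
  haveI : PerfectField R := inferInstance
  have hKR : ∀ x ∈ K, IsAlgebraic (adj R s) x := fun x hx =>
    isAlgebraic_mono (adj_mono hER s) (hK x hx)
  have h1 : ∀ x ∈ K ⊔ adj R s, IsAlgebraic (adj R s) x := by
    intro x hx
    have h2 : K ⊔ adj R s ≤ rac (adj R s) :=
      sup_le (fun y hy => mem_rac.2 (hKR y hy)) (le_rac _)
    exact mem_rac.1 (h2 hx)
  have hwalg : IsAlgebraic (adj R s) w :=
    IsAlgebraic.of_pow hℓ (by rw [hwz]; exact hKR z hz)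
  have h2 : w ∈ K ⊔ adj R s := by
    refine alg_sup (E := adj R s) (R := F) (B := K ⊔ adj R s) hF le_sup_right hFrac h1 ?_ hwalg
    refine (sup_le (le_sup_left.trans le_sup_right) le_sup_left : K ⊔ F ≤ F ⊔ (K ⊔ adj R s)) hw
  have h3 : w ∈ K ⊔ R := by
    refine (sup_le le_sup_left (adj_le le_sup_right ?_) : K ⊔ adj R s ≤ K ⊔ R) h2
    exact (le_sup_left : K ≤ K ⊔ R) hsK
  have hlR : rac E ≤ R := (RAC_of_isAlgClosed R hR).le hER
  have hlac : IsAlgClosed (rac E) := isAlgClosed_of_RAC hR (RAC_rac E) hlR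
  have h4 : w ∈ K ⊔ rac E := by
    refine rac_sup_gen (l := rac E) (A := K ⊔ rac E) (B := R) (RAC_rac E) le_sup_right hlR hR
      (Fre.of_one (y := s) ?_ hs) ?_ (IsAlgebraic.of_pow hℓ ?_)
    · intro a ha
      have h5 : K ⊔ rac E ≤ rac (adj (rac E) s) :=
        sup_le (fun y hy => mem_rac.2 (isAlgebraic_mono (adj_mono (le_rac E) s) (hK y hy)))
          ((le_adj _ s).trans (le_rac _))
      exact mem_rac.1 (h5 ha)
    · exact (sup_le_sup_right le_sup_left R : K ⊔ R ≤ (K ⊔ rac E) ⊔ R) h3
    · rw [hwz]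
      exact isAlgebraic_of_mem ((le_sup_left : K ≤ K ⊔ rac E) hz)
  exact kummer_descent ℓ E K (rac E) hEK hrac (fun b hb => mem_rac.1 hb) ζ hζE hζ hz hz0 h4 hwz

end ld

end Vale.Agent.P019P
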