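import Vale.Agent.P019Q.E0

/-!
# Monomial valuation rings
-/

namespace Vale.Agent.P019P

open Vale.Agent.P019

set_option linter.unusedSectionVars false

variable {L : Type*} [Field L]

/-- `ϖ` is infinitesimal with respect to `l` and `ρ`, and `ρ` is independent of `l`. -/
structure Mon (l : Subfield L) (w : ValuationSubring L) (ρ ϖ : L) : Prop where
  rne : ρ ≠ 0
  pne : ϖ ≠ 0
  plt : w.valuation ϖ < 1
  inf : ∀ c ∈ l, c ≠ 0 → ∀ a : ℤ, w.valuation (c * ρ ^ a) < 1 →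
    ∀ b : ℤ, w.valuation (c * ρ ^ a) < w.valuation ϖ ^ b
  ind : ∀ c ∈ l, c ≠ 0 → ∀ a : ℤ, w.valuation (c * ρ ^ a) = 1 → a = 0

/-- `u` is residually transcendental over `l`, and `ϖ` is infinitesimal. -/
structure QMon (l : Subfield L) (w q : ValuationSubring L) (u ϖ : L) : Prop where
  cst : ∀ c ∈ l, c ∈ q ↔ c ∈ w
  pne : ϖ ≠ 0
  plt : q.valuation ϖ < 1
  inf : ∀ c ∈ l, c ≠ 0 → q.valuation c < 1 → ∀ b : ℤ, q.valuation c < q.valuation ϖ ^ b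
  uq : u ∈ q
  ures : ∀ c ∈ l, c ∈ q → q.valuation (u - c) = 1

variable {l : Subfield L} {w q : ValuationSubring L} {ρ ϖ u : L}

/-- the common core of the four lemmas -/
private theorem mona_core {w : ValuationSubring L} {x ϖ : L} (hx : x ≠ 0) (hp : ϖ ≠ 0)
    (hlt : w.valuation ϖ < 1)
    (h1 : w.valuation x < 1 → ∀ b : ℤ, w.valuation x < w.valuation ϖ ^ b)
    (h2 : w.valuation x⁻¹ < 1 → ∀ b : ℤ, w.valuation x⁻¹ < w.valuation ϖ ^ b) (b : ℤ) :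
    (w.valuation (x * ϖ ^ b) = 1 ↔ w.valuation x = 1 ∧ b = 0) ∧
      (w.valuation (x * ϖ ^ b) < 1 ↔ w.valuation x < 1 ∨ w.valuation x = 1 ∧ 0 < b) := by
  have hp0 : 0 < w.valuation ϖ := by
    rw [zero_lt_iff]; exact (Valuation.ne_zero_iff _).2 hp
  have hx0 : 0 < w.valuation x := by
    rw [zero_lt_iff]; exact (Valuation.ne_zero_iff _).2 hx
  have hb0 : ∀ b : ℤ, 0 < w.valuation ϖ ^ b := fun b => zpow_pos hp0 b
  rw [map_mul, map_zpow₀]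
  rcases lt_trichotomy (w.valuation x) 1 with h | h | h
  · have h3 : w.valuation x * w.valuation ϖ ^ b < 1 := by
      have h4 := mul_lt_mul_of_pos_right (h1 h (-b)) (hb0 b)
      rwa [zpow_neg, inv_mul_cancel₀ (hb0 b).ne'] at h4
    exact ⟨⟨fun h5 => absurd h5 h3.ne, fun h5 => absurd h5.1 h.ne⟩,
      ⟨fun _ => Or.inl h, fun _ => h3⟩⟩
  · rw [h, one_mul]
    refine ⟨⟨fun h5 => ⟨rfl, ?_⟩, fun h5 => by rw [h5.2, zpow_zero]⟩,
      ⟨fun h5 => Or.inr ⟨rfl, ?_⟩, fun h5 => ?_⟩⟩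
    · exact (zpow_eq_one_iff_right₀ hp0.le hlt.ne).1 h5
    · exact (zpow_lt_one_iff_right_of_lt_one₀ hp0 hlt).1 h5
    · rcases h5 with h5 | h5
      · exact absurd h5 (lt_irrefl _)
      · exact (zpow_lt_one_iff_right_of_lt_one₀ hp0 hlt).2 h5.2
  · have h3 : 1 < w.valuation x * w.valuation ϖ ^ b := by
      have h5 : w.valuation x⁻¹ < 1 := by
        rw [map_inv₀]
        exact inv_lt_one_of_one_lt₀ h
      have h4 := mul_lt_mul_of_pos_left (h2 h5 b) hx0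
      rwa [map_inv₀, mul_inv_cancel₀ hx0.ne'] at h4
    exact ⟨⟨fun h5 => absurd h5 h3.ne', fun h5 => absurd h5.1 h.ne'⟩,
      ⟨fun h5 => absurd (h3.trans h5) (lt_irrefl _), fun h5 => by
        rcases h5 with h5 | h5
        · exact absurd (h.trans h5) (lt_irrefl _)
        · exact absurd h5.1 h.ne'⟩⟩

private theorem mona_mon (h : Mon l w ρ ϖ) {c : L} (hc : c ∈ l) (hc0 : c ≠ 0) (a b : ℤ) :
    (w.valuation (c * ρ ^ a * ϖ ^ b) = 1 ↔ w.valuation (c * ρ ^ a) = 1 ∧ b = 0) ∧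
      (w.valuation (c * ρ ^ a * ϖ ^ b) < 1 ↔
        w.valuation (c * ρ ^ a) < 1 ∨ w.valuation (c * ρ ^ a) = 1 ∧ 0 < b) := by
  refine mona_core (mul_ne_zero hc0 (zpow_ne_zero _ h.rne)) h.pne h.plt (h.inf c hc hc0 a) ?_ b
  have e : (c * ρ ^ a)⁻¹ = c⁻¹ * ρ ^ (-a) := by rw [mul_inv, zpow_neg]
  rw [e]
  exact h.inf c⁻¹ (l.inv_mem hc) (inv_ne_zero hc0) (-a)

theorem Mon.one_iff (h : Mon l w ρ ϖ) {c : L} (hc : c ∈ l) (hc0 : c ≠ 0) (a b : ℤ) :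
    w.valuation (c * ρ ^ a * ϖ ^ b) = 1 ↔ w.valuation c = 1 ∧ a = 0 ∧ b = 0 := by
  rw [(mona_mon h hc hc0 a b).1]
  constructor
  · rintro ⟨h1, h2⟩
    have h3 := h.ind c hc hc0 a h1
    subst h3
    rw [zpow_zero, mul_one] at h1
    exact ⟨h1, rfl, h2⟩
  · rintro ⟨h1, h2, h3⟩
    subst h2
    rw [zpow_zero, mul_one]
    exact ⟨h1, h3⟩

theorem Mon.lt_iff (h : Mon l w ρ ϖ) {c : L} (hc : c ∈ l) (hc0 : c ≠ 0) (a b : ℤ) :
    w.valuation (c * ρ ^ a * ϖ ^ b) < 1 ↔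
      w.valuation (c * ρ ^ a) < 1 ∨ w.valuation (c * ρ ^ a) = 1 ∧ 0 < b :=
  (mona_mon h hc hc0 a b).2

theorem QMon.u_eq (h : QMon l w q u ϖ) : q.valuation u = 1 := by
  simpa using h.ures 0 l.zero_mem q.zero_mem

theorem QMon.val_iff (h : QMon l w q u ϖ) {c : L} (hc : c ∈ l) (hc0 : c ≠ 0) :
    (q.valuation c < 1 ↔ w.valuation c < 1) ∧ (q.valuation c = 1 ↔ w.valuation c = 1) := by
  have h1 : q.valuation c ≤ 1 ↔ w.valuation c ≤ 1 := by
    rw [ValuationSubring.valuation_le_one_iff, ValuationSubring.valuation_le_one_iff]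
    exact h.cst c hc
  have h2 : 1 ≤ q.valuation c ↔ 1 ≤ w.valuation c := by
    have e : ∀ r : ValuationSubring L, 1 ≤ r.valuation c ↔ c⁻¹ ∈ r := by
      intro r
      have hr : 0 < r.valuation c := by
        rw [zero_lt_iff]; exact (Valuation.ne_zero_iff _).2 hc0
      rw [← ValuationSubring.valuation_le_one_iff, map_inv₀, inv_le_one₀ hr]
    rw [e, e]
    exact h.cst c⁻¹ (l.inv_mem hc)
  constructor
  · rw [← not_le, ← not_le, h2]
  · rw [le_antisymm_iff, le_antisymm_iff, h1, h2]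

private theorem mona_qmon (h : QMon l w q u ϖ) {c : L} (hc : c ∈ l) (hc0 : c ≠ 0) (a b : ℤ) :
    (q.valuation (c * u ^ a * ϖ ^ b) = 1 ↔ q.valuation c = 1 ∧ b = 0) ∧
      (q.valuation (c * u ^ a * ϖ ^ b) < 1 ↔
        q.valuation c < 1 ∨ q.valuation c = 1 ∧ 0 < b) := by
  have e : q.valuation (c * u ^ a * ϖ ^ b) = q.valuation (c * ϖ ^ b) := by
    rw [map_mul, map_mul, map_zpow₀, h.u_eq, one_zpow, mul_one, map_mul]
  rw [e]
  exact mona_core hc0 h.pne h.plt (h.inf c hc hc0) (h.inf c⁻¹ (l.inv_mem hc) (inv_ne_zero hc0)) b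

theorem QMon.one_iff (h : QMon l w q u ϖ) {c : L} (hc : c ∈ l) (hc0 : c ≠ 0) (a b : ℤ) :
    q.valuation (c * u ^ a * ϖ ^ b) = 1 ↔ w.valuation c = 1 ∧ b = 0 := by
  rw [(mona_qmon h hc hc0 a b).1, (h.val_iff hc hc0).2]

theorem QMon.lt_iff (h : QMon l w q u ϖ) {c : L} (hc : c ∈ l) (hc0 : c ≠ 0) (a b : ℤ) :
    q.valuation (c * u ^ a * ϖ ^ b) < 1 ↔
      w.valuation c < 1 ∨ w.valuation c = 1 ∧ 0 < b := by
  rw [(mona_qmon h hc hc0 a b).2, (h.val_iff hc hc0).1, (h.val_iff hc hc0).2]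

end Vale.Agent.P019P
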