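import Vale.Agent.P019R.MonA

/-!
# Dominating monomials
-/

namespace Vale.Agent.P019P

open Vale.Agent.P019

set_option linter.unusedSectionVars false

variable {L : Type*} [Field L] {l : Subfield L} {w : ValuationSubring L} {ρ ϖ : L}

/-- the quotient of two monomials. -/
theorem monb_quot (hρ : ρ ≠ 0) (hϖ : ϖ ≠ 0) (c c' : L) (a b a' b' : ℕ) :
    c / c' * ρ ^ ((a : ℤ) - a') * ϖ ^ ((b : ℤ) - b') =
      c * ρ ^ a * ϖ ^ b * (c' * ρ ^ a' * ϖ ^ b')⁻¹ := by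
  rw [zpow_sub₀ hρ, zpow_sub₀ hϖ]
  simp only [zpow_natCast, mul_inv, div_eq_mul_inv]
  ring

/-- every polynomial in `ρ`, `ϖ` is dominated by one of its monomials, at `w` and at every
valuation ring at which the finitely many quotients of the monomials which are small at `w`
are small.
Proof. The values of the monomials `c t * ρ ^ t.1 * ϖ ^ t.2`, `t ∈ T`, are pairwise different
(`Mon.one_iff` for quotients); take `t₀` with the largest value, and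
`M = {(c t / c t₀, t.1 - t₀.1, t.2 - t₀.2) | t ∈ T, t ≠ t₀}`. -/
theorem mon_dom [DecidableEq L] (h : Mon l w ρ ϖ) (T : Finset (ℕ × ℕ)) (hT : T.Nonempty)
    (c : ℕ × ℕ → L) (hc : ∀ t ∈ T, c t ∈ l ∧ c t ≠ 0) :
    ∃ t₀ ∈ T, ∃ M : Finset (L × ℤ × ℤ),
      (∀ m ∈ M, m.1 ∈ l ∧ m.1 ≠ 0 ∧ w.valuation (m.1 * ρ ^ m.2.1 * ϖ ^ m.2.2) < 1) ∧
      ∀ q : ValuationSubring L,
        (∀ m ∈ M, q.valuation (m.1 * ρ ^ m.2.1 * ϖ ^ m.2.2) < 1) →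
        q.valuation ((∑ t ∈ T, c t * ρ ^ t.1 * ϖ ^ t.2) * (c t₀ * ρ ^ t₀.1 * ϖ ^ t₀.2)⁻¹) = 1 := by
  obtain ⟨t₀, ht₀, hmax⟩ := T.exists_max_image
    (fun t => w.valuation (c t * ρ ^ t.1 * ϖ ^ t.2)) hT
  have hne : ∀ t ∈ T, c t * ρ ^ t.1 * ϖ ^ t.2 ≠ 0 := fun t ht =>
    mul_ne_zero (mul_ne_zero (hc t ht).2 (pow_ne_zero _ h.rne)) (pow_ne_zero _ h.pne)
  refine ⟨t₀, ht₀, (T.erase t₀).image
    (fun t => (c t / c t₀, (t.1 : ℤ) - t₀.1, (t.2 : ℤ) - t₀.2)), ?_, ?_⟩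
  · intro m hm
    obtain ⟨t, ht, rfl⟩ := Finset.mem_image.1 hm
    obtain ⟨hne0, htT⟩ := Finset.mem_erase.1 ht
    have h1 : c t / c t₀ ∈ l := l.div_mem (hc t htT).1 (hc t₀ ht₀).1
    have h2 : c t / c t₀ ≠ 0 := div_ne_zero (hc t htT).2 (hc t₀ ht₀).2
    refine ⟨h1, h2, ?_⟩
    dsimp only
    refine lt_of_le_of_ne ?_ ?_
    · rw [monb_quot h.rne h.pne, map_mul, map_inv₀]
      have h3 : w.valuation (c t₀ * ρ ^ t₀.1 * ϖ ^ t₀.2) ≠ 0 :=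
        (Valuation.ne_zero_iff _).2 (hne t₀ ht₀)
      rw [← div_eq_mul_inv]
      exact (div_le_one₀ (zero_lt_iff.2 h3)).2 (hmax t htT)
    · intro h3
      obtain ⟨-, h4, h5⟩ := (h.one_iff h1 h2 _ _).1 h3
      exact hne0 (Prod.ext (by omega) (by omega))
  · intro q hq
    have h1 : ∀ t ∈ T.erase t₀, q.valuation
        (c t * ρ ^ t.1 * ϖ ^ t.2 * (c t₀ * ρ ^ t₀.1 * ϖ ^ t₀.2)⁻¹) < 1 := by
      intro t ht
      rw [← monb_quot h.rne h.pne]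
      exact hq _ (Finset.mem_image_of_mem _ ht)
    have h2 : (∑ t ∈ T, c t * ρ ^ t.1 * ϖ ^ t.2) * (c t₀ * ρ ^ t₀.1 * ϖ ^ t₀.2)⁻¹ =
        1 + ∑ t ∈ T.erase t₀, c t * ρ ^ t.1 * ϖ ^ t.2 * (c t₀ * ρ ^ t₀.1 * ϖ ^ t₀.2)⁻¹ := by
      rw [← Finset.add_sum_erase T _ ht₀, add_mul, mul_inv_cancel₀ (hne t₀ ht₀),
        Finset.sum_mul]
    have h3 : q.valuation (∑ t ∈ T.erase t₀, c t * ρ ^ t.1 * ϖ ^ t.2 *
        (c t₀ * ρ ^ t₀.1 * ϖ ^ t₀.2)⁻¹) < 1 :=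
      Valuation.map_sum_lt _ one_ne_zero h1
    rw [h2]
    exact q.valuation.map_one_add_of_lt h3

/-- a polynomial in `ρ`, `ϖ` is dominated by a monomial. -/
theorem monb_poly [DecidableEq L] (h : Mon l w ρ ϖ) (r : MvPolynomial (Fin 2) l)
    (hr : MvPolynomial.aeval ![ρ, ϖ] r ≠ 0) :
    ∃ (c : L) (a b : ℕ), c ∈ l ∧ c ≠ 0 ∧ ∃ M : Finset (L × ℤ × ℤ),
      (∀ m ∈ M, m.1 ∈ l ∧ m.1 ≠ 0 ∧ w.valuation (m.1 * ρ ^ m.2.1 * ϖ ^ m.2.2) < 1) ∧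
      ∀ q : ValuationSubring L,
        (∀ m ∈ M, q.valuation (m.1 * ρ ^ m.2.1 * ϖ ^ m.2.2) < 1) →
        q.valuation (MvPolynomial.aeval ![ρ, ϖ] r * (c * ρ ^ a * ϖ ^ b)⁻¹) = 1 := by
  set e : (Fin 2 →₀ ℕ) ≃ ℕ × ℕ :=
    Finsupp.equivFunOnFinite.trans (finTwoArrowEquiv ℕ) with he
  have he0 : ∀ d : Fin 2 →₀ ℕ, e d = (d 0, d 1) := fun d => rfl
  set T : Finset (ℕ × ℕ) := r.support.map e.toEmbedding with hTdef
  set c : ℕ × ℕ → L := fun t => ((r.coeff (e.symm t) : l) : L) with hcdef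
  have hsum : MvPolynomial.aeval ![ρ, ϖ] r = ∑ t ∈ T, c t * ρ ^ t.1 * ϖ ^ t.2 := by
    rw [hTdef, Finset.sum_map, MvPolynomial.aeval_def, MvPolynomial.eval₂_eq']
    refine Finset.sum_congr rfl fun d _ => ?_
    have h1 : c (e d) = ((r.coeff d : l) : L) := by
      simp only [hcdef, Equiv.symm_apply_apply]
    rw [Fin.prod_univ_two, ← mul_assoc, Equiv.coe_toEmbedding, h1, he0]
    rfl
  have hr0 : r ≠ 0 := by
    rintro rfl
    exact hr (map_zero _)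
  have hT : T.Nonempty := by
    rw [hTdef, Finset.map_nonempty]
    exact MvPolynomial.support_nonempty.2 hr0
  have hc : ∀ t ∈ T, c t ∈ l ∧ c t ≠ 0 := by
    intro t ht
    refine ⟨Subtype.coe_prop _, ?_⟩
    rw [hTdef, Finset.mem_map_equiv] at ht
    have h1 := MvPolynomial.mem_support_iff.1 ht
    intro h2
    exact h1 (Subtype.ext h2)
  obtain ⟨t₀, ht₀, M, hM, hq⟩ := mon_dom h T hT c hc
  refine ⟨c t₀, t₀.1, t₀.2, (hc t₀ ht₀).1, (hc t₀ ht₀).2, M, hM, fun q hq' => ?_⟩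
  rw [hsum]
  exact hq q hq'

/-- `l(ρ, ϖ)` consists of the quotients of polynomials. -/
theorem monb_frac {x : L} (hx : x ∈ l ⊔ Subfield.closure ({ρ, ϖ} : Set L)) :
    ∃ r s : MvPolynomial (Fin 2) l,
      x = MvPolynomial.aeval ![ρ, ϖ] r / MvPolynomial.aeval ![ρ, ϖ] s := by
  have h1 : l ⊔ Subfield.closure ({ρ, ϖ} : Set L) ≤
      (IntermediateField.adjoin l (Set.range ![ρ, ϖ])).toSubfield := by
    refine sup_le (fun y hy => ?_) (Subfield.closure_le.2 fun y hy => ?_)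
    · exact (IntermediateField.adjoin l (Set.range ![ρ, ϖ])).algebraMap_mem ⟨y, hy⟩
    · refine IntermediateField.subset_adjoin _ _ ?_
      rcases hy with rfl | hy
      · exact ⟨0, rfl⟩
      · exact ⟨1, by simpa using (Set.mem_singleton_iff.1 hy).symm⟩
  exact (IntermediateField.mem_adjoin_range_iff _ _ _).1 (h1 hx)

/-- the same for elements of the perfect closure of `l(ρ, ϖ)`.
Proof. Some power `z ^ (ringExpChar L) ^ m` is a quotient of two polynomials in `ρ`, `ϖ` with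
coefficients in `l` (`gsp`, `pf` and `Subfield.closure`); both numerator and denominator are
non-zero; take out the zero coefficients and use `mon_dom` twice; the quotient of the two
dominating monomials is again a monomial. -/
theorem mon_gsp [PerfectField L] [DecidableEq L] (h : Mon l w ρ ϖ) {z : L} (hz0 : z ≠ 0)
    (hz : z ∈ gsp l {ρ, ϖ}) :
    ∃ (m : ℕ) (c : L) (a b : ℤ), c ∈ l ∧ c ≠ 0 ∧ ∃ M : Finset (L × ℤ × ℤ),
      (∀ m ∈ M, m.1 ∈ l ∧ m.1 ≠ 0 ∧ w.valuation (m.1 * ρ ^ m.2.1 * ϖ ^ m.2.2) < 1) ∧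
      ∀ q : ValuationSubring L,
        (∀ m ∈ M, q.valuation (m.1 * ρ ^ m.2.1 * ϖ ^ m.2.2) < 1) →
        q.valuation (z ^ (ringExpChar L) ^ m * c * ρ ^ a * ϖ ^ b) = 1 := by
  obtain ⟨m, hm⟩ := mem_pf.1 hz
  rw [Finset.coe_insert, Finset.coe_singleton] at hm
  obtain ⟨r, s, hrs⟩ := monb_frac hm
  have hz1 : z ^ (ringExpChar L) ^ m ≠ 0 := pow_ne_zero _ hz0
  have hr0 : MvPolynomial.aeval ![ρ, ϖ] r ≠ 0 := by
    intro h0
    rw [h0, zero_div] at hrs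
    exact hz1 hrs
  have hs0 : MvPolynomial.aeval ![ρ, ϖ] s ≠ 0 := by
    intro h0
    rw [h0, div_zero] at hrs
    exact hz1 hrs
  obtain ⟨c₁, a₁, b₁, hc₁, hc₁0, M₁, hM₁, hq₁⟩ := monb_poly h r hr0
  obtain ⟨c₂, a₂, b₂, hc₂, hc₂0, M₂, hM₂, hq₂⟩ := monb_poly h s hs0
  refine ⟨m, c₂ / c₁, (a₂ : ℤ) - a₁, (b₂ : ℤ) - b₁, l.div_mem hc₂ hc₁,
    div_ne_zero hc₂0 hc₁0, M₁ ∪ M₂, ?_, ?_⟩
  · intro n hn
    rcases Finset.mem_union.1 hn with hn | hn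
    · exact hM₁ n hn
    · exact hM₂ n hn
  · intro q hq
    have h1 := hq₁ q fun n hn => hq n (Finset.mem_union_left _ hn)
    have h2 := hq₂ q fun n hn => hq n (Finset.mem_union_right _ hn)
    have h3 : z ^ (ringExpChar L) ^ m * (c₂ / c₁) * ρ ^ ((a₂ : ℤ) - a₁) * ϖ ^ ((b₂ : ℤ) - b₁) =
        (MvPolynomial.aeval ![ρ, ϖ] r * (c₁ * ρ ^ a₁ * ϖ ^ b₁)⁻¹) *
          (MvPolynomial.aeval ![ρ, ϖ] s * (c₂ * ρ ^ a₂ * ϖ ^ b₂)⁻¹)⁻¹ := by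
      rw [mul_assoc, mul_assoc, ← mul_assoc (c₂ / c₁), monb_quot h.rne h.pne, hrs,
        mul_inv (MvPolynomial.aeval ![ρ, ϖ] s), inv_inv, div_eq_mul_inv]
      ring
    rw [h3, map_mul, map_inv₀, h1, h2, inv_one, one_mul]

end Vale.Agent.P019P
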