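import Vale.Agent.P019R.MonA

/-!
# The choice of the approximation
-/

namespace Vale.Agent.P019P

open Vale.Agent.P019

variable {L : Type*} [Field L] {l : Subfield L} {w : ValuationSubring L} {ρ ϖ : L}

/-- roots in `l`. -/
theorem monc_root (hl : IsAlgClosed l) {c : L} (hc : c ∈ l) (hc0 : c ≠ 0) {n : ℕ} (hn : 0 < n) :
    ∃ e ∈ l, e ≠ 0 ∧ e ^ n = c := by
  obtain ⟨z, hz⟩ := IsAlgClosed.exists_pow_nat_eq (⟨c, hc⟩ : l) hn
  have hz' : (z : L) ^ n = c := by
    have := congrArg (fun t : l => (t : L)) hz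
    simpa using this
  refine ⟨z, z.2, ?_, hz'⟩
  intro h0
  rw [h0, zero_pow hn.ne'] at hz'
  exact hc0 hz'.symm

/-- an upper bound for `x`. -/
theorem monc_pos {e x : L} (he : e ≠ 0) {n : ℕ} (hn : 0 < n) :
    w.valuation (e ^ n * x ^ (n : ℤ)) < 1 ↔ w.valuation x < w.valuation e⁻¹ := by
  have he' : 0 < w.valuation e := zero_lt_iff.2 ((Valuation.ne_zero_iff _).2 he)
  rw [zpow_natCast, ← mul_pow, map_pow, pow_lt_one_iff hn.ne', map_mul, map_inv₀, mul_comm,
    ← one_div, lt_div_iff₀ he']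

/-- a lower bound for `x`. -/
theorem monc_neg {e x : L} (hx : x ≠ 0) {n : ℕ} (hn : 0 < n) :
    w.valuation (e ^ n * x ^ (-(n : ℤ))) < 1 ↔ w.valuation e < w.valuation x := by
  have hx' : 0 < w.valuation x := zero_lt_iff.2 ((Valuation.ne_zero_iff _).2 hx)
  rw [zpow_neg, zpow_natCast, ← div_eq_mul_inv, ← div_pow, map_pow, pow_lt_one_iff hn.ne',
    map_div₀, div_lt_one₀ hx']

/-- the values of `l` are dense, without end points. -/
theorem monc_between (hl : IsAlgClosed l) {e : L} (he : e ∈ l) (he0 : e ≠ 0)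
    (he1 : w.valuation e < 1) (lo hi : Finset L) (hlo : ∀ x ∈ lo, x ∈ l ∧ x ≠ 0)
    (hhi : ∀ y ∈ hi, y ∈ l ∧ y ≠ 0)
    (h : ∀ x ∈ lo, ∀ y ∈ hi, w.valuation x < w.valuation y) :
    ∃ c ∈ l, c ≠ 0 ∧ (∀ x ∈ lo, w.valuation x < w.valuation c) ∧
      ∀ y ∈ hi, w.valuation c < w.valuation y := by
  have pos : ∀ x : L, x ≠ 0 → 0 < w.valuation x := fun x hx =>
    zero_lt_iff.2 ((Valuation.ne_zero_iff _).2 hx)
  by_cases h1 : lo.Nonempty
  · obtain ⟨x, hx, hx1⟩ := Finset.exists_max_image lo w.valuation h1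
    by_cases h2 : hi.Nonempty
    · obtain ⟨y, hy, hy1⟩ := Finset.exists_min_image hi w.valuation h2
      have hxy := h x hx y hy
      obtain ⟨c, hc, hc0, hc2⟩ := monc_root hl (l.mul_mem (hlo x hx).1 (hhi y hy).1)
        (mul_ne_zero (hlo x hx).2 (hhi y hy).2) (n := 2) (by norm_num)
      have hc3 : w.valuation c * w.valuation c = w.valuation x * w.valuation y := by
        rw [← map_mul, ← map_mul, ← hc2, pow_two]
      have px := pos x (hlo x hx).2
      have py := pos y (hhi y hy).2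
      have pc := pos c hc0
      refine ⟨c, hc, hc0, fun z hz => (hx1 z hz).trans_lt ?_,
        fun z hz => lt_of_lt_of_le ?_ (hy1 z hz)⟩
      · by_contra hlt
        rw [not_lt] at hlt
        have : w.valuation c * w.valuation c ≤ w.valuation x * w.valuation x :=
          mul_le_mul' hlt hlt
        rw [hc3] at this
        have h3 : w.valuation y ≤ w.valuation x := le_of_mul_le_mul_left this px
        exact absurd hxy (not_lt.2 h3)
      · by_contra hlt
        rw [not_lt] at hlt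
        have : w.valuation y * w.valuation y ≤ w.valuation c * w.valuation c :=
          mul_le_mul' hlt hlt
        rw [hc3] at this
        have h3 : w.valuation y ≤ w.valuation x := le_of_mul_le_mul_right this py
        exact absurd hxy (not_lt.2 h3)
    · refine ⟨x * e⁻¹, l.mul_mem (hlo x hx).1 (l.inv_mem he),
        mul_ne_zero (hlo x hx).2 (inv_ne_zero he0), fun z hz => (hx1 z hz).trans_lt ?_,
        fun y hy => absurd ⟨y, hy⟩ h2⟩
      have px := pos x (hlo x hx).2
      have pe := pos e he0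
      rw [← div_eq_mul_inv, map_div₀, lt_div_iff₀ pe]
      exact mul_lt_of_lt_one_right px he1
  · by_cases h2 : hi.Nonempty
    · obtain ⟨y, hy, hy1⟩ := Finset.exists_min_image hi w.valuation h2
      refine ⟨y * e, l.mul_mem (hhi y hy).1 he, mul_ne_zero (hhi y hy).2 he0,
        fun x hx => absurd ⟨x, hx⟩ h1, fun z hz => lt_of_lt_of_le ?_ (hy1 z hz)⟩
      have py := pos y (hhi y hy).2
      rw [map_mul]
      exact mul_lt_of_lt_one_right py he1
    · exact ⟨1, l.one_mem, one_ne_zero, fun x hx => absurd ⟨x, hx⟩ h1,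
        fun y hy => absurd ⟨y, hy⟩ h2⟩

/-- an approximation of the value of `ρ` by the value of `c₀ * ϖ ^ n`.
Proof. Case 1: `w` is not trivial on `l` (some `e ∈ l`, `e ≠ 0`, `w.valuation e < 1`): take
`n = 0`. For `m = (c, a, b) ∈ M` with `a = 0` the claim is `Mon.lt_iff`. For `a ≠ 0` we have
`w (c * ρ ^ a) < 1` (`Mon.lt_iff`, `Mon.ind`), and we need `w (c * c₀ ^ a) < 1`; with
`e ∈ l`, `e ^ |a| = c⁻¹` or `c` (roots exist, `l` is algebraically closed) this says
`w c₀ < w e` or `w e < w c₀`, and `w ρ < w e` or `w e < w ρ` is known. So there are finitely many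
lower bounds `w x < w ρ` and upper bounds `w ρ < w y`, `x, y ∈ l`, and we need `c₀ ∈ l`
strictly between: take `c₀ ^ 2 = x * y` for the largest lower bound and the smallest upper
bound; if there is no lower or no upper bound use a power of the small element `e ∈ l`.
Case 2: all non-zero elements of `l` have value `1`: then `w ρ ≠ 1`; take `c₀ = 1` and
`n = N` or ... so that the sign is right: note that `n : ℤ` may be negative if `w ρ > 1`. For
`a ≠ 0`: `w (ρ ^ a) < 1`, so `0 < n * a` when `n` has the sign of the value of `ρ`; take `|n|`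
larger than all `|b|`. -/
theorem mon_choose (hl : IsAlgClosed l) (h : Mon l w ρ ϖ) (M : Finset (L × ℤ × ℤ))
    (hM : ∀ m ∈ M, m.1 ∈ l ∧ m.1 ≠ 0 ∧ w.valuation (m.1 * ρ ^ m.2.1 * ϖ ^ m.2.2) < 1) :
    ∃ (c₀ : L) (n : ℤ), c₀ ∈ l ∧ c₀ ≠ 0 ∧ ∀ m ∈ M,
      w.valuation (m.1 * c₀ ^ m.2.1) < 1 ∨
        w.valuation (m.1 * c₀ ^ m.2.1) = 1 ∧ 0 < n * m.2.1 + m.2.2 := by
  classical
  have hM' : ∀ m ∈ M, w.valuation (m.1 * ρ ^ m.2.1) < 1 ∨
      (m.2.1 = 0 ∧ w.valuation m.1 = 1 ∧ 0 < m.2.2) := by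
    intro m hm
    obtain ⟨h1, h2, h3⟩ := hM m hm
    rcases (h.lt_iff h1 h2 m.2.1 m.2.2).1 h3 with h4 | ⟨h4, h5⟩
    · exact Or.inl h4
    · have h6 := h.ind _ h1 h2 _ h4
      rw [h6, zpow_zero, mul_one] at h4
      exact Or.inr ⟨h6, h4, h5⟩
  by_cases htr : ∃ e ∈ l, e ≠ 0 ∧ w.valuation e < 1
  · obtain ⟨e, he, he0, he1⟩ := htr
    have hr : ∀ m ∈ M, m.2.1 ≠ 0 → ∃ g ∈ l, g ≠ 0 ∧ g ^ m.2.1.natAbs = m.1 := by
      intro m hm hm0
      exact monc_root hl (hM m hm).1 (hM m hm).2.1 (Int.natAbs_pos.2 hm0)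
    choose! g hg using hr
    have key : ∀ m ∈ M, m.2.1 < 0 → ∀ x : L, x ≠ 0 →
        (w.valuation (m.1 * x ^ m.2.1) < 1 ↔ w.valuation (g m) < w.valuation x) := by
      intro m hm hm0 x hx
      obtain ⟨g1, g2, g3⟩ := hg m hm hm0.ne
      have h4 := monc_neg (w := w) (e := g m) hx (Int.natAbs_pos.2 hm0.ne)
      have h5 : -((m.2.1.natAbs : ℕ) : ℤ) = m.2.1 := by omega
      rw [g3, h5] at h4
      exact h4
    have key2 : ∀ m ∈ M, 0 < m.2.1 → ∀ x : L,
        (w.valuation (m.1 * x ^ m.2.1) < 1 ↔ w.valuation x < w.valuation (g m)⁻¹) := by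
      intro m hm hm0 x
      obtain ⟨g1, g2, g3⟩ := hg m hm hm0.ne'
      have h4 := monc_pos (w := w) (e := g m) (x := x) g2 (Int.natAbs_pos.2 hm0.ne')
      have h5 : ((m.2.1.natAbs : ℕ) : ℤ) = m.2.1 := by omega
      rw [g3, h5] at h4
      exact h4
    obtain ⟨c, hc, hc0, hc1, hc2⟩ := monc_between hl he he0 he1
      ((M.filter fun m => m.2.1 < 0).image g) ((M.filter fun m => 0 < m.2.1).image fun m => (g m)⁻¹)
      (by
        intro x hx
        rw [Finset.mem_image] at hx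
        obtain ⟨m, hm, rfl⟩ := hx
        rw [Finset.mem_filter] at hm
        obtain ⟨g1, g2, g3⟩ := hg m hm.1 hm.2.ne
        exact ⟨g1, g2⟩)
      (by
        intro x hx
        rw [Finset.mem_image] at hx
        obtain ⟨m, hm, rfl⟩ := hx
        rw [Finset.mem_filter] at hm
        obtain ⟨g1, g2, g3⟩ := hg m hm.1 hm.2.ne'
        exact ⟨l.inv_mem g1, inv_ne_zero g2⟩)
      (by
        intro x hx y hy
        rw [Finset.mem_image] at hx hy
        obtain ⟨m, hm, rfl⟩ := hx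
        obtain ⟨m', hm', rfl⟩ := hy
        rw [Finset.mem_filter] at hm hm'
        have h1 : w.valuation (m.1 * ρ ^ m.2.1) < 1 := by
          rcases hM' m hm.1 with h1 | h1
          · exact h1
          · exact absurd h1.1 hm.2.ne
        have h2 : w.valuation (m'.1 * ρ ^ m'.2.1) < 1 := by
          rcases hM' m' hm'.1 with h1 | h1
          · exact h1
          · exact absurd h1.1 hm'.2.ne'
        exact ((key m hm.1 hm.2 ρ h.rne).1 h1).trans ((key2 m' hm'.1 hm'.2 ρ).1 h2))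
    refine ⟨c, 0, hc, hc0, fun m hm => ?_⟩
    rcases hM' m hm with h1 | ⟨h1, h2, h3⟩
    · left
      rcases lt_trichotomy m.2.1 0 with h2 | h2 | h2
      · rw [key m hm h2 c hc0]
        exact hc1 _ (Finset.mem_image_of_mem _ (Finset.mem_filter.2 ⟨hm, h2⟩))
      · rw [h2, zpow_zero] at h1 ⊢
        exact h1
      · rw [key2 m hm h2 c]
        exact hc2 _ (Finset.mem_image.2 ⟨m, Finset.mem_filter.2 ⟨hm, h2⟩, rfl⟩)
    · right
      rw [h1, zpow_zero, mul_one]
      exact ⟨h2, by omega⟩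
  · have htr' : ∀ c ∈ l, c ≠ 0 → w.valuation c = 1 := by
      intro c hc hc0
      rcases lt_trichotomy (w.valuation c) 1 with h1 | h1 | h1
      · exact absurd ⟨c, hc, hc0, h1⟩ htr
      · exact h1
      · refine absurd ⟨c⁻¹, l.inv_mem hc, inv_ne_zero hc0, ?_⟩ htr
        rw [map_inv₀]
        exact inv_lt_one_of_one_lt₀ h1
    have hρ : w.valuation ρ ≠ 1 := by
      intro h1
      have h2 := h.ind 1 l.one_mem one_ne_zero 1 (by rw [zpow_one, one_mul]; exact h1)
      exact absurd h2 (by norm_num)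
    have hρ0 : 0 < w.valuation ρ := zero_lt_iff.2 ((Valuation.ne_zero_iff _).2 h.rne)
    have hN : ∀ m ∈ M, |m.2.2| ≤ ∑ m ∈ M, |m.2.2| := fun m hm =>
      Finset.single_le_sum (f := fun m : L × ℤ × ℤ => |m.2.2|) (fun i _ => abs_nonneg _) hm
    set N : ℤ := ∑ m ∈ M, |m.2.2| with hNdef
    have hN0 : 0 ≤ N := Finset.sum_nonneg fun i _ => abs_nonneg _
    rcases lt_or_gt_of_ne hρ with h1 | h1
    · refine ⟨1, N + 1, l.one_mem, one_ne_zero, fun m hm => Or.inr ?_⟩
      rw [one_zpow, mul_one]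
      refine ⟨htr' _ (hM m hm).1 (hM m hm).2.1, ?_⟩
      rcases hM' m hm with h2 | ⟨h2, h3, h4⟩
      · rw [map_mul, htr' _ (hM m hm).1 (hM m hm).2.1, one_mul, map_zpow₀] at h2
        have h5 : 0 < m.2.1 := by
          by_contra h6
          rw [not_lt] at h6
          exact absurd h2 (not_lt.2 (one_le_zpow_of_nonpos₀ hρ0 h1.le h6))
        have h6 := hN m hm
        have h7 := neg_abs_le m.2.2
        nlinarith
      · rw [h2]; omega
    · refine ⟨1, -(N + 1), l.one_mem, one_ne_zero, fun m hm => Or.inr ?_⟩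
      rw [one_zpow, mul_one]
      refine ⟨htr' _ (hM m hm).1 (hM m hm).2.1, ?_⟩
      rcases hM' m hm with h2 | ⟨h2, h3, h4⟩
      · rw [map_mul, htr' _ (hM m hm).1 (hM m hm).2.1, one_mul, map_zpow₀] at h2
        have h5 : m.2.1 < 0 := by
          by_contra h6
          rw [not_lt] at h6
          exact absurd h2 (not_lt.2 (one_le_zpow₀ h1.le h6))
        have h6 := hN m hm
        have h7 := neg_abs_le m.2.2
        nlinarith
      · rw [h2]; omega

end Vale.Agent.P019P
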