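import Vale.Agent.P019R.MonA
import Vale.Agent.P019.Place
import Vale.Agent.P019.PlUnr
import Vale.Agent.P019.Gauss

/-!
# Existence of the approximating valuation rings
-/

namespace Vale.Agent.P019P

open Vale.Agent.P019

section comp

variable {L Ω : Type*} [Field L] [Field Ω]

/-- composite of a place with a valuation ring. -/
noncomputable def mondComp (P : Pl L Ω) (D : ValuationSubring Ω) : ValuationSubring L where
  carrier := {x | x ∈ P.O ∧ P.ev x ∈ D}
  mul_mem' := by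
    rintro x y ⟨hx, hx'⟩ ⟨hy, hy'⟩
    exact ⟨mul_mem hx hy, by rw [P.ev_mul hx hy]; exact mul_mem hx' hy'⟩
  one_mem' := ⟨one_mem _, by rw [P.ev_one]; exact one_mem _⟩
  add_mem' := by
    rintro x y ⟨hx, hx'⟩ ⟨hy, hy'⟩
    exact ⟨add_mem hx hy, by rw [P.ev_add hx hy]; exact add_mem hx' hy'⟩
  zero_mem' := ⟨zero_mem _, by rw [P.ev_zero]; exact zero_mem _⟩
  neg_mem' := by
    rintro x ⟨hx, hx'⟩
    exact ⟨neg_mem hx, by rw [P.ev_neg hx]; exact neg_mem hx'⟩
  mem_or_inv_mem' := by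
    intro x
    by_cases hx : x ∈ P.O
    · by_cases hx' : P.ev x ∈ D
      · exact Or.inl ⟨hx, hx'⟩
      · right
        have hU : P.U x := ⟨hx, fun h0 => hx' (by rw [h0]; exact zero_mem _)⟩
        refine ⟨hU.inv_mem, ?_⟩
        rw [hU.ev_inv]
        exact (D.mem_or_inv_mem _).resolve_left hx'
    · right
      have h1 : P.O.valuation x⁻¹ < 1 := by
        rw [map_inv₀]
        refine inv_lt_one_of_one_lt₀ (not_le.1 fun h => hx ((P.O.valuation_le_one_iff x).1 h))
      exact ⟨P.mem_of_lt h1, by rw [P.ev_of_lt h1]; exact zero_mem _⟩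

theorem mem_mondComp {P : Pl L Ω} {D : ValuationSubring Ω} {x : L} :
    x ∈ mondComp P D ↔ x ∈ P.O ∧ P.ev x ∈ D := Iff.rfl

theorem mond_lt_iff {O : ValuationSubring L} {x : L} : O.valuation x < 1 ↔
    x = 0 ∨ x⁻¹ ∉ O := by
  by_cases hx : x = 0
  · simp [hx]
  have h : O.valuation x ≠ 0 := (Valuation.ne_zero_iff _).2 hx
  rw [← ValuationSubring.valuation_le_one_iff, map_inv₀, not_le,
    one_lt_inv₀ (zero_lt_iff.2 h)]
  simp [hx]

theorem mondComp_lt {P : Pl L Ω} {D : ValuationSubring Ω} {x : L} (h : P.O.valuation x < 1) :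
    (mondComp P D).valuation x < 1 := by
  rw [mond_lt_iff] at h ⊢
  exact h.imp_right fun h1 h2 => h1 h2.1

theorem mondComp_lt' {P : Pl L Ω} {D : ValuationSubring Ω} {x : L} (hx : P.U x)
    (h : D.valuation (P.ev x) < 1) : (mondComp P D).valuation x < 1 := by
  rw [mond_lt_iff] at h ⊢
  refine Or.inr fun h2 => ?_
  rcases h with h | h
  · exact hx.2 h
  · have h3 := h2.2
    rw [hx.ev_inv] at h3
    exact h h3

theorem mondComp_eq {P : Pl L Ω} {D : ValuationSubring Ω} {x : L} (hx : P.U x)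
    (h : D.valuation (P.ev x) = 1) : (mondComp P D).valuation x = 1 := by
  have hmem : x ∈ mondComp P D := ⟨hx.1, (D.valuation_le_one_iff _).1 h.le⟩
  refine le_antisymm ((ValuationSubring.valuation_le_one_iff _ _).2 hmem) (not_lt.1 fun h1 => ?_)
  rw [mond_lt_iff] at h1
  rcases h1 with h1 | h1
  · exact hx.ne_zero h1
  · apply h1
    refine ⟨hx.inv_mem, ?_⟩
    rw [hx.ev_inv, ← D.valuation_le_one_iff, map_inv₀, h, inv_one]

end comp

section target

universe v

/-- the target field of the place. -/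
theorem mond_target (κ : Type v) [Field κ] : ∃ (Ω : Type v) (_ : Field Ω) (_ : IsAlgClosed Ω)
    (ι : κ →+* Ω) (X Y : Ω) (F : Subfield Ω), (∀ c, ι c ∈ F) ∧ X ∈ F ∧ (∀ c, X ≠ ι c) ∧
      Transcendental F Y := by
  let κ₁ := RatFunc κ
  let κ₂ := RatFunc κ₁
  let Ω := AlgebraicClosure κ₂
  let j : κ₁ →+* Ω := (algebraMap κ₂ Ω).comp (algebraMap κ₁ κ₂)
  refine ⟨Ω, inferInstance, inferInstance, j.comp (algebraMap κ κ₁), j RatFunc.X,
    algebraMap κ₂ Ω RatFunc.X, j.fieldRange, fun c => ⟨_, rfl⟩, ⟨_, rfl⟩, fun c h => ?_, ?_⟩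
  · have h1 : (RatFunc.X : κ₁) = algebraMap κ κ₁ c := j.injective h
    have h2 : Transcendental κ (RatFunc.X : κ₁) := RatFunc.transcendental_X
    exact h2 (h1 ▸ isAlgebraic_algebraMap c)
  · have h1 : Transcendental κ₁ (RatFunc.X : κ₂) := RatFunc.transcendental_X
    intro h2
    refine h1 (IsAlgebraic.of_ringHom_of_comp_eq (f := j.rangeRestrictField)
      (g := algebraMap κ₂ Ω) h2 ?_ (algebraMap κ₂ Ω).injective ?_)
    · rintro ⟨_, x, rfl⟩
      exact ⟨x, rfl⟩
    · rfl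

end target

variable {L : Type*} [Field L] {l : Subfield L} {w : ValuationSubring L} {u ϖ : L}

/-- Proof. Let `A` be the subring of `L` generated by `w ⊓ l`, `u`, `ϖ`: it is a polynomial ring
in `u`, `ϖ` over `w ⊓ l`. Let `κ` be the residue field of `w ⊓ l` (or of `w`) and `Ω` an
algebraic closure of `κ(X, Y)`, `φ : A → Ω`, `u ↦ X`, `ϖ ↦ Y`, the residue map on `w ⊓ l`.
`exists_place` (P019/Place.lean) extends `φ` to `ψ : O₁ → Ω` on a valuation ring `O₁` of `L`.
Let `D` be a valuation ring of `Ω` containing `κ(X)` with `D.valuation Y < 1` (for instance by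
`exists_place` for the subring `κ(X)[Y]` and `Y ↦ 0`, or `Vale.Agent.P019.exists_over`), and
`q = {x ∈ O₁ | ψ x ∈ D}`. For `c ∈ l`, `c` small, `c * ϖ ^ (-b)` is in the maximal ideal of `O₁`,
so it is small at `q`. `ψ (u - c) = X - ψ c` is a non-zero element of `κ(X)`. -/
theorem exists_qmon (h : AlgebraicIndependent l ![u, ϖ]) : ∃ q, QMon l w q u ϖ := by
  classical
  obtain ⟨Ω, _, _, ι, X, Y, F, hιF, hXF, hXι, hY⟩ := mond_target (IsLocalRing.ResidueField w)
  obtain ⟨D, hDF, hDY⟩ := exists_triv F Y hY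
  have hY0 : Y ≠ 0 := by
    rintro rfl
    exact hY (isAlgebraic_zero)
  -- the constants
  let R : ValuationSubring l := w.comap l.subtype
  let jR : R →+* w :=
    { toFun := fun r => ⟨((r : l) : L), r.2⟩
      map_one' := rfl
      map_mul' := fun _ _ => rfl
      map_zero' := rfl
      map_add' := fun _ _ => rfl }
  let g : MvPolynomial (Fin 2) R →+* L :=
    MvPolynomial.eval₂Hom (l.subtype.comp R.subtype) ![u, ϖ]
  have hg : Function.Injective g := by
    have h1 : g = (MvPolynomial.aeval ![u, ϖ] : MvPolynomial (Fin 2) l →ₐ[l] L).toRingHom.comp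
        (MvPolynomial.map R.subtype) := by
      refine MvPolynomial.ringHom_ext (fun r => ?_) fun i => ?_
      · simp [g]
        rfl
      · simp [g]
    rw [h1, RingHom.coe_comp]
    exact Function.Injective.comp h (MvPolynomial.map_injective _ Subtype.val_injective)
  let e : MvPolynomial (Fin 2) R ≃+* g.range := RingEquiv.ofBijective g.rangeRestrict
    ⟨fun a b hab => hg (congrArg Subtype.val hab), g.rangeRestrict_surjective⟩
  let φ0 : MvPolynomial (Fin 2) R →+* Ω :=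
    MvPolynomial.eval₂Hom ((ι.comp (IsLocalRing.residue w)).comp jR) ![X, Y]
  obtain ⟨O, ψ, h1, h2⟩ := exists_place (F := L) (C := Ω) g.range (φ0.comp e.symm.toRingHom)
  let P : Pl L Ω := ⟨O, ψ, h2⟩
  have hev : ∀ p : MvPolynomial (Fin 2) R, g p ∈ P.O ∧ P.ev (g p) = φ0 p := by
    intro p
    obtain ⟨h', h3⟩ := h1 (g p) ⟨p, rfl⟩
    refine ⟨h', ?_⟩
    rw [P.ev_of_mem h']
    change ψ ⟨g p, h'⟩ = _
    rw [h3]
    change φ0 (e.symm ⟨g p, _⟩) = _
    have h4 : (⟨g p, ⟨p, rfl⟩⟩ : g.range) = e p := Subtype.ext rfl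
    rw [h4, RingEquiv.symm_apply_apply]
  have hu : u ∈ P.O ∧ P.ev u = X := by
    have h3 := hev (MvPolynomial.X 0)
    simpa [g, φ0] using h3
  have hϖ : ϖ ∈ P.O ∧ P.ev ϖ = Y := by
    have h3 := hev (MvPolynomial.X 1)
    simpa [g, φ0] using h3
  have hc : ∀ c (hc : c ∈ l) (hcw : c ∈ w), c ∈ P.O ∧
      P.ev c = ι (IsLocalRing.residue w ⟨c, hcw⟩) := by
    intro c hc hcw
    have h3 := hev (MvPolynomial.C (⟨⟨c, hc⟩, hcw⟩ : R))
    simp only [g, φ0, MvPolynomial.coe_eval₂Hom, MvPolynomial.eval₂_C] at h3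
    exact h3
  have hϖU : P.U ϖ := ⟨hϖ.1, by rw [hϖ.2]; exact hY0⟩
  have hclt : ∀ c ∈ l, w.valuation c < 1 → P.O.valuation c < 1 := by
    intro c hcl hcw
    have hcw' : c ∈ w := (w.valuation_le_one_iff c).1 hcw.le
    obtain ⟨h3, h4⟩ := hc c hcl hcw'
    rw [← P.ev_eq_zero_iff h3, h4, map_eq_zero, IsLocalRing.residue_eq_zero_iff]
    exact (ValuationSubring.valuation_lt_one_iff w ⟨c, hcw'⟩).2 hcw
  have hcst : ∀ c ∈ l, c ∈ mondComp P D ↔ c ∈ w := by
    intro c hcl
    constructor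
    · intro h3
      by_contra h4
      have hc0 : c ≠ 0 := by
        rintro rfl
        exact h4 (zero_mem _)
      have h5 : w.valuation c⁻¹ < 1 := by
        rw [map_inv₀]
        exact inv_lt_one_of_one_lt₀ (not_le.1 fun h => h4 ((w.valuation_le_one_iff c).1 h))
      have h6 := hclt c⁻¹ (l.inv_mem hcl) h5
      rw [mond_lt_iff, inv_inv] at h6
      exact h6.resolve_left (inv_ne_zero hc0) h3.1
    · intro h3
      obtain ⟨h4, h5⟩ := hc c hcl h3
      exact ⟨h4, by rw [h5]; exact hDF _ (hιF _)⟩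
  refine ⟨mondComp P D, ⟨hcst, hϖU.ne_zero, ?_, ?_, ?_, ?_⟩⟩
  · exact mondComp_lt' hϖU (by rw [hϖ.2]; exact hDY)
  · intro c hcl hc0 hc1 b
    have hcw : c ∈ w := (hcst c hcl).1 (((mondComp P D).valuation_le_one_iff c).1 hc1.le)
    have hcw1 : w.valuation c < 1 := by
      refine lt_of_le_of_ne ((w.valuation_le_one_iff c).2 hcw) fun h3 => ?_
      have h4 : c⁻¹ ∈ w := by
        rw [← w.valuation_le_one_iff, map_inv₀, h3, inv_one]
      have h5 := (hcst c⁻¹ (l.inv_mem hcl)).2 h4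
      rw [mond_lt_iff] at hc1
      exact hc1.resolve_left hc0 h5
    have h3 : P.O.valuation (c * ϖ ^ (-b)) < 1 := by
      rw [map_mul, (P.U_iff.1 (hϖU.zpow (-b))), mul_one]
      exact hclt c hcl hcw1
    have h4 := mondComp_lt (D := D) h3
    have h5 : 0 < (mondComp P D).valuation ϖ ^ b :=
      zpow_pos (zero_lt_iff.2 ((Valuation.ne_zero_iff _).2 hϖU.ne_zero)) b
    rw [map_mul, map_zpow₀, zpow_neg, ← div_eq_mul_inv, div_lt_one₀ h5] at h4
    exact h4
  · exact ⟨hu.1, by rw [hu.2]; exact hDF _ hXF⟩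
  · intro c hcl hcq
    have hcw := (hcst c hcl).1 hcq
    obtain ⟨h3, h4⟩ := hc c hcl hcw
    have h5 : P.ev (u - c) = X - ι (IsLocalRing.residue w ⟨c, hcw⟩) := by
      rw [P.ev_sub hu.1 h3, hu.2, h4]
    have h6 : P.ev (u - c) ≠ 0 := by
      rw [h5]
      exact sub_ne_zero.2 (hXι _)
    refine mondComp_eq ⟨sub_mem hu.1 h3, h6⟩ ?_
    rw [h5]
    exact TrivOn.eq_one hDF (sub_mem hXF (hιF _)) (sub_ne_zero.2 (hXι _))

end Vale.Agent.P019P
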