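import Vale.Agent.P019R.MonB
import Vale.Agent.P019R.AbC
import Vale.Agent.P019.Indep

/-!
# Independence of the monomial parameters and values at the approximating rings
-/

namespace Vale.Agent.P019P

open Vale.Agent.P019

set_option linter.unusedSectionVars false

variable {L : Type*} [Field L] {l : Subfield L} {w : ValuationSubring L} {ρ ϖ : L}

/-- two elements, the first transcendental and the second transcendental over the first. -/
theorem mone_pair {x y : L} (hx : ¬ IsAlgebraic l x)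
    (hy : ¬ IsAlgebraic (Vale.Agent.P019.adj l x) y) : AlgebraicIndependent l ![x, y] := by
  have h1 : AlgebraicIndependent l ![x] :=
    (algebraicIndependent_unique_type_iff).2 hx
  have hr : Set.range (![x] : Fin 1 → L) = {x} := by
    ext z
    constructor
    · rintro ⟨i, rfl⟩
      fin_cases i
      rfl
    · rintro rfl
      exact ⟨0, rfl⟩
  have h2 := indep_snoc (z := y) h1 (fun h => hy (by
    have h4 := mem_rac.1 h
    rw [hr] at h4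
    exact h4))
  have h3 : (Fin.snoc ![x] y : Fin 2 → L) = ![x, y] := by
    funext i
    fin_cases i <;> rfl
  rwa [h3] at h2

/-- Proof. A polynomial relation between `ρ * (c₀ * ϖ ^ n)⁻¹` and `ϖ` gives one between `ρ` and
`ϖ` (multiply by a power of `ϖ`), which contradicts `mon_dom` (for `q = w`). -/
theorem Mon.indep [DecidableEq L] (h : Mon l w ρ ϖ) {c₀ : L} (hc : c₀ ∈ l) (hc0 : c₀ ≠ 0)
    (n : ℤ) : AlgebraicIndependent l ![ρ * (c₀ * ϖ ^ n)⁻¹, ϖ] := by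
  have hρ := h.rne
  have hϖ := h.pne
  have hx0 : ρ * (c₀ * ϖ ^ n)⁻¹ ≠ 0 :=
    mul_ne_zero hρ (inv_ne_zero (mul_ne_zero hc0 (zpow_ne_zero _ hϖ)))
  have hpow : ∀ k : ℤ, (ρ * (c₀ * ϖ ^ n)⁻¹) ^ k = (c₀ ^ k)⁻¹ * ρ ^ k * ϖ ^ (-(n * k)) := by
    intro k
    rw [mul_zpow, inv_zpow, mul_zpow, mul_inv, ← zpow_mul, zpow_neg]
    ring
  have hx : ∀ c ∈ l, c ≠ 0 → ∀ k : ℕ, 0 < k →
      w.valuation (c * (ρ * (c₀ * ϖ ^ n)⁻¹) ^ k) ≠ 1 := by
    intro c hcl hcn k hk h1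
    have h2 : c * (ρ * (c₀ * ϖ ^ n)⁻¹) ^ k =
        (c * (c₀ ^ (k : ℤ))⁻¹) * ρ ^ (k : ℤ) * ϖ ^ (-(n * k)) := by
      rw [← zpow_natCast, hpow]
      ring
    rw [h2] at h1
    have h3 := (h.one_iff (l.mul_mem hcl (l.inv_mem (l.zpow_mem hc _)))
      (mul_ne_zero hcn (inv_ne_zero (zpow_ne_zero _ hc0))) _ _).1 h1
    omega
  apply mone_pair
  · rintro ⟨P, hP0, hP⟩
    obtain ⟨-, -, -, -, h2, -⟩ := ab_mono_poly hx0 hx P hP0
    exact h2 hP
  · have hy : ∀ z ∈ Vale.Agent.P019.adj l (ρ * (c₀ * ϖ ^ n)⁻¹), z ≠ 0 → ∀ j : ℕ, 0 < j →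
        w.valuation (z * ϖ ^ j) ≠ 1 := by
      intro z hz hz0 j hj h1
      obtain ⟨c, hcl, hcn, k, hk, -⟩ := ab_mono hx0 hx hz hz0
      have h2 : w.valuation (c⁻¹ * (ρ * (c₀ * ϖ ^ n)⁻¹) ^ (-k) * ϖ ^ j) = 1 := by
        have h3 : c⁻¹ * (ρ * (c₀ * ϖ ^ n)⁻¹) ^ (-k) * ϖ ^ j =
            (z * c * (ρ * (c₀ * ϖ ^ n)⁻¹) ^ k)⁻¹ * (z * ϖ ^ j) := by
          rw [zpow_neg, mul_inv, mul_inv]
          field_simp
        rw [h3, map_mul, map_inv₀, hk, h1, inv_one, one_mul]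
      have h4 : c⁻¹ * (ρ * (c₀ * ϖ ^ n)⁻¹) ^ (-k) * ϖ ^ j =
          (c⁻¹ * (c₀ ^ (-k))⁻¹) * ρ ^ (-k) * ϖ ^ (-(n * -k) + j) := by
        rw [hpow, zpow_add₀ hϖ, zpow_natCast]
        ring
      rw [h4] at h2
      have h5 := (h.one_iff (l.mul_mem (l.inv_mem hcl) (l.inv_mem (l.zpow_mem hc _)))
        (mul_ne_zero (inv_ne_zero hcn) (inv_ne_zero (zpow_ne_zero _ hc0))) _ _).1 h2
      have h6 : k = 0 := by omega
      rw [h6] at h5
      have h7 := h5.2.2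
      simp at h7
      omega
    rintro ⟨P, hP0, hP⟩
    obtain ⟨-, -, -, -, h2, -⟩ := ab_mono_poly hϖ hy P hP0
    exact h2 hP

/-- values of the elements of `gsp` at `q`. -/
theorem QMon.rep [PerfectField L] [DecidableEq L] (hl : IsAlgClosed l) {q : ValuationSubring L}
    {u : L} (h : QMon l w q u ϖ) {z : L} (hz0 : z ≠ 0) (hz : z ∈ gsp l {u, ϖ}) :
    ∃ (m : ℕ) (c : L) (b : ℤ), c ∈ l ∧ c ≠ 0 ∧
      q.valuation (z ^ (ringExpChar L) ^ m * c * ϖ ^ b) = 1 := by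
  obtain ⟨m, hm⟩ := mem_pf.1 hz
  have hu : ¬ IsAlgebraic (rbar l q) (rs q u) := by
    intro h1
    obtain ⟨c, hc, hcq, hcu⟩ := RAC_of_isAlgClosed _ (rbar_ac hl q) _ h1
    have h2 := h.ures c hc hcq
    have h3 := (rs_eq h.uq hcq).1 hcu.symm
    rw [h2] at h3
    exact lt_irrefl _ h3
  have hV : AbV q l (Vale.Agent.P019.adj l u) := (AbV.refl l).gauss h.uq hu
  have hp0 : 0 < q.valuation ϖ := zero_lt_iff.2 ((Valuation.ne_zero_iff _).2 h.pne)
  have hϖ : ∀ c ∈ l, c ≠ 0 → ∀ n : ℕ, 0 < n → q.valuation (c * ϖ ^ n) ≠ 1 := by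
    intro c hc hc0 n hn h1
    rw [map_mul, map_pow] at h1
    have h2 : q.valuation c⁻¹ = q.valuation ϖ ^ n := by
      rw [map_inv₀]
      exact (eq_inv_of_mul_eq_one_right h1).symm
    have h3 : q.valuation c⁻¹ < 1 := by
      rw [h2]
      exact pow_lt_one₀ hp0.le h.plt hn.ne'
    have h4 := h.inf c⁻¹ (l.inv_mem hc) (inv_ne_zero hc0) h3 n
    rw [zpow_natCast, h2] at h4
    exact lt_irrefl _ h4
  have hz' : z ^ ringExpChar L ^ m ∈ Vale.Agent.P019.adj (Vale.Agent.P019.adj l u) ϖ := by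
    have h1 : gs0 l {u, ϖ} ≤ Vale.Agent.P019.adj (Vale.Agent.P019.adj l u) ϖ := by
      refine gs0_le ((Vale.Agent.P019.le_adj _ _).trans (Vale.Agent.P019.le_adj _ _))
        fun x hx => ?_
      rcases Finset.mem_insert.1 hx with rfl | hx
      · exact Vale.Agent.P019.le_adj _ _ (Vale.Agent.P019.mem_adj _ _)
      · rw [Finset.mem_singleton.1 hx]
        exact Vale.Agent.P019.mem_adj _ _
    exact h1 hm
  obtain ⟨c1, hc1, hc10, k, hk, -⟩ := ab_mono h.pne (hV.ne hϖ) hz' (pow_ne_zero _ hz0)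
  obtain ⟨d, hd, hd0, hdv⟩ := hV c1 hc1 hc10
  refine ⟨m, d⁻¹, k, l.inv_mem hd, inv_ne_zero hd0, ?_⟩
  have h1 : z ^ ringExpChar L ^ m * d⁻¹ * ϖ ^ k =
      (z ^ ringExpChar L ^ m * c1 * ϖ ^ k) * (c1 * d)⁻¹ := by
    have := zpow_ne_zero k h.pne
    field_simp
  rw [h1, map_mul, hk, map_inv₀, hdv, inv_one, one_mul]

end Vale.Agent.P019P
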