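import Vale.Agent.P019R.MonB
import Vale.Agent.P019R.MonC
import Vale.Agent.P019R.MonD
import Vale.Agent.P019R.MonE1

/-!
# Approximation of monomial valuation rings
-/

namespace Vale.Agent.P019P

open Vale.Agent.P019

set_option linter.unusedSectionVars false

variable {L : Type*} [Field L] {l : Subfield L} {w : ValuationSubring L} {ρ ϖ : L}

theorem mone_small {q : ValuationSubring L} {c₀ : L} {n : ℤ}
    (hq : QMon l w q (ρ * (c₀ * ϖ ^ n)⁻¹) ϖ) (hc₀ : c₀ ∈ l) (hc₀0 : c₀ ≠ 0) (hρ : ρ ≠ 0)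
    {m : L × ℤ × ℤ} (hm : m.1 ∈ l) (hm0 : m.1 ≠ 0)
    (h : w.valuation (m.1 * c₀ ^ m.2.1) < 1 ∨
      w.valuation (m.1 * c₀ ^ m.2.1) = 1 ∧ 0 < n * m.2.1 + m.2.2) :
    q.valuation (m.1 * ρ ^ m.2.1 * ϖ ^ m.2.2) < 1 := by
  have hϖ := hq.pne
  have h1 : m.1 * ρ ^ m.2.1 * ϖ ^ m.2.2 =
      (m.1 * c₀ ^ m.2.1) * (ρ * (c₀ * ϖ ^ n)⁻¹) ^ m.2.1 * ϖ ^ (n * m.2.1 + m.2.2) := by
    rw [mul_zpow, inv_zpow, mul_zpow, zpow_add₀ hϖ, ← zpow_mul]
    have h2 : c₀ ^ m.2.1 ≠ 0 := zpow_ne_zero _ hc₀0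
    have h3 : ϖ ^ (n * m.2.1) ≠ 0 := zpow_ne_zero _ hϖ
    field_simp
  rw [h1, hq.lt_iff (l.mul_mem hm (l.zpow_mem hc₀ _)) (mul_ne_zero hm0 (zpow_ne_zero _ hc₀0))]
  exact h

/-- approximation on finite sets. -/
theorem mon_point [PerfectField L] [DecidableEq L] (hl : IsAlgClosed l) (h : Mon l w ρ ϖ)
    (S : Finset L) (hS : ∀ z ∈ S, z ∈ gsp l {ρ, ϖ}) :
    ∃ (q : ValuationSubring L) (c₀ : L) (n : ℤ), c₀ ∈ l ∧ c₀ ≠ 0 ∧
      QMon l w q (ρ * (c₀ * ϖ ^ n)⁻¹) ϖ ∧ ∀ z ∈ S, z ∈ w ↔ z ∈ q := by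
  classical
  have hg : ∀ z : L, ∃ (m : ℕ) (c : L) (a b : ℤ) (M : Finset (L × ℤ × ℤ)), z ∈ S → z ≠ 0 →
      c ∈ l ∧ c ≠ 0 ∧
      (∀ m ∈ M, m.1 ∈ l ∧ m.1 ≠ 0 ∧ w.valuation (m.1 * ρ ^ m.2.1 * ϖ ^ m.2.2) < 1) ∧
      ∀ q : ValuationSubring L,
        (∀ m ∈ M, q.valuation (m.1 * ρ ^ m.2.1 * ϖ ^ m.2.2) < 1) →
        q.valuation (z ^ (ringExpChar L) ^ m * c * ρ ^ a * ϖ ^ b) = 1 := by
    intro z
    by_cases hz : z ∈ S ∧ z ≠ 0
    · obtain ⟨m, c, a, b, h1, h2, M, h3, h4⟩ := mon_gsp h hz.2 (hS z hz.1)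
      exact ⟨m, c, a, b, M, fun _ _ => ⟨h1, h2, h3, h4⟩⟩
    · exact ⟨0, 0, 0, 0, ∅, fun h1 h2 => absurd ⟨h1, h2⟩ hz⟩
  choose m c a b M hM using hg
  -- the monomials themselves
  let M' : L → Finset (L × ℤ × ℤ) := fun z =>
    {x ∈ ({(c z, a z, b z), ((c z)⁻¹, -a z, -b z)} : Finset (L × ℤ × ℤ)) |
      w.valuation (x.1 * ρ ^ x.2.1 * ϖ ^ x.2.2) < 1}
  let S' := S.filter (fun z => z ≠ 0)
  have hSS : ∀ z ∈ S', z ∈ S ∧ z ≠ 0 := fun z hz => Finset.mem_filter.1 hz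
  obtain ⟨c₀, n, hc₀, hc₀0, hc⟩ := mon_choose hl h (S'.biUnion fun z => M z ∪ M' z) (by
    intro x hx
    rw [Finset.mem_biUnion] at hx
    obtain ⟨z, hz, hx⟩ := hx
    obtain ⟨hz1, hz2⟩ := hSS z hz
    obtain ⟨h1, h2, h3, -⟩ := hM z hz1 hz2
    rcases Finset.mem_union.1 hx with hx | hx
    · exact h3 x hx
    · obtain ⟨hx1, hx2⟩ := Finset.mem_filter.1 hx
      rw [Finset.mem_insert, Finset.mem_singleton] at hx1
      rcases hx1 with rfl | rfl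
      · exact ⟨h1, h2, hx2⟩
      · exact ⟨l.inv_mem h1, inv_ne_zero h2, hx2⟩)
  obtain ⟨q, hq⟩ := exists_qmon (w := w) (h.indep hc₀ hc₀0 n)
  refine ⟨q, c₀, n, hc₀, hc₀0, hq, fun z hz => ?_⟩
  by_cases hz0 : z = 0
  · rw [hz0]
    exact ⟨fun _ => q.zero_mem, fun _ => w.zero_mem⟩
  have hzS : z ∈ S' := Finset.mem_filter.2 ⟨hz, hz0⟩
  obtain ⟨h1, h2, h3, h4⟩ := hM z hz hz0
  have hsm : ∀ x ∈ M z ∪ M' z, q.valuation (x.1 * ρ ^ x.2.1 * ϖ ^ x.2.2) < 1 := by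
    intro x hx
    have hx' : x.1 ∈ l ∧ x.1 ≠ 0 := by
      rcases Finset.mem_union.1 hx with hx | hx
      · exact ⟨(h3 x hx).1, (h3 x hx).2.1⟩
      · obtain ⟨hx1, -⟩ := Finset.mem_filter.1 hx
        rw [Finset.mem_insert, Finset.mem_singleton] at hx1
        rcases hx1 with rfl | rfl
        · exact ⟨h1, h2⟩
        · exact ⟨l.inv_mem h1, inv_ne_zero h2⟩
    exact mone_small hq hc₀ hc₀0 h.rne hx'.1 hx'.2
      (hc x (Finset.mem_biUnion.2 ⟨z, hzS, hx⟩))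
  have hu_q := h4 q fun x hx => hsm x (Finset.mem_union_left _ hx)
  have hu_w := h4 w fun x hx => (h3 x hx).2.2
  -- the monomial
  set μ := c z * ρ ^ a z * ϖ ^ b z with hμ
  have hμ0 : μ ≠ 0 := mul_ne_zero (mul_ne_zero h2 (zpow_ne_zero _ h.rne)) (zpow_ne_zero _ h.pne)
  have hinv : (c z)⁻¹ * ρ ^ (-a z) * ϖ ^ (-b z) = μ⁻¹ := by
    rw [hμ, mul_inv, mul_inv, zpow_neg, zpow_neg]
  have key : (w.valuation μ ≤ 1 ↔ q.valuation μ ≤ 1) ∧ (1 ≤ w.valuation μ ↔ 1 ≤ q.valuation μ) := by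
    have e1 : w.valuation μ < 1 → q.valuation μ < 1 := by
      intro hlt
      exact hsm (c z, a z, b z) (Finset.mem_union_right _ (Finset.mem_filter.2
        ⟨Finset.mem_insert_self _ _, hlt⟩))
    have e2 : 1 < w.valuation μ → 1 < q.valuation μ := by
      intro hlt
      have h5 : w.valuation μ⁻¹ < 1 := by
        rw [map_inv₀]
        exact inv_lt_one_of_one_lt₀ hlt
      have h6 := hsm ((c z)⁻¹, -a z, -b z) (Finset.mem_union_right _ (Finset.mem_filter.2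
        ⟨Finset.mem_insert_of_mem (Finset.mem_singleton_self _), by
          change w.valuation ((c z)⁻¹ * ρ ^ (-a z) * ϖ ^ (-b z)) < 1
          rwa [hinv]⟩))
      change q.valuation ((c z)⁻¹ * ρ ^ (-a z) * ϖ ^ (-b z)) < 1 at h6
      rw [hinv, map_inv₀] at h6
      by_contra hcon
      push Not at hcon
      have h7 : 0 < q.valuation μ := zero_lt_iff.2 ((_root_.map_ne_zero _).2 hμ0)
      exact absurd h6 (not_lt.2 ((one_le_inv₀ h7).2 hcon))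
    have e3 : w.valuation μ = 1 → q.valuation μ = 1 := by
      intro heq
      obtain ⟨h5, h6, h7⟩ := (h.one_iff h1 h2 _ _).1 heq
      rw [hμ, h6, h7, zpow_zero, zpow_zero, mul_one, mul_one]
      exact ((hq.val_iff h1 h2).2).2 h5
    rcases lt_trichotomy (w.valuation μ) 1 with h5 | h5 | h5
    · have h6 := e1 h5
      exact ⟨⟨fun _ => h6.le, fun _ => h5.le⟩, ⟨fun h7 => absurd h5 (not_lt.2 h7),
        fun h7 => absurd h6 (not_lt.2 h7)⟩⟩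
    · have h6 := e3 h5
      rw [h5, h6]
      exact ⟨⟨fun _ => le_rfl, fun _ => le_rfl⟩, ⟨fun _ => le_rfl, fun _ => le_rfl⟩⟩
    · have h6 := e2 h5
      exact ⟨⟨fun h7 => absurd h5 (not_lt.2 h7), fun h7 => absurd h6 (not_lt.2 h7)⟩,
        ⟨fun _ => h6.le, fun _ => h5.le⟩⟩
  have hform : z ^ (ringExpChar L) ^ m z * c z * ρ ^ a z * ϖ ^ b z =
      z ^ (ringExpChar L) ^ m z * μ := by
    rw [hμ]
    ring
  rw [hform, map_mul, map_pow] at hu_q hu_w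
  have hp : (ringExpChar L) ^ m z ≠ 0 := pow_ne_zero _ (by
    rcases expChar_is_prime_or_one L (ringExpChar L) with h5 | h5
    · exact h5.ne_zero
    · rw [h5]
      exact one_ne_zero)
  have hval : ∀ v : ValuationSubring L, v.valuation z ^ (ringExpChar L) ^ m z * v.valuation μ = 1 →
      (z ∈ v ↔ 1 ≤ v.valuation μ) := by
    intro v hv
    have hv0 : 0 < v.valuation μ := zero_lt_iff.2 ((_root_.map_ne_zero _).2 hμ0)
    rw [← v.valuation_le_one_iff, ← pow_le_one_iff hp, eq_inv_of_mul_eq_one_left hv,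
      inv_le_one₀ hv0]
  rw [hval w hu_w, hval q hu_q]
  exact key.2

end Vale.Agent.P019P
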