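import Vale.Agent.P019R.MonA
import Vale.Agent.P019P.Unif

/-!
# Functionals of valuation rings with constants
-/

namespace Vale.Agent.P019P

open Vale.Agent.P019

variable {L : Type*} [Field L] {l : Subfield L} {ℓ : ℕ} [Fact ℓ.Prime]

theorem monf_wd {q : ValuationSubring L} {ϖ : L} (hϖ0 : ϖ ≠ 0)
    (hind : ∀ c ∈ l, c ≠ 0 → ∀ b : ℤ, q.valuation (c * ϖ ^ b) = 1 → b = 0)
    {x : L} (hx : x ≠ 0) {n n' : ℕ} {c c' : L} (hc : c ∈ l) (hc0 : c ≠ 0) (hc' : c' ∈ l)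
    (hc0' : c' ≠ 0) {b b' : ℤ} (h : q.valuation (x ^ n * c * ϖ ^ b) = 1)
    (h' : q.valuation (x ^ n' * c' * ϖ ^ b') = 1) : b * n' = b' * n := by
  have h1 : q.valuation ((x ^ n * c * ϖ ^ b) ^ n' / (x ^ n' * c' * ϖ ^ b') ^ n) = 1 := by
    rw [map_div₀, map_pow, map_pow, h, h', one_pow, one_pow, div_one]
  have e : (x ^ n * c * ϖ ^ b) ^ n' / (x ^ n' * c' * ϖ ^ b') ^ n =
      (c ^ n' / c' ^ n) * ϖ ^ (b * n' - b' * n) := by
    rw [mul_pow, mul_pow, mul_pow, mul_pow, ← pow_mul, ← pow_mul, mul_comm n' n,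
      zpow_sub₀ hϖ0, zpow_mul, zpow_mul, zpow_natCast, zpow_natCast]
    field_simp
  rw [e] at h1
  have h2 := hind _ (l.div_mem (l.pow_mem hc n') (l.pow_mem hc' n))
    (div_ne_zero (pow_ne_zero _ hc0) (pow_ne_zero _ hc0')) _ h1
  omega

/-- the functional `x ↦ - b / n` for `x ^ n * c * ϖ ^ b` a unit.
Proof. Well defined by `hind` (two representations `x ^ n * c * ϖ ^ b`, `x ^ n' * c' * ϖ ^ b'`
give `n * b' = n' * b`), a homomorphism `Lˣ → ZMod ℓ`, hence it factors through `V ℓ L`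
(compare the construction of `IsUnif.fn` in `P019P/Unif.lean`, `P019P/Fld.lean`). -/
theorem mon_fn {q : ValuationSubring L} {ϖ : L} (hϖ0 : ϖ ≠ 0)
    (hrep : ∀ x : L, x ≠ 0 → ∃ n : ℕ, ¬ ℓ ∣ n ∧ ∃ c ∈ l, c ≠ 0 ∧ ∃ b : ℤ,
      q.valuation (x ^ n * c * ϖ ^ b) = 1)
    (hind : ∀ c ∈ l, c ≠ 0 → ∀ b : ℤ, q.valuation (c * ϖ ^ b) = 1 → b = 0) :
    ∃ h : V ℓ L →ₗ[ZMod ℓ] ZMod ℓ, (∀ z, q.valuation z = 1 → h (cl ℓ z) = 0) ∧
      h (cl ℓ ϖ) = 1 := by
  have hℓ : ℓ.Prime := Fact.out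
  choose! n hn c hc hc0 b hb using hrep
  have hnz : ∀ m : ℕ, ¬ ℓ ∣ m → (m : ZMod ℓ) ≠ 0 := fun m hm h0 =>
    hm ((CharP.cast_eq_zero_iff (ZMod ℓ) ℓ m).1 h0)
  have key : ∀ x : L, x ≠ 0 → ∀ m : ℕ, ¬ ℓ ∣ m → ∀ d ∈ l, d ≠ 0 → ∀ a : ℤ,
      q.valuation (x ^ m * d * ϖ ^ a) = 1 →
      -(b x : ZMod ℓ) / (n x : ZMod ℓ) = -(a : ZMod ℓ) / (m : ZMod ℓ) := by
    intro x hx m hm d hd hd0 a ha
    have h1 := monf_wd hϖ0 hind hx (hc x hx) (hc0 x hx) hd hd0 (hb x hx) ha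
    have h2 : (b x : ZMod ℓ) * m = a * n x := by exact_mod_cast congrArg (Int.cast : ℤ → ZMod ℓ) h1
    rw [div_eq_div_iff (hnz _ (hn x hx)) (hnz _ hm)]
    linear_combination -h2
  have hndvd1 : ¬ ℓ ∣ 1 := fun h => hℓ.one_lt.ne' (Nat.dvd_one.1 h)
  let φ : Lˣ →* Multiplicative (ZMod ℓ) :=
    { toFun := fun x => Multiplicative.ofAdd (-(b (x : L) : ZMod ℓ) / (n (x : L) : ZMod ℓ))
      map_one' := by
        have h1 := key 1 one_ne_zero 1 hndvd1 1 l.one_mem one_ne_zero 0 (by simp)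
        rw [Units.val_one, h1]
        simp
      map_mul' := by
        intro x y
        have hx : (x : L) ≠ 0 := x.ne_zero
        have hy : (y : L) ≠ 0 := y.ne_zero
        have h1 := key ((x : L) * y) (mul_ne_zero hx hy) (n x * n y)
          (fun h => (hℓ.dvd_mul.1 h).elim (hn x hx) (hn y hy))
          (c x ^ n y * c y ^ n x) (l.mul_mem (l.pow_mem (hc x hx) _) (l.pow_mem (hc y hy) _))
          (mul_ne_zero (pow_ne_zero _ (hc0 x hx)) (pow_ne_zero _ (hc0 y hy)))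
          (b x * n y + b y * n x) (by
            have e : ((x : L) * y) ^ (n x * n y) * (c x ^ n y * c y ^ n x) *
                ϖ ^ (b x * n y + b y * n x) =
                ((x : L) ^ n x * c x * ϖ ^ b x) ^ n y * ((y : L) ^ n y * c y * ϖ ^ b y) ^ n x := by
              rw [mul_pow, mul_pow, mul_pow, mul_pow, mul_pow, ← pow_mul, ← pow_mul,
                mul_comm (n y) (n x), zpow_add₀ hϖ0, zpow_mul, zpow_mul, zpow_natCast,
                zpow_natCast]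
              ring
            rw [e, map_mul, map_pow, map_pow, hb x hx, hb y hy, one_pow, one_pow, one_mul])
        rw [Units.val_mul, h1, ← ofAdd_add]
        congr 1
        have hx' := hnz _ (hn x hx)
        have hy' := hnz _ (hn y hy)
        push_cast
        field_simp
        ring }
  have hval : ∀ z : L, z ≠ 0 → V.lift φ (cl ℓ z) = -(b z : ZMod ℓ) / (n z : ZMod ℓ) := by
    intro z hz
    rw [cl_of_ne ℓ hz, V.lift_mk]
    rfl
  refine ⟨V.lift φ, ?_, ?_⟩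
  · intro z hz
    have hz0 : z ≠ 0 := by
      rintro rfl
      rw [map_zero] at hz
      exact zero_ne_one hz
    rw [hval z hz0, key z hz0 1 hndvd1 1 l.one_mem one_ne_zero 0 (by simpa using hz)]
    simp
  · rw [hval ϖ hϖ0, key ϖ hϖ0 1 hndvd1 1 l.one_mem one_ne_zero (-1) (by
      rw [pow_one, mul_one, zpow_neg_one, mul_inv_cancel₀ hϖ0, map_one])]
    simp

end Vale.Agent.P019P
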