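import Vale.Agent.P019R.MonG2

/-!
# Polynomials over the residue field
-/

namespace Vale.Agent.P019P

open Polynomial

section mongC

variable {L : Type*} [Field L] {l : Subfield L} {q : ValuationSubring L} {u ϖ : L}

theorem mong_mult {κ : Type*} [Field κ] {ℓ N : ℕ} (hℓ : ℓ.Prime) (hN : ¬ ℓ ∣ N)
    {a a' b b' : κ} (h1 : a ≠ a') (h2 : a ≠ b) (h3 : a ≠ b') {i j i' j' : ℕ} (hi : i < ℓ)
    {G H : κ[X]} (hG : G ≠ 0) (hH : H ≠ 0)
    (h : ((X - C a) ^ i * (X - C a') ^ j) ^ N * H ^ ℓ =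
      ((X - C b) ^ i' * (X - C b') ^ j') ^ N * G ^ ℓ) : i = 0 := by
  classical
  have hne : ∀ c : κ, ∀ n : ℕ, (X - C c) ^ n ≠ 0 := fun c n => pow_ne_zero _ (X_sub_C_ne_zero c)
  have key : ∀ (c d : κ) (m n : ℕ) (F : κ[X]), F ≠ 0 →
      (((X - C c) ^ m * (X - C d) ^ n) ^ N * F ^ ℓ).roots.count a =
        N * (m * ({c} : Multiset κ).count a + n * ({d} : Multiset κ).count a) +
          ℓ * F.roots.count a := by
    intro c d m n F hF
    rw [roots_mul (mul_ne_zero (pow_ne_zero _ (mul_ne_zero (hne _ _) (hne _ _)))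
      (pow_ne_zero _ hF)), roots_pow, roots_pow, roots_mul (mul_ne_zero (hne _ _) (hne _ _)),
      roots_pow, roots_pow, roots_X_sub_C, roots_X_sub_C]
    simp only [Multiset.count_add, Multiset.count_nsmul]
  have h4 := congrArg (fun P : κ[X] => P.roots.count a) h
  beta_reduce at h4
  rw [key _ _ _ _ _ hH, key _ _ _ _ _ hG, Multiset.count_singleton_self,
    Multiset.count_singleton, Multiset.count_singleton, Multiset.count_singleton,
    if_neg h1, if_neg h2, if_neg h3] at h4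
  have h5 : ℓ ∣ N * i := by
    have h6 : N * i + ℓ * H.roots.count a = ℓ * G.roots.count a := by
      simpa using h4
    rw [Nat.dvd_add_iff_left (Dvd.intro _ rfl), h6]
    exact Dvd.intro _ rfl
  rcases hℓ.dvd_mul.1 h5 with h6 | h6
  · exact absurd h6 hN
  · exact Nat.eq_zero_of_dvd_of_lt h6 hi

theorem mong_pow {x y : L} (hx : q.valuation x ≤ 1) (hy : q.valuation y ≤ 1)
    (h : q.valuation (x - y) < 1) (n : ℕ) : q.valuation (x ^ n - y ^ n) < 1 := by
  induction n with
  | zero => simp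
  | succ n ih =>
    have h1 : x ^ (n + 1) - y ^ (n + 1) = x * (x ^ n - y ^ n) + y ^ n * (x - y) := by ring
    rw [h1]
    refine lt_of_le_of_lt (Valuation.map_add _ _ _) (max_lt ?_ ?_)
    · rw [map_mul]
      exact mul_lt_one_of_nonneg_of_lt_one_right hx zero_le ih
    · rw [map_mul, map_pow]
      exact mul_lt_one_of_nonneg_of_lt_one_right (pow_le_one₀ zero_le hy) zero_le h

/-- the valuation ring of `l`. -/
abbrev qres (l : Subfield L) (q : ValuationSubring L) : ValuationSubring l :=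
  q.comap (algebraMap l L)

theorem mong_lt {g : l[X]} (uq : u ∈ q) (hg : ∀ i, q.valuation (g.coeff i : L) < 1) :
    q.valuation (aeval u g) < 1 := by
  have hu1 : q.valuation u ≤ 1 := (q.valuation_le_one_iff u).2 uq
  rw [aeval_eq_sum_range]
  refine Valuation.map_sum_lt _ one_ne_zero fun i _ => ?_
  rw [Algebra.smul_def, map_mul, map_pow]
  exact mul_lt_one_of_lt_of_le (hg i) (pow_le_one₀ zero_le hu1)

theorem qres_mem_max (x : qres l q) :
    x ∈ IsLocalRing.maximalIdeal (qres l q) ↔ q.valuation ((x : l) : L) < 1 := by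
  rw [IsLocalRing.mem_maximalIdeal, mem_nonunits_iff]
  by_cases h0 : (x : l) = 0
  · have h1 : x = 0 := Subtype.ext h0
    rw [h1]
    simp
  · have h0' : ((x : l) : L) ≠ 0 := fun h => h0 (Subtype.ext h)
    have hxq : q.valuation ((x : l) : L) ≤ 1 := (q.valuation_le_one_iff _).2 x.2
    constructor
    · intro h
      refine lt_of_le_of_ne hxq fun h1 => h ?_
      have h2 : (x : l)⁻¹ ∈ qres l q := by
        change algebraMap l L (x : l)⁻¹ ∈ q
        rw [map_inv₀]
        change ((x : l) : L)⁻¹ ∈ q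
        rw [← q.valuation_le_one_iff, map_inv₀, h1, inv_one]
      refine ⟨⟨x, ⟨_, h2⟩, ?_, ?_⟩, rfl⟩
      · apply Subtype.ext
        exact mul_inv_cancel₀ h0
      · apply Subtype.ext
        exact inv_mul_cancel₀ h0
    · rintro h ⟨y, hy⟩
      have h1 : (x : l) * ((y⁻¹ : (qres l q)ˣ) : qres l q) = (1 : l) := by
        have h2 : x * ((y⁻¹ : (qres l q)ˣ) : qres l q) = 1 := by
          rw [← hy]
          exact y.mul_inv
        exact congrArg Subtype.val h2
      have h3 : ((x : l) : L) * ((((y⁻¹ : (qres l q)ˣ) : qres l q) : l) : L) = 1 :=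
        congrArg Subtype.val h1
      have h4 : q.valuation (((((y⁻¹ : (qres l q)ˣ) : qres l q) : l) : L)) ≤ 1 :=
        (q.valuation_le_one_iff _).2 ((y⁻¹ : (qres l q)ˣ) : qres l q).2
      have h5 := congrArg q.valuation h3
      rw [map_mul, map_one] at h5
      exact absurd h5 (mul_lt_one_of_lt_of_le h h4).ne

theorem mong_rho [IsAlgClosed l] (uq : u ∈ q)
    (ures : ∀ c ∈ l, c ∈ q → q.valuation (u - c) = 1) {D : (qres l q)[X]}
    (h : q.valuation (aeval u (D.map (qres l q).subtype)) < 1) :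
    D.map (IsLocalRing.residue (qres l q)) = 0 := by
  have h1 : ∀ i, q.valuation ((D.map (qres l q).subtype).coeff i : L) ≤ 1 := by
    intro i
    rw [coeff_map]
    exact (q.valuation_le_one_iff _).2 (D.coeff i).2
  ext i
  rw [coeff_map, coeff_zero, IsLocalRing.residue_eq_zero_iff, qres_mem_max]
  have h2 := mong_gauss uq ures h1 h i
  rw [coeff_map] at h2
  exact h2

theorem mong_rho_ne (uq : u ∈ q) {D : (qres l q)[X]}
    (h : q.valuation (aeval u (D.map (qres l q).subtype)) = 1) :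
    D.map (IsLocalRing.residue (qres l q)) ≠ 0 := by
  intro h0
  refine absurd h (mong_lt uq fun i => ?_).ne
  rw [coeff_map]
  have h1 : (D.map (IsLocalRing.residue (qres l q))).coeff i = 0 := by rw [h0, coeff_zero]
  rw [coeff_map, IsLocalRing.residue_eq_zero_iff, qres_mem_max] at h1
  exact h1

theorem mong_lift {G : l[X]} (hG : ∀ i, q.valuation (G.coeff i : L) ≤ 1) :
    ∃ G' : (qres l q)[X], G'.map (qres l q).subtype = G := by
  have h1 : G ∈ lifts (qres l q).subtype := by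
    rw [lifts_iff_coeff_lifts]
    intro i
    exact ⟨⟨G.coeff i, (q.valuation_le_one_iff _).1 (hG i)⟩, rfl⟩
  exact (mem_lifts _).1 h1

/-- the multiplicity argument. -/
theorem mong_final [IsAlgClosed l] (uq : u ∈ q)
    (ures : ∀ c ∈ l, c ∈ q → q.valuation (u - c) = 1) (pne : ϖ ≠ 0) (plt : q.valuation ϖ < 1)
    (inf : ∀ c ∈ l, c ≠ 0 → q.valuation c < 1 → ∀ b : ℤ, q.valuation c < q.valuation ϖ ^ b)
    {ℓ N : ℕ} (hℓ : ℓ.Prime) (hN : ¬ ℓ ∣ N) {a a' b b' : L} (ha : a ∈ l ∧ a ∈ q)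
    (ha' : a' ∈ l ∧ a' ∈ q) (hb : b ∈ l ∧ b ∈ q) (hb' : b' ∈ l ∧ b' ∈ q)
    (h1 : q.valuation (a - a') = 1) (h2 : q.valuation (a - b) = 1)
    (h3 : q.valuation (a - b') = 1) {i j i' j' : ℕ} (hi : i < ℓ) {z : L}
    (hz : z ∈ l ⊔ Subfield.closure ({u, ϖ} : Set L)) (hz1 : q.valuation z = 1)
    (h : q.valuation (((u - a) ^ i * (u - a') ^ j) ^ N -
      ((u - b) ^ i' * (u - b') ^ j') ^ N * z ^ ℓ) < 1) : i = 0 := by
  obtain ⟨G, H, hG, hH, hGu, hHu, hzz⟩ := mong_unit uq ures pne plt inf hz hz1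
  obtain ⟨G', rfl⟩ := mong_lift hG
  obtain ⟨H', rfl⟩ := mong_lift hH
  let A : qres l q := ⟨⟨a, ha.1⟩, ha.2⟩
  let A' : qres l q := ⟨⟨a', ha'.1⟩, ha'.2⟩
  let B : qres l q := ⟨⟨b, hb.1⟩, hb.2⟩
  let B' : qres l q := ⟨⟨b', hb'.1⟩, hb'.2⟩
  let D : (qres l q)[X] := ((X - C A) ^ i * (X - C A') ^ j) ^ N * H' ^ ℓ -
    ((X - C B) ^ i' * (X - C B') ^ j') ^ N * G' ^ ℓ
  have hD : aeval u (D.map (qres l q).subtype) =
      ((u - a) ^ i * (u - a') ^ j) ^ N * aeval u (H'.map (qres l q).subtype) ^ ℓ -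
        ((u - b) ^ i' * (u - b') ^ j') ^ N * aeval u (G'.map (qres l q).subtype) ^ ℓ := by
    simp only [D, Polynomial.map_sub, Polynomial.map_mul, Polynomial.map_pow, map_X, map_C,
      map_sub, map_mul, map_pow, aeval_X, aeval_C]
    rfl
  have hval : ∀ c : L, c ∈ q → q.valuation (u - c) ≤ 1 := by
    intro c hc
    exact (Valuation.map_sub _ _ _).trans (max_le ((q.valuation_le_one_iff u).2 uq)
      ((q.valuation_le_one_iff c).2 hc))
  have hfb : q.valuation (((u - b) ^ i' * (u - b') ^ j') ^ N) ≤ 1 := by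
    rw [map_pow, map_mul, map_pow, map_pow]
    exact pow_le_one₀ zero_le (mul_le_one₀ (pow_le_one₀ zero_le (hval b hb.2)) zero_le
      (pow_le_one₀ zero_le (hval b' hb'.2)))
  have hDlt : q.valuation (aeval u (D.map (qres l q).subtype)) < 1 := by
    have e1 : aeval u (D.map (qres l q).subtype) =
        (((u - a) ^ i * (u - a') ^ j) ^ N - ((u - b) ^ i' * (u - b') ^ j') ^ N * z ^ ℓ) *
          aeval u (H'.map (qres l q).subtype) ^ ℓ +
        ((u - b) ^ i' * (u - b') ^ j') ^ N *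
          ((z * aeval u (H'.map (qres l q).subtype)) ^ ℓ -
            aeval u (G'.map (qres l q).subtype) ^ ℓ) := by
      rw [hD]
      ring
    rw [e1]
    refine lt_of_le_of_lt (Valuation.map_add _ _ _) (max_lt ?_ ?_)
    · rw [map_mul, map_pow, hHu, one_pow, mul_one]
      exact h
    · rw [map_mul]
      refine mul_lt_one_of_nonneg_of_lt_one_right hfb zero_le (mong_pow ?_ hGu.le hzz ℓ)
      rw [map_mul, hz1, hHu, one_mul]
  have hD0 := mong_rho uq ures hDlt
  have hne : ∀ x y : qres l q, q.valuation (((x : l) : L) - ((y : l) : L)) = 1 →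
      IsLocalRing.residue (qres l q) x ≠ IsLocalRing.residue (qres l q) y := by
    intro x y hxy heq
    rw [← sub_eq_zero, ← map_sub, IsLocalRing.residue_eq_zero_iff, qres_mem_max] at heq
    exact absurd hxy heq.ne
  simp only [D, Polynomial.map_sub, Polynomial.map_mul, Polynomial.map_pow, map_X, map_C] at hD0
  exact mong_mult hℓ hN (hne A A' h1) (hne A B h2) (hne A B' h3) hi
    (mong_rho_ne uq hGu) (mong_rho_ne uq hHu) (sub_eq_zero.1 hD0)

end mongC

end Vale.Agent.P019P
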