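import Vale.Agent.P019P.FK

/-!
# Kummer theory in the residue field
-/

namespace Vale.Agent.P019P

open Vale.Agent.P019

section mongD

variable {L : Type*} [Field L] (q : ValuationSubring L)

/-- the residue map to an algebraic closure of the residue field. -/
noncomputable def rsO : q →+* AlgebraicClosure (IsLocalRing.ResidueField q) :=
  (algebraMap (IsLocalRing.ResidueField q) _).comp (IsLocalRing.residue q)

variable {q}

theorem rsO_eq_zero {x : q} : rsO q x = 0 ↔ q.valuation (x : L) < 1 := by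
  rw [rsO, RingHom.comp_apply, map_eq_zero, IsLocalRing.residue_eq_zero_iff,
    q.valuation_lt_one_iff]

theorem rsO_eq {x y : q} : rsO q x = rsO q y ↔ q.valuation ((x : L) - y) < 1 := by
  rw [← sub_eq_zero, ← map_sub, rsO_eq_zero]
  rfl

variable (q)

/-- the residues of the elements of a subfield. -/
noncomputable def rsS (M : Subfield L) :
    Subfield (AlgebraicClosure (IsLocalRing.ResidueField q)) where
  carrier := {z | ∃ x : q, (x : L) ∈ M ∧ rsO q x = z}
  mul_mem' := by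
    rintro _ _ ⟨x, hx, rfl⟩ ⟨y, hy, rfl⟩
    exact ⟨x * y, M.mul_mem hx hy, map_mul _ _ _⟩
  one_mem' := ⟨1, M.one_mem, map_one _⟩
  add_mem' := by
    rintro _ _ ⟨x, hx, rfl⟩ ⟨y, hy, rfl⟩
    exact ⟨x + y, M.add_mem hx hy, map_add _ _ _⟩
  zero_mem' := ⟨0, M.zero_mem, map_zero _⟩
  neg_mem' := by
    rintro _ ⟨x, hx, rfl⟩
    exact ⟨-x, M.neg_mem hx, map_neg _ _⟩
  inv_mem' := by
    rintro _ ⟨x, hx, rfl⟩
    by_cases h0 : rsO q x = 0
    · rw [h0, inv_zero]
      exact ⟨0, M.zero_mem, map_zero _⟩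
    · have h1 : q.valuation (x : L) = 1 :=
        le_antisymm ((q.valuation_le_one_iff _).2 x.2) (not_lt.1 fun h => h0 (rsO_eq_zero.2 h))
      have h2 : (x : L)⁻¹ ∈ q := by
        rw [← q.valuation_le_one_iff, map_inv₀, h1, inv_one]
      have hx0 : (x : L) ≠ 0 := by
        intro h
        rw [h, map_zero] at h1
        exact zero_ne_one h1
      refine ⟨⟨(x : L)⁻¹, h2⟩, M.inv_mem hx, ?_⟩
      apply eq_inv_of_mul_eq_one_left
      rw [← map_mul]
      have h3 : (⟨(x : L)⁻¹, h2⟩ : q) * x = 1 := Subtype.ext (inv_mul_cancel₀ hx0)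
      rw [h3, map_one]

variable {q}

theorem mem_rsS {M : Subfield L} {z : AlgebraicClosure (IsLocalRing.ResidueField q)} :
    z ∈ rsS q M ↔ ∃ x : q, (x : L) ∈ M ∧ rsO q x = z := Iff.rfl

/-- non-trivial roots of unity are not congruent to `1`. -/
theorem mong_root {η : L} {N : ℕ} (h1 : η ^ N = 1) (hη : η ≠ 1)
    (hN : q.valuation (N : L) = 1) : q.valuation (1 - η) = 1 := by
  have hN0 : N ≠ 0 := by
    rintro rfl
    rw [Nat.cast_zero, map_zero] at hN
    exact zero_ne_one hN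
  have hv : q.valuation η = 1 := by
    have h2 := congrArg q.valuation h1
    rw [map_pow, map_one] at h2
    exact (pow_eq_one_iff_of_nonneg zero_le hN0).1 h2
  have hle : q.valuation (1 - η) ≤ 1 := by
    refine (Valuation.map_sub _ _ _).trans (max_le ?_ hv.le)
    rw [map_one]
  refine le_antisymm hle (not_lt.1 fun hlt => ?_)
  have h3 : ∑ i ∈ Finset.range N, η ^ i = 0 := by
    have h4 := geom_sum_mul η N
    rw [h1, sub_self] at h4
    exact (mul_eq_zero.1 h4).resolve_right (sub_ne_zero.2 hη)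
  have h5 : (N : L) = ∑ i ∈ Finset.range N, (1 - η ^ i) := by
    rw [Finset.sum_sub_distrib, h3, sub_zero, Finset.sum_const, Finset.card_range, nsmul_eq_mul,
      mul_one]
  have h6 : q.valuation (N : L) < 1 := by
    rw [h5]
    refine Valuation.map_sum_lt _ one_ne_zero fun i _ => ?_
    have h7 : (1 : L) - η ^ i = (1 - η) * ∑ j ∈ Finset.range i, η ^ j := by
      rw [mul_comm, ← neg_sub η 1, mul_neg, geom_sum_mul, neg_sub]
    rw [h7, map_mul]
    refine mul_lt_one_of_lt_of_le hlt ?_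
    refine Valuation.map_sum_le _ fun j _ => ?_
    rw [map_pow, hv, one_pow]
  exact absurd hN h6.ne

/-- Kummer theory: roots of inequivalent elements have linearly independent residues. -/
theorem mong_kummer {ℓ : ℕ} [Fact ℓ.Prime] (M : Subfield L) {ζ : L} (hζM : ζ ∈ M)
    (hζ : IsPrimitiveRoot ζ ℓ) (hℓ : q.valuation (ℓ : L) = 1) {n : ℕ} {y f : Fin n → L}
    (hy : ∀ s, q.valuation (y s) = 1) (hf : ∀ s, f s ∈ M) (hfv : ∀ s, q.valuation (f s) = 1)
    (hyf : ∀ s, q.valuation (y s ^ ℓ - f s) < 1)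
    (hne : ∀ s t, s ≠ t → ∀ N : ℕ, ¬ ℓ ∣ N → ∀ z ∈ M, q.valuation z = 1 →
      ¬ q.valuation (f s ^ N - f t ^ N * z ^ ℓ) < 1) (a : Fin n → L)
    (ha : ∀ i, a i ∈ M ∧ a i ∈ q) (hsum : q.valuation (∑ i, a i * y i) < 1) (i : Fin n) :
    q.valuation (a i) < 1 := by
  classical
  have hℓ0 : ℓ ≠ 0 := (Fact.out : ℓ.Prime).ne_zero
  have hyq : ∀ s, y s ∈ q := fun s => (q.valuation_le_one_iff _).1 (hy s).le
  have hfq : ∀ s, f s ∈ q := fun s => (q.valuation_le_one_iff _).1 (hfv s).le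
  have hζv : q.valuation ζ = 1 := by
    have h2 := congrArg q.valuation hζ.pow_eq_one
    rw [map_pow, map_one] at h2
    exact (pow_eq_one_iff_of_nonneg zero_le hℓ0).1 h2
  have hζq : ζ ∈ q := (q.valuation_le_one_iff _).1 hζv.le
  have hℓq : rsO q (ℓ : q) ≠ 0 := by
    rw [Ne, rsO_eq_zero]
    push_cast
    exact hℓ.not_lt
  have : NeZero (ℓ : AlgebraicClosure (IsLocalRing.ResidueField q)) := ⟨by
    rw [map_natCast] at hℓq
    exact hℓq⟩
  let F := pf (rsS q M)
  let w : Fin n → AlgebraicClosure (IsLocalRing.ResidueField q) := fun s => rsO q ⟨y s, hyq s⟩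
  have hwf : ∀ s, w s ^ ℓ = rsO q ⟨f s, hfq s⟩ := by
    intro s
    change rsO q ⟨y s, hyq s⟩ ^ ℓ = _
    rw [← map_pow, rsO_eq]
    exact hyf s
  have hw0 : ∀ s, w s ≠ 0 := by
    intro s h
    exact absurd (rsO_eq_zero.1 h) (hy s).not_lt
  have hprim : IsPrimitiveRoot (⟨rsO q ⟨ζ, hζq⟩, le_pf _ ⟨⟨ζ, hζq⟩, hζM, rfl⟩⟩ : F) ℓ := by
    have h1 : IsPrimitiveRoot (rsO q ⟨ζ, hζq⟩) ℓ := by
      refine IsPrimitiveRoot.iff_orderOf.2 ?_
      refine orderOf_eq_prime ?_ ?_
      · rw [← map_pow]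
        have h2 : (⟨ζ, hζq⟩ : q) ^ ℓ = 1 := Subtype.ext hζ.pow_eq_one
        rw [h2, map_one]
      · intro h2
        have h3 : rsO q ⟨ζ, hζq⟩ = rsO q 1 := by rw [h2, map_one]
        rw [rsO_eq] at h3
        have h4 := mong_root hζ.pow_eq_one (hζ.ne_one (Fact.out : ℓ.Prime).one_lt) hℓ
        rw [Valuation.map_sub_swap] at h4
        exact absurd h4 h3.ne
    exact IsPrimitiveRoot.of_map_of_injective (f := F.subtype) h1 F.subtype.injective
  have hli : LinearIndependent F w := by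
    refine linearIndependent_roots ℓ _ hprim hw0 (fun s => ?_) ?_
    · refine ⟨⟨rsO q ⟨f s, hfq s⟩, le_pf _ ⟨⟨f s, hfq s⟩, hf s, rfl⟩⟩, ?_⟩
      rw [hwf]
      rfl
    · rintro s t hst ⟨g, hg⟩
      obtain ⟨k, hk⟩ := mem_pf.1 g.2
      obtain ⟨x, hxM, hx⟩ := mem_rsS.1 hk
      set N := ringExpChar (AlgebraicClosure (IsLocalRing.ResidueField q)) ^ k with hN
      have h1 : w s = w t * (g : AlgebraicClosure (IsLocalRing.ResidueField q)) := hg
      have h2 : rsO q ⟨f s, hfq s⟩ ^ N = rsO q ⟨f t, hfq t⟩ ^ N * rsO q x ^ ℓ := by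
        rw [hx, ← hwf, ← hwf, h1]
        ring
      have h3 : rsO q x ≠ 0 := by
        intro h4
        rw [h4, zero_pow hℓ0, mul_zero, ← hwf] at h2
        exact pow_ne_zero _ (pow_ne_zero _ (hw0 s)) h2
      have h4 : q.valuation (x : L) = 1 :=
        le_antisymm ((q.valuation_le_one_iff _).2 x.2) (not_lt.1 fun h => h3 (rsO_eq_zero.2 h))
      have hNℓ : ¬ ℓ ∣ N := by
        intro h5
        have h6 := q_pow_ne_zero ℓ (AlgebraicClosure (IsLocalRing.ResidueField q)) k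
        rw [← hN] at h6
        exact h6 ((ZMod.natCast_eq_zero_iff N ℓ).2 h5)
      refine hne s t hst N hNℓ x hxM h4 ?_
      rw [← map_pow, ← map_pow, ← map_pow, ← map_mul, rsO_eq] at h2
      exact h2
  rw [Fintype.linearIndependent_iff] at hli
  have h1 : ∑ s, (⟨rsO q ⟨a s, (ha s).2⟩, le_pf _ ⟨⟨a s, (ha s).2⟩, (ha s).1, rfl⟩⟩ : F) • w s
      = 0 := by
    have h2 : rsO q (∑ s, ⟨a s, (ha s).2⟩ * ⟨y s, hyq s⟩) = 0 := by
      rw [rsO_eq_zero]
      have h3 : ((∑ s, ⟨a s, (ha s).2⟩ * ⟨y s, hyq s⟩ : q) : L) = ∑ s, a s * y s := by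
        push_cast
        rfl
      rw [h3]
      exact hsum
    rw [map_sum] at h2
    rw [← h2]
    refine Finset.sum_congr rfl fun s _ => ?_
    rw [map_mul]
    rfl
  have h2 := hli _ h1 i
  have h3 : rsO q ⟨a i, (ha i).2⟩ = 0 := congrArg Subtype.val h2
  exact rsO_eq_zero.1 h3

end mongD

end Vale.Agent.P019P
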