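import Vale.Agent.P019R.MonB
import Vale.Agent.P019R.MonG3
import Vale.Agent.P019R.MonG4
import Vale.Agent.P019Q.ApE

/-!
# Non-rigid elements
-/

namespace Vale.Agent.P019P

open Vale.Agent.P019

set_option linter.unusedSectionVars false
set_option linter.style.haveILetI false

variable {L : Type*} [Field L]

/-- elements with linearly independent residues are linearly independent: a relation over `M`
is divided by its coefficient of largest value. -/
theorem mon_resind {M : Subfield L} {q : ValuationSubring L} {n : ℕ} (y : Fin n → L)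
    (hy : ∀ i, y i ∈ q)
    (h : ∀ a : Fin n → L, (∀ i, a i ∈ M ∧ a i ∈ q) → q.valuation (∑ i, a i * y i) < 1 →
      ∀ i, q.valuation (a i) < 1) : LinearIndependent M y := by
  rw [Fintype.linearIndependent_iff]
  intro g hg
  by_contra hcon
  push Not at hcon
  obtain ⟨i₁, hi₁⟩ := hcon
  have hi₁' : (g i₁ : L) ≠ 0 := fun h0 => hi₁ (Subtype.ext h0)
  obtain ⟨i₀, -, hmax⟩ := Finset.exists_max_image Finset.univ
    (fun i => q.valuation (g i : L)) ⟨i₁, Finset.mem_univ _⟩
  have hg0 : (g i₀ : L) ≠ 0 := by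
    intro h0
    have h1 : q.valuation (g i₁ : L) ≤ q.valuation (g i₀ : L) := hmax i₁ (Finset.mem_univ _)
    rw [h0, map_zero] at h1
    exact ((_root_.map_ne_zero _).2 hi₁') (le_antisymm h1 zero_le)
  have hv0 : q.valuation (g i₀ : L) ≠ 0 := (_root_.map_ne_zero _).2 hg0
  have h2 : ∑ i, (g i : L) / g i₀ * y i = 0 := by
    have h3 : ∑ i, (g i : L) / g i₀ * y i = (g i₀ : L)⁻¹ * ∑ i, g i • y i := by
      rw [Finset.mul_sum]
      refine Finset.sum_congr rfl fun i _ => ?_
      rw [Subfield.smul_def, smul_eq_mul]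
      ring
    rw [h3, hg, mul_zero]
  have h1 := h (fun i => (g i : L) / g i₀) (fun i => ⟨M.div_mem (g i).2 (g i₀).2, by
    rw [← q.valuation_le_one_iff, map_div₀]
    exact div_le_one_of_le₀ (hmax i (Finset.mem_univ _)) zero_le⟩) (by
      rw [h2, map_zero]
      exact zero_lt_one) i₀
  rw [div_self hg0, map_one] at h1
  exact lt_irrefl _ h1

/-- constants are `ℓ`-th powers. -/
theorem mong_cl {l : Subfield L} (hl : IsAlgClosed l) {ℓ : ℕ} [Fact ℓ.Prime] {x : L}
    (hx : x ∈ l) (hx0 : x ≠ 0) : cl ℓ x = 0 := by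
  haveI := hl
  obtain ⟨z, hz⟩ := IsAlgClosed.exists_pow_nat_eq (⟨x, hx⟩ : l) (Fact.out : ℓ.Prime).pos
  have h1 : (z : L) ^ ℓ = x := congrArg Subtype.val hz
  refine (cl_eq_zero_iff ℓ hx0).2 ⟨z, ?_, h1⟩
  intro h2
  rw [h2, zero_pow (Fact.out : ℓ.Prime).ne_zero] at h1
  exact hx0 h1.symm

theorem mong_pick {l : Subfield L} (hl : IsAlgClosed l) {ℓ : ℕ} [Fact ℓ.Prime]
    {q : ValuationSubring L} {u c c' : L} (hc : c ∈ l) (hc' : c' ∈ l) (hcc : c ≠ c')
    (h1 : q.valuation (u - c) = 1) (h2 : q.valuation (u - c') = 1) {i j : ZMod ℓ}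
    (h : i • cl ℓ ((u - c) / (c' - c)) + j • cl ℓ (1 - (u - c) / (c' - c)) ∈ U1 ℓ q) :
    ∃ y : L, q.valuation y = 1 ∧
      q.valuation (y ^ ℓ - (u - c) ^ i.val * (u - c') ^ j.val) < 1 := by
  have hu1 : u - c ≠ 0 := by
    intro h0
    rw [h0, map_zero] at h1
    exact zero_ne_one h1
  have hu2 : u - c' ≠ 0 := by
    intro h0
    rw [h0, map_zero] at h2
    exact zero_ne_one h2
  have e0 : c' - c ≠ 0 := sub_ne_zero.2 hcc.symm
  have e0' : c - c' ≠ 0 := sub_ne_zero.2 hcc
  have e1 : 1 - (u - c) / (c' - c) = (u - c') / (c - c') := by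
    have e2 : c - c' = -(c' - c) := by ring
    rw [e2]
    field_simp
    ring
  rw [e1, cl_div ℓ hu1 e0, cl_div ℓ hu2 e0', mong_cl hl (l.sub_mem hc' hc) e0,
    mong_cl hl (l.sub_mem hc hc') e0', sub_zero, sub_zero] at h
  obtain ⟨m, hm, hmv⟩ := mem_U1.1 h
  have e3 : cl ℓ ((u - c) ^ i.val * (u - c') ^ j.val) = cl ℓ (1 + m) := by
    rw [cl_mul ℓ (pow_ne_zero _ hu1) (pow_ne_zero _ hu2), cl_pow, cl_pow, ← hmv,
      ← Nat.cast_smul_eq_nsmul (ZMod ℓ), ← Nat.cast_smul_eq_nsmul (ZMod ℓ),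
      ZMod.natCast_zmod_val, ZMod.natCast_zmod_val]
  obtain ⟨w, hw0, hw⟩ := (cl_eq_iff ℓ (mul_ne_zero (pow_ne_zero _ hu1) (pow_ne_zero _ hu2))
    (one_add_ne_zero hm)).1 e3
  have e4 : q.valuation w = 1 := by
    have e5 := congrArg q.valuation hw
    rw [map_mul, map_pow, map_pow, h1, h2, one_pow, one_pow, mul_one, map_mul, map_pow,
      val_one_add hm, one_mul] at e5
    exact (pow_eq_one_iff_of_nonneg zero_le (Fact.out : ℓ.Prime).ne_zero).1 e5.symm
  refine ⟨w, e4, ?_⟩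
  have e6 : w ^ ℓ - (u - c) ^ i.val * (u - c') ^ j.val = -m * w ^ ℓ := by
    rw [hw]
    ring
  rw [e6, map_mul, Valuation.map_neg, map_pow, e4, one_pow, mul_one]
  exact hm

/-- many constants with different residues. -/
theorem mong_const {l : Subfield L} (hl : IsAlgClosed l) {ℓ : ℕ} [Fact ℓ.Prime] [NeZero (ℓ : L)]
    {q : ValuationSubring L} (hℓ : q.valuation (ℓ : L) = 1) (k : ℕ) :
    ∃ c : ℕ → L, (∀ m, c m ∈ l ∧ c m ∈ q) ∧
      ∀ m n, m < k → n < k → m ≠ n → q.valuation (c m - c n) = 1 := by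
  haveI := hl
  haveI hN0 : NeZero (ℓ ^ k) := ⟨pow_ne_zero _ (Fact.out : ℓ.Prime).ne_zero⟩
  haveI : NeZero ((ℓ ^ k : ℕ) : l) := ⟨by
    intro h
    have h2 := congrArg (Subtype.val : l → L) h
    push_cast at h2
    have h3 : (ℓ : L) ^ k = 0 := h2
    exact NeZero.ne (ℓ : L) (eq_zero_of_pow_eq_zero h3)⟩
  obtain ⟨ζ, hζ⟩ := HasEnoughRootsOfUnity.exists_primitiveRoot l (ℓ ^ k)
  have hζL : IsPrimitiveRoot (ζ : L) (ℓ ^ k) :=
    hζ.map_of_injective (f := algebraMap l L) (algebraMap l L).injective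
  have hv : q.valuation (ζ : L) = 1 := by
    have h2 := congrArg q.valuation hζL.pow_eq_one
    rw [map_pow, map_one] at h2
    exact (pow_eq_one_iff_of_nonneg zero_le hN0.out).1 h2
  have hN : q.valuation ((ℓ ^ k : ℕ) : L) = 1 := by
    rw [Nat.cast_pow, map_pow, hℓ, one_pow]
  have key : ∀ m n, m < n → n < k → q.valuation ((ζ : L) ^ m - (ζ : L) ^ n) = 1 := by
    intro m n hmn hn
    have h1 : (ζ : L) ^ m - (ζ : L) ^ n = (ζ : L) ^ m * (1 - (ζ : L) ^ (n - m)) := by
      rw [mul_sub, mul_one, ← pow_add, Nat.add_sub_cancel' hmn.le]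
    rw [h1, map_mul, map_pow, hv, one_pow, one_mul]
    refine mong_root (N := ℓ ^ k) ?_ ?_ hN
    · rw [← pow_mul, mul_comm, pow_mul, hζL.pow_eq_one, one_pow]
    · refine hζL.pow_ne_one_of_pos_of_lt (by omega) ?_
      have h2 : k < ℓ ^ k := Nat.lt_pow_self (Fact.out : ℓ.Prime).one_lt
      omega
  refine ⟨fun m => (ζ : L) ^ m, fun m => ⟨l.pow_mem ζ.2 m, ?_⟩, ?_⟩
  · rw [← q.valuation_le_one_iff, map_pow, hv, one_pow]
  · intro m n hm hn hmn
    rcases lt_or_gt_of_ne hmn with h1 | h1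
    · exact key m n h1 hn
    · rw [Valuation.map_sub_swap]
      exact key n m h1 hm

/-- Proof. Let `M = gsp l {u, ϖ}`, `d = [L : M]` (finite, `L` is finitely generated and algebraic
over the perfect field `M`). Assume there is no such `g₀`. Choose `r` with `d < 2 ^ r` and
`c 1, …, c (2 r)` in `l ∩ q` with pairwise differences of value `1` (the residue field of `l` is
algebraically closed, hence infinite). For each `s` take `g₀ = (u - c (2 s - 1)) / (c (2 s) -
c (2 s - 1))`, `1 - g₀ = (c (2 s) - u) / (c (2 s) - c (2 s - 1))`; constants are `ℓ`-th powers, so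
there are `0 ≤ i s, j s < ℓ`, not both `0`, and `y s` with `q.valuation (y s) = 1` such that
`(u - c (2 s - 1)) ^ i s * (u - c (2 s)) ^ j s ≡ (y s) ^ ℓ` modulo the maximal ideal. For
`T ⊆ {1, …, r}` let `Y T = ∏ s ∈ T, y s`. In the residue field `κ` of `q`, with
`κ₀` = residues of `M ∩ q`: `(Y T) ^ ℓ ∈ κ₀`, and `Y T / Y T' ∉ κ₀` for `T ≠ T'`: otherwise a
power of `p = ringExpChar κ` of
`∏ s ∈ T \ T', (u - c (2 s - 1)) ^ i s * (u - c (2 s)) ^ j s / ∏ s ∈ T' \ T, …` would be an `ℓ`-th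
power in `κ_l(u)` (`κ_l` = residues of `l ∩ q`; every unit of `M` has a power `z ^ (p ^ m)` with
residue in `κ_l(u)`, as in `QMon.rep`), where the residue of `u` is transcendental over `κ_l`:
contradiction by the multiplicity of the zero `c k` with exponent prime to `ℓ`.
By Kummer theory (`linearIndependent_roots`, P019P/FK.lean, over the perfect closure of `κ₀`) the
`2 ^ r` residues of the `Y T` are linearly independent over `κ₀`, so by `mon_resind` the `Y T` are
linearly independent over `M`: contradiction. -/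
theorem mon_nr [PerfectField L] [DecidableEq L] {l : Subfield L} (hl : IsAlgClosed l)
    (hfg : FG l (⊤ : Subfield L)) {ℓ : ℕ} [Fact ℓ.Prime] [NeZero (ℓ : L)]
    {w q : ValuationSubring L} {u ϖ : L} (h : QMon l w q u ϖ)
    (halg : ∀ z : L, IsAlgebraic (gsp l {u, ϖ}) z) (hℓ : q.valuation (ℓ : L) = 1) :
    ∃ g₀ : L, ∀ i j : ZMod ℓ, i • cl ℓ g₀ + j • cl ℓ (1 - g₀) ∈ U1 ℓ q → i = 0 ∧ j = 0 := by
  haveI := hl
  by_contra hcon
  push Not at hcon
  set M := gsp l {u, ϖ} with hMdef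
  haveI hM : PerfectField M := gsp_perfect _ _
  have hlM : l ≤ M := le_gsp l {u, ϖ}
  have huM : u ∈ M := mem_gsp (by simp)
  haveI hfin : Module.Finite M (algebraicClosure M L) :=
    finite_algebraicClosure (hfg.mono hlM le_top)
  set d := Module.finrank M (algebraicClosure M L) with hd
  obtain ⟨c, hc, hcd⟩ := mong_const hl (q := q) hℓ (2 * (d + 1))
  have hex : ∀ s : Fin (d + 1), ∃ (i j : ZMod ℓ) (y : L), ¬ (i = 0 ∧ j = 0) ∧
      q.valuation y = 1 ∧ q.valuation (y ^ ℓ - (u - c (2 * s)) ^ i.val *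
        (u - c (2 * s + 1)) ^ j.val) < 1 := by
    intro s
    have hs := s.2
    obtain ⟨i, j, hij, hne⟩ := hcon ((u - c (2 * s)) / (c (2 * s + 1) - c (2 * s)))
    have hcc : c (2 * s) ≠ c (2 * s + 1) := by
      intro h1
      have h2 := hcd (2 * s) (2 * s + 1) (by omega) (by omega) (by omega)
      rw [h1, sub_self, map_zero] at h2
      exact zero_ne_one h2
    obtain ⟨y, hy1, hy2⟩ := mong_pick hl (hc _).1 (hc _).1 hcc
      (h.ures _ (hc _).1 (hc _).2) (h.ures _ (hc _).1 (hc _).2) hij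
    exact ⟨i, j, y, fun h3 => hne h3.1 h3.2, hy1, hy2⟩
  choose i j y hij hy hyf using hex
  let f : Fin (d + 1) → L := fun s => (u - c (2 * s)) ^ (i s).val * (u - c (2 * s + 1)) ^ (j s).val
  have hfv : ∀ s, q.valuation (f s) = 1 := by
    intro s
    change q.valuation ((u - c (2 * s)) ^ (i s).val * (u - c (2 * s + 1)) ^ (j s).val) = 1
    rw [map_mul, map_pow, map_pow, h.ures _ (hc _).1 (hc _).2, h.ures _ (hc _).1 (hc _).2,
      one_pow, one_pow, one_mul]
  have hfM : ∀ s, f s ∈ M := fun s =>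
    M.mul_mem (M.pow_mem (M.sub_mem huM (hlM (hc _).1)) _)
      (M.pow_mem (M.sub_mem huM (hlM (hc _).1)) _)
  obtain ⟨ζ, hζl, hζ⟩ := finK_prim hl ℓ
  have hprime : ℓ.Prime := Fact.out
  have hli : LinearIndependent M y := by
    refine mon_resind y (fun s => (q.valuation_le_one_iff _).1 (hy s).le) ?_
    refine mong_kummer M (hlM hζl) hζ hℓ hy hfM hfv hyf ?_
    intro s t hst N hN z hz hz1 hlt
    have hs := s.2
    have ht := t.2
    have hst' : (s : ℕ) ≠ t := fun h1 => hst (Fin.ext h1)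
    obtain ⟨m, hm⟩ := mem_pf.1 hz
    rw [Finset.coe_insert, Finset.coe_singleton] at hm
    have hlt' := mong_pow (q := q) (x := f s ^ N) (y := f t ^ N * z ^ ℓ)
      (by rw [map_pow, hfv, one_pow])
      (by rw [map_mul, map_pow, map_pow, hfv, hz1, one_pow, one_pow, one_mul]) hlt
      (ringExpChar L ^ m)
    have hN' : ¬ ℓ ∣ N * ringExpChar L ^ m := by
      intro h1
      rcases hprime.dvd_mul.1 h1 with h2 | h2
      · exact hN h2
      · exact q_pow_ne_zero ℓ L m ((ZMod.natCast_eq_zero_iff _ ℓ).2 h2)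
    have e1 : ∀ (A B : L) (P : ℕ), (A ^ N) ^ P - (B ^ N * z ^ ℓ) ^ P =
        A ^ (N * P) - B ^ (N * P) * (z ^ P) ^ ℓ := by
      intro A B P
      rw [mul_pow, ← pow_mul, ← pow_mul, ← pow_mul, ← pow_mul, mul_comm ℓ]
    rw [e1] at hlt'
    have hzv : q.valuation (z ^ ringExpChar L ^ m) = 1 := by rw [map_pow, hz1, one_pow]
    have h3 : (i s).val = 0 :=
      mong_final h.uq h.ures h.pne h.plt h.inf hprime hN' (hc (2 * s)) (hc (2 * s + 1))
        (hc (2 * t)) (hc (2 * t + 1)) (hcd _ _ (by omega) (by omega) (by omega))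
        (hcd _ _ (by omega) (by omega) (by omega)) (hcd _ _ (by omega) (by omega) (by omega))
        (ZMod.val_lt _) hm hzv hlt'
    have h4 : (j s).val = 0 := by
      refine mong_final (j := (i s).val) (i' := (i t).val) (j' := (j t).val) h.uq h.ures h.pne h.plt h.inf hprime hN'
        (hc (2 * s + 1)) (hc (2 * s))
        (hc (2 * t)) (hc (2 * t + 1)) (hcd _ _ (by omega) (by omega) (by omega))
        (hcd _ _ (by omega) (by omega) (by omega)) (hcd _ _ (by omega) (by omega) (by omega))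
        (ZMod.val_lt _) hm hzv ?_
      rw [mul_comm ((u - c (2 * s + 1)) ^ (j s).val)]
      exact hlt'
    exact hij s ⟨(ZMod.val_eq_zero _).1 h3, (ZMod.val_eq_zero _).1 h4⟩
  let y' : Fin (d + 1) → algebraicClosure M L := fun s =>
    ⟨y s, mem_algebraicClosure_iff.2 (halg (y s))⟩
  have hli' : LinearIndependent M y' :=
    LinearIndependent.of_comp (algebraicClosure M L).val.toLinearMap hli
  have h5 := hli'.fintype_card_le_finrank
  rw [Fintype.card_fin, ← hd] at h5
  omega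

end Vale.Agent.P019P
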