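import Mathlib

/-!
# Gauss valuations over algebraically closed fields
-/

namespace Vale.Agent.P019P

open Polynomial

section mongA

variable {L : Type*} [Field L] {l : Subfield L} {q : ValuationSubring L} {u ϖ : L}

/-- values of linear factors. -/
theorem mong_lin (uq : u ∈ q) (ures : ∀ c ∈ l, c ∈ q → q.valuation (u - c) = 1) (r : l) :
    1 ≤ q.valuation (u - (r : L)) := by
  by_cases h : (r : L) ∈ q
  · exact (ures r r.2 h).ge
  · have h1 : 1 < q.valuation (r : L) := by
      rw [← not_le, q.valuation_le_one_iff]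
      exact h
    have h2 : q.valuation u ≤ 1 := (q.valuation_le_one_iff u).2 uq
    have h3 : q.valuation (u - r) = q.valuation (r : L) := by
      rw [Valuation.map_sub_swap]
      exact Valuation.map_sub_eq_of_lt_left _ (lt_of_le_of_lt h2 h1)
    rw [h3]
    exact h1.le

theorem mong_lead [IsAlgClosed l] (uq : u ∈ q)
    (ures : ∀ c ∈ l, c ∈ q → q.valuation (u - c) = 1) (g : l[X])
    (hg : q.valuation (g.leadingCoeff : L) = 1) : 1 ≤ q.valuation (aeval u g) := by
  have key : ∀ s : Multiset l, 1 ≤ q.valuation (aeval u (s.map fun a => X - C a).prod) := by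
    intro s
    induction s using Multiset.induction_on with
    | empty => simp
    | cons a s ih =>
      rw [Multiset.map_cons, Multiset.prod_cons, map_mul, map_mul, map_sub, aeval_X, aeval_C]
      exact one_le_mul (mong_lin uq ures a) ih
  have h1 := (IsAlgClosed.splits g).eq_prod_roots
  rw [h1, map_mul, aeval_C, map_mul]
  have h2 : q.valuation (algebraMap l L g.leadingCoeff) = 1 := hg
  rw [h2, one_mul]
  exact key g.roots

theorem mong_gauss_aux [IsAlgClosed l] (uq : u ∈ q)
    (ures : ∀ c ∈ l, c ∈ q → q.valuation (u - c) = 1) (n : ℕ) : ∀ g : l[X],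
    g.support.card = n → (∀ i, q.valuation (g.coeff i : L) ≤ 1) →
      q.valuation (aeval u g) < 1 → ∀ i, q.valuation (g.coeff i : L) < 1 := by
  induction n with
  | zero =>
    intro g hn hg h i
    have h1 : g = 0 := by
      rw [Finset.card_eq_zero, support_eq_empty] at hn
      exact hn
    rw [h1]
    simp
  | succ n ih =>
    intro g hn hg h i
    have hlt : q.valuation (g.leadingCoeff : L) < 1 := by
      refine lt_of_le_of_ne (hg _) fun h1 => ?_
      exact absurd (mong_lead uq ures g h1) (not_le.2 h)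
    have h2 : aeval u g.eraseLead = aeval u g - aeval u (monomial g.natDegree g.leadingCoeff) := by
      rw [← map_sub]
      congr 1
      exact eq_sub_of_add_eq g.eraseLead_add_monomial_natDegree_leadingCoeff
    have hu1 : q.valuation u ≤ 1 := (q.valuation_le_one_iff u).2 uq
    have h3 : q.valuation (aeval u (monomial g.natDegree g.leadingCoeff)) < 1 := by
      rw [aeval_monomial, map_mul, map_pow]
      exact mul_lt_one_of_lt_of_le hlt (pow_le_one₀ zero_le hu1)
    have h4 : q.valuation (aeval u g.eraseLead) < 1 := by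
      rw [h2]
      exact lt_of_le_of_lt (Valuation.map_sub _ _ _) (max_lt h h3)
    have h5 : ∀ i, q.valuation (g.eraseLead.coeff i : L) ≤ 1 := by
      intro i
      rw [eraseLead_coeff]
      split_ifs with h6
      · simp
      · exact hg i
    have h6 := ih g.eraseLead (card_support_eraseLead' hn) h5 h4 i
    rw [eraseLead_coeff] at h6
    split_ifs at h6 with h7
    · rw [h7]
      exact hlt
    · exact h6

/-- Gauss's lemma. -/
theorem mong_gauss [IsAlgClosed l] (uq : u ∈ q)
    (ures : ∀ c ∈ l, c ∈ q → q.valuation (u - c) = 1) {g : l[X]}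
    (hg : ∀ i, q.valuation (g.coeff i : L) ≤ 1) (h : q.valuation (aeval u g) < 1) (i : ℕ) :
    q.valuation (g.coeff i : L) < 1 :=
  mong_gauss_aux uq ures _ g rfl hg h i

theorem mong_le (uq : u ∈ q) {g : l[X]} (hg : ∀ i, q.valuation (g.coeff i : L) ≤ 1) :
    q.valuation (aeval u g) ≤ 1 := by
  have hu1 : q.valuation u ≤ 1 := (q.valuation_le_one_iff u).2 uq
  rw [aeval_eq_sum_range]
  refine Valuation.map_sum_le _ fun i _ => ?_
  rw [Algebra.smul_def, map_mul, map_pow]
  exact mul_le_one₀ (hg i) zero_le (pow_le_one₀ zero_le hu1)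

/-- the value of a polynomial is the value of one of its coefficients. -/
theorem mong_norm [IsAlgClosed l] (uq : u ∈ q)
    (ures : ∀ c ∈ l, c ∈ q → q.valuation (u - c) = 1) {g : l[X]} (hg : g ≠ 0) :
    ∃ c : l, c ≠ 0 ∧ (∃ i, g.coeff i = c) ∧
      (∀ i, q.valuation (g.coeff i : L) ≤ q.valuation (c : L)) ∧
      q.valuation (aeval u g) = q.valuation (c : L) := by
  obtain ⟨i₀, hi₀, hmax⟩ := Finset.exists_max_image g.support
    (fun i => q.valuation (g.coeff i : L)) (nonempty_support_iff.2 hg)
  have hc0 : g.coeff i₀ ≠ 0 := mem_support_iff.1 hi₀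
  have hcL : (g.coeff i₀ : L) ≠ 0 := fun h => hc0 (Subtype.ext h)
  have hv0 : q.valuation (g.coeff i₀ : L) ≠ 0 := (_root_.map_ne_zero _).2 hcL
  have hle : ∀ i, q.valuation (g.coeff i : L) ≤ q.valuation (g.coeff i₀ : L) := by
    intro i
    by_cases hi : i ∈ g.support
    · exact hmax i hi
    · rw [notMem_support_iff.1 hi]
      simp
  refine ⟨g.coeff i₀, hc0, ⟨i₀, rfl⟩, hle, ?_⟩
  have h1 : ∀ i, q.valuation ((C (g.coeff i₀)⁻¹ * g).coeff i : L) ≤ 1 := by
    intro i
    rw [coeff_C_mul]
    push_cast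
    rw [map_mul, map_inv₀, inv_mul_le_iff₀ (zero_lt_iff.2 hv0), mul_one]
    exact hle i
  have h2 : q.valuation (aeval u (C (g.coeff i₀)⁻¹ * g)) = 1 := by
    refine le_antisymm (mong_le uq h1) (not_lt.1 fun h3 => ?_)
    have h4 := mong_gauss uq ures h1 h3 i₀
    rw [coeff_C_mul, inv_mul_cancel₀ hc0] at h4
    simp at h4
  rw [map_mul, aeval_C, map_mul] at h2
  have h5 : q.valuation (algebraMap l L (g.coeff i₀)⁻¹) = (q.valuation (g.coeff i₀ : L))⁻¹ := by
    rw [map_inv₀, map_inv₀]
    rfl
  rw [h5, inv_mul_eq_one₀ hv0] at h2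
  exact h2.symm

end mongA

end Vale.Agent.P019P
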