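import Vale.Agent.P019R.MonG1

/-!
# Units of `l(u, ϖ)`
-/

namespace Vale.Agent.P019P

open Polynomial

section mongB

variable {L : Type*} [Field L] {l : Subfield L} {q : ValuationSubring L} {u ϖ : L}

/-- the value of `ϖ` is independent of the values of `l`. -/
theorem mong_exp (pne : ϖ ≠ 0) (plt : q.valuation ϖ < 1)
    (inf : ∀ c ∈ l, c ≠ 0 → q.valuation c < 1 → ∀ b : ℤ, q.valuation c < q.valuation ϖ ^ b)
    {c : L} (hc : c ∈ l) (hc0 : c ≠ 0) {n : ℤ} (h : q.valuation c = q.valuation ϖ ^ n) :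
    n = 0 := by
  have hv0 : q.valuation ϖ ≠ 0 := (_root_.map_ne_zero _).2 pne
  have hpos : 0 < q.valuation ϖ := zero_lt_iff.2 hv0
  rcases lt_trichotomy (q.valuation c) 1 with h1 | h1 | h1
  · exact absurd (inf c hc hc0 h1 n) (by rw [h]; exact lt_irrefl _)
  · rw [h1] at h
    have h2 : q.valuation ϖ ^ n = q.valuation ϖ ^ (0 : ℤ) := by rw [← h, zpow_zero]
    exact zpow_right_injective₀ hpos plt.ne h2
  · have h2 : q.valuation c⁻¹ < 1 := by
      rw [map_inv₀]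
      exact inv_lt_one_of_one_lt₀ h1
    have h3 := inf c⁻¹ (l.inv_mem hc) (inv_ne_zero hc0) h2 (-n)
    rw [map_inv₀, h, zpow_neg] at h3
    exact absurd h3 (lt_irrefl _)

/-- evaluation of polynomials in two variables. -/
noncomputable def ev2 (l : Subfield L) (u ϖ : L) : l[X][X] →+* L :=
  eval₂RingHom ((aeval u : l[X] →ₐ[l] L) : l[X] →+* L) ϖ

theorem ev2_sum (A : l[X][X]) :
    ev2 l u ϖ A = ∑ i ∈ A.support, aeval u (A.coeff i) * ϖ ^ i := by
  change eval₂ _ _ A = _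
  rw [eval₂_eq_sum, sum_def]
  rfl

theorem mong_dom [IsAlgClosed l] (uq : u ∈ q)
    (ures : ∀ c ∈ l, c ∈ q → q.valuation (u - c) = 1) (pne : ϖ ≠ 0) (plt : q.valuation ϖ < 1)
    (inf : ∀ c ∈ l, c ≠ 0 → q.valuation c < 1 → ∀ b : ℤ, q.valuation c < q.valuation ϖ ^ b)
    {A : l[X][X]} (hA : A ≠ 0) : ∃ b ∈ A.support,
      q.valuation (ev2 l u ϖ A - aeval u (A.coeff b) * ϖ ^ b) <
        q.valuation (aeval u (A.coeff b) * ϖ ^ b) := by
  have hv0 : q.valuation ϖ ≠ 0 := (_root_.map_ne_zero _).2 pne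
  obtain ⟨b, hb, hmax⟩ := Finset.exists_max_image A.support
    (fun i => q.valuation (aeval u (A.coeff i) * ϖ ^ i)) (nonempty_support_iff.2 hA)
  refine ⟨b, hb, ?_⟩
  have h1 : ev2 l u ϖ A - aeval u (A.coeff b) * ϖ ^ b =
      ∑ i ∈ A.support.erase b, aeval u (A.coeff i) * ϖ ^ i := by
    rw [ev2_sum, Finset.sum_erase_eq_sub hb]
  obtain ⟨c, hc0, -, -, hc⟩ := mong_norm uq ures (mem_support_iff.1 hb)
  have hcL : (c : L) ≠ 0 := fun h => hc0 (Subtype.ext h)
  have hcv : q.valuation (c : L) ≠ 0 := (_root_.map_ne_zero _).2 hcL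
  rw [h1]
  refine Valuation.map_sum_lt _ ?_ fun i hi => ?_
  · rw [map_mul, hc, map_pow]
    exact mul_ne_zero hcv (pow_ne_zero _ hv0)
  · obtain ⟨hib, hi⟩ := Finset.mem_erase.1 hi
    refine lt_of_le_of_ne (hmax i hi) fun heq => hib ?_
    obtain ⟨d, hd0, -, -, hd⟩ := mong_norm uq ures (mem_support_iff.1 hi)
    have hdL : (d : L) ≠ 0 := fun h => hd0 (Subtype.ext h)
    have hdv : q.valuation (d : L) ≠ 0 := (_root_.map_ne_zero _).2 hdL
    rw [map_mul, map_mul, hc, hd, map_pow, map_pow] at heq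
    have h2 : q.valuation ((d : L) / c) = q.valuation ϖ ^ ((b : ℤ) - i) := by
      rw [map_div₀, zpow_sub₀ hv0, zpow_natCast, zpow_natCast,
        div_eq_div_iff hcv (pow_ne_zero _ hv0), heq, mul_comm]
    have h3 := mong_exp pne plt inf (l.div_mem d.2 c.2) (div_ne_zero hdL hcL) h2
    omega

theorem mong_repr {z : L} (hz : z ∈ l ⊔ Subfield.closure ({u, ϖ} : Set L)) :
    ∃ A B : l[X][X], ev2 l u ϖ B ≠ 0 ∧ z * ev2 l u ϖ B = ev2 l u ϖ A := by
  have h1 : l ⊔ Subfield.closure ({u, ϖ} : Set L) =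
      Subfield.closure ((l : Set L) ∪ {u, ϖ}) := by
    rw [Subfield.closure_union, Subfield.closure_eq]
  rw [h1, Subfield.mem_closure_iff] at hz
  have h2 : Subring.closure ((l : Set L) ∪ {u, ϖ}) ≤ (ev2 l u ϖ).range := by
    rw [Subring.closure_le]
    rintro x (hx | hx)
    · refine ⟨C (C ⟨x, hx⟩), ?_⟩
      change eval₂ _ _ _ = _
      rw [eval₂_C]
      simp
      rfl
    · rcases hx with rfl | hx
      · refine ⟨C X, ?_⟩
        change eval₂ _ _ _ = _
        rw [eval₂_C]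
        simp
      · rw [Set.mem_singleton_iff] at hx
        rw [hx]
        refine ⟨X, ?_⟩
        change eval₂ _ _ _ = _
        rw [eval₂_X]
  obtain ⟨y, hy, y', hy', hz⟩ := hz
  by_cases h0 : y' = 0
  · refine ⟨0, 1, ?_, ?_⟩
    · rw [map_one]
      exact one_ne_zero
    · rw [← hz, h0, div_zero, zero_mul, map_zero]
  · obtain ⟨A, hA⟩ := h2 hy
    obtain ⟨B, hB⟩ := h2 hy'
    refine ⟨A, B, by rw [hB]; exact h0, ?_⟩
    rw [hA, hB, ← hz, div_mul_cancel₀ _ h0]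

/-- units of `l(u, ϖ)` are congruent to units of `l(u)`. -/
theorem mong_unit [IsAlgClosed l] (uq : u ∈ q)
    (ures : ∀ c ∈ l, c ∈ q → q.valuation (u - c) = 1) (pne : ϖ ≠ 0) (plt : q.valuation ϖ < 1)
    (inf : ∀ c ∈ l, c ≠ 0 → q.valuation c < 1 → ∀ b : ℤ, q.valuation c < q.valuation ϖ ^ b)
    {z : L} (hz : z ∈ l ⊔ Subfield.closure ({u, ϖ} : Set L)) (hz1 : q.valuation z = 1) :
    ∃ G H : l[X], (∀ i, q.valuation (G.coeff i : L) ≤ 1) ∧
      (∀ i, q.valuation (H.coeff i : L) ≤ 1) ∧ q.valuation (aeval u G) = 1 ∧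
      q.valuation (aeval u H) = 1 ∧ q.valuation (z * aeval u H - aeval u G) < 1 := by
  have hv0 : q.valuation ϖ ≠ 0 := (_root_.map_ne_zero _).2 pne
  have hz0 : z ≠ 0 := by
    rintro rfl
    rw [map_zero] at hz1
    exact zero_ne_one hz1
  obtain ⟨A, B, hB, hAB⟩ := mong_repr hz
  have hB0 : B ≠ 0 := by
    rintro rfl
    exact hB (map_zero _)
  have hA0 : A ≠ 0 := by
    rintro rfl
    rw [map_zero] at hAB
    exact (mul_ne_zero hz0 hB) hAB
  obtain ⟨a, ha, hAa⟩ := mong_dom uq ures pne plt inf hA0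
  obtain ⟨b, hb, hBb⟩ := mong_dom uq ures pne plt inf hB0
  obtain ⟨c, hc0, -, hcle, hc⟩ := mong_norm uq ures (mem_support_iff.1 ha)
  obtain ⟨d, hd0, -, hdle, hd⟩ := mong_norm uq ures (mem_support_iff.1 hb)
  have hcL : (c : L) ≠ 0 := fun h => hc0 (Subtype.ext h)
  have hcv : q.valuation (c : L) ≠ 0 := (_root_.map_ne_zero _).2 hcL
  have hdL : (d : L) ≠ 0 := fun h => hd0 (Subtype.ext h)
  have hdv : q.valuation (d : L) ≠ 0 := (_root_.map_ne_zero _).2 hdL
  have e1 : q.valuation (ev2 l u ϖ A) = q.valuation (c : L) * q.valuation ϖ ^ a := by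
    have h1 := Valuation.map_eq_of_sub_lt (v := q.valuation) hAa
    rw [h1, map_mul, hc, map_pow]
  have e2 : q.valuation (ev2 l u ϖ B) = q.valuation (d : L) * q.valuation ϖ ^ b := by
    have h1 := Valuation.map_eq_of_sub_lt (v := q.valuation) hBb
    rw [h1, map_mul, hd, map_pow]
  have e3 : q.valuation (d : L) * q.valuation ϖ ^ b = q.valuation (c : L) * q.valuation ϖ ^ a := by
    rw [← e1, ← e2, ← hAB, map_mul, hz1, one_mul]
  have e4 : q.valuation ((d : L) / c) = q.valuation ϖ ^ ((a : ℤ) - b) := by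
    rw [map_div₀, zpow_sub₀ hv0, zpow_natCast, zpow_natCast,
      div_eq_div_iff hcv (pow_ne_zero _ hv0), e3, mul_comm]
  have e5 := mong_exp pne plt inf (l.div_mem d.2 c.2) (div_ne_zero hdL hcL) e4
  have e6 : a = b := by omega
  subst e6
  have e7 : q.valuation (d : L) = q.valuation (c : L) :=
    mul_right_cancel₀ (pow_ne_zero _ hv0) e3
  have hval : ∀ x : L, q.valuation ((algebraMap l L c⁻¹) * x) =
      (q.valuation (c : L))⁻¹ * q.valuation x := by
    intro x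
    rw [map_mul, map_inv₀, map_inv₀]
    rfl
  refine ⟨C c⁻¹ * A.coeff a, C c⁻¹ * B.coeff a, ?_, ?_, ?_, ?_, ?_⟩
  · intro i
    rw [coeff_C_mul]
    push_cast
    rw [map_mul, map_inv₀, inv_mul_le_iff₀ (zero_lt_iff.2 hcv), mul_one]
    exact hcle i
  · intro i
    rw [coeff_C_mul]
    push_cast
    rw [map_mul, map_inv₀, inv_mul_le_iff₀ (zero_lt_iff.2 hcv), mul_one, ← e7]
    exact hdle i
  · rw [map_mul, aeval_C, hval, hc, inv_mul_cancel₀ hcv]
  · rw [map_mul, aeval_C, hval, hd, e7, inv_mul_cancel₀ hcv]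
  · have h1 : z * aeval u (C c⁻¹ * B.coeff a) - aeval u (C c⁻¹ * A.coeff a) =
        algebraMap l L c⁻¹ * (((ev2 l u ϖ A - aeval u (A.coeff a) * ϖ ^ a) -
          z * (ev2 l u ϖ B - aeval u (B.coeff a) * ϖ ^ a)) * (ϖ ^ a)⁻¹) := by
      rw [map_mul, map_mul, aeval_C, ← hAB]
      have h2 : ϖ ^ a ≠ 0 := pow_ne_zero _ pne
      field_simp
      ring
    rw [h1, hval, map_mul, map_inv₀, map_pow, inv_mul_lt_iff₀ (zero_lt_iff.2 hcv), mul_one,
      mul_inv_lt_iff₀ (pow_pos (zero_lt_iff.2 hv0) _)]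
    refine lt_of_le_of_lt (Valuation.map_sub _ _ _) (max_lt ?_ ?_)
    · rw [map_mul, hc, map_pow] at hAa
      exact hAa
    · rw [map_mul, hz1, one_mul]
      rw [map_mul _ (aeval u (B.coeff a)), hd, e7, map_pow] at hBb
      exact hBb

end mongB

end Vale.Agent.P019P
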