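import Vale.Agent.P019R.MonE
import Vale.Agent.P019R.MonF
import Vale.Agent.P019R.MonG
import Vale.Agent.P019R.Ext

/-!
# Approximation of a valuation ring of maximal rank by transferable ones
-/

namespace Vale.Agent.P019P

open Vale.Agent.P019

set_option linter.unusedSectionVars false
set_option linter.style.haveILetI false

open Filter

variable {L : Type*} [Field L]

theorem monh_finite [PerfectField L] {M : Subfield L} [PerfectField M]
    (h : FG M (⊤ : Subfield L)) (halg : ∀ z : L, IsAlgebraic M z) : FiniteDimensional M L := by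
  obtain ⟨S, hS⟩ := h
  have hint : ∀ x ∈ (S : Set L), IsIntegral M x := fun x _ => (halg x).isIntegral
  haveI : FiniteDimensional M (IntermediateField.adjoin M (S : Set L)) :=
    IntermediateField.finiteDimensional_adjoin hint
  haveI : Algebra.IsAlgebraic M (IntermediateField.adjoin M (S : Set L)) := inferInstance
  haveI : PerfectField (IntermediateField.adjoin M (S : Set L)) :=
    Algebra.IsAlgebraic.perfectField (K := M)
  haveI : PerfectField (IntermediateField.adjoin M (S : Set L)).toSubfield :=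
    inferInstanceAs (PerfectField (IntermediateField.adjoin M (S : Set L)))
  have htop : (IntermediateField.adjoin M (S : Set L)) = ⊤ := by
    rw [eq_top_iff]
    intro z _
    have h1 : z ∈ pf (M ⊔ Subfield.closure (S : Set L)) := by
      rw [← hS]
      exact Subfield.mem_top z
    have h2 : pf (M ⊔ Subfield.closure (S : Set L)) ≤
        (IntermediateField.adjoin M (S : Set L)).toSubfield := by
      refine pf_le (sup_le ?_ (Subfield.closure_le.2 fun x hx => ?_))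
      · intro x hx
        exact (IntermediateField.adjoin M (S : Set L)).algebraMap_mem (⟨x, hx⟩ : M)
      · exact IntermediateField.subset_adjoin M _ hx
    exact h2 h1
  exact Module.Finite.of_surjective
    ((IntermediateField.adjoin M (S : Set L)).val.toLinearMap) (fun z => by
      have hz : z ∈ IntermediateField.adjoin M (S : Set L) := by
        rw [htop]
        trivial
      exact ⟨⟨z, hz⟩, rfl⟩)

/-- the residue field of the restriction is algebraically closed. -/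
theorem monh_ac {l M : Subfield L} (hl : IsAlgClosed l) (hlM : l ≤ M) {w : ValuationSubring L}
    (hres : ∀ z : L, w.valuation z = 1 → ∃ c ∈ l, w.valuation (z - c) < 1) :
    IsAlgClosed (IsLocalRing.ResidueField (w.comap M.subtype)) := by
  classical
  set v := w.comap M.subtype with hv
  have hsmall : ∀ x : M, ∀ hx : x ∈ v, w.valuation (x : L) < 1 →
      IsLocalRing.residue v ⟨x, hx⟩ = 0 := by
    intro x hx h1
    rw [IsLocalRing.residue_eq_zero_iff]
    by_contra hcon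
    rw [IsLocalRing.mem_maximalIdeal, mem_nonunits_iff, not_not] at hcon
    obtain ⟨y, hy⟩ := hcon.exists_right_inv
    have h2 : (x : L) * ((y : M) : L) = 1 := by
      have h3 := congrArg (fun a : v => ((a : M) : L)) hy
      simpa using h3
    have h4 : w.valuation ((y : M) : L) ≤ 1 := (w.valuation_le_one_iff _).2 y.2
    have h5 : w.valuation ((x : L) * ((y : M) : L)) < 1 := by
      rw [map_mul]
      exact mul_lt_one_of_lt_of_le h1 h4
    rw [h2, map_one] at h5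
    exact lt_irrefl _ h5
  have hlift : ∀ a : IsLocalRing.ResidueField v, ∃ c ∈ l, ∃ hc : ∃ h : c ∈ M, (⟨c, h⟩ : M) ∈ v,
      IsLocalRing.residue v ⟨⟨c, hc.1⟩, hc.2⟩ = a := by
    intro a
    obtain ⟨⟨x, hx⟩, rfl⟩ := IsLocalRing.residue_surjective a
    have hxw : w.valuation (x : L) ≤ 1 := (w.valuation_le_one_iff _).2 hx
    rcases hxw.lt_or_eq with h1 | h1
    · refine ⟨0, l.zero_mem, ⟨M.zero_mem, ?_⟩, ?_⟩
      · exact w.zero_mem
      · rw [hsmall x hx h1]
        exact map_zero _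
    · obtain ⟨c, hc, h2⟩ := hres _ h1
      have hcw : c ∈ w := by
        have h3 : c = (x : L) - ((x : L) - c) := by ring
        rw [h3]
        exact sub_mem hx ((w.valuation_le_one_iff _).1 h2.le)
      refine ⟨c, hc, ⟨hlM hc, hcw⟩, ?_⟩
      have hcv : (⟨c, hlM hc⟩ : M) ∈ v := hcw
      have h4 := hsmall (x - ⟨c, hlM hc⟩) (sub_mem hx hcv) h2
      have h5 : (⟨x - ⟨c, hlM hc⟩, sub_mem hx hcv⟩ : v) = ⟨x, hx⟩ - ⟨⟨c, hlM hc⟩, hcv⟩ := rfl
      rw [h5, map_sub, sub_eq_zero] at h4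
      exact h4.symm
  refine IsAlgClosed.of_exists_root _ fun p hp hirr => ?_
  choose c hcl hcM hc using hlift
  haveI := hl
  have hdeg : 0 < p.natDegree := hirr.natDegree_pos
  -- lift the polynomial
  let P : Polynomial l := Polynomial.X ^ p.natDegree + ∑ i ∈ Finset.range p.natDegree,
    Polynomial.C (⟨c (p.coeff i), hcl _⟩ : l) * Polynomial.X ^ i
  have hlt : (∑ i ∈ Finset.range p.natDegree,
      Polynomial.C (⟨c (p.coeff i), hcl _⟩ : l) * Polynomial.X ^ i).degree <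
        ((p.natDegree : ℕ) : WithBot ℕ) := by
    refine (Polynomial.degree_sum_le _ _).trans_lt ?_
    rw [Finset.sup_lt_iff (WithBot.bot_lt_coe _)]
    intro i hi
    exact (Polynomial.degree_C_mul_X_pow_le _ _).trans_lt
      (WithBot.coe_lt_coe.2 (Finset.mem_range.1 hi))
  have hPdeg : P.degree = ((p.natDegree : ℕ) : WithBot ℕ) := by
    rw [Polynomial.degree_add_eq_left_of_degree_lt, Polynomial.degree_X_pow]
    rwa [Polynomial.degree_X_pow]
  obtain ⟨r, hr⟩ := IsAlgClosed.exists_root P (by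
    rw [hPdeg]
    exact_mod_cast hdeg.ne')
  have hr' : (r : L) ^ p.natDegree + ∑ i ∈ Finset.range p.natDegree,
      c (p.coeff i) * (r : L) ^ i = 0 := by
    have h1 := congrArg Subtype.val (Polynomial.IsRoot.def.1 hr)
    simpa [P, Polynomial.eval_add, Polynomial.eval_finset_sum] using h1
  have hrw : (r : L) ∈ w := by
    by_contra hcon
    have h1 : 1 < w.valuation (r : L) := by
      rw [← not_le, w.valuation_le_one_iff]
      exact hcon
    have h2 : w.valuation (∑ i ∈ Finset.range p.natDegree, c (p.coeff i) * (r : L) ^ i) <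
        w.valuation ((r : L) ^ p.natDegree) := by
      refine Valuation.map_sum_lt _ ?_ fun i hi => ?_
      · exact (_root_.map_ne_zero _).2 (pow_ne_zero _ fun h0 => by
          rw [h0, map_zero] at h1
          exact not_lt_zero' h1)
      · rw [map_mul, map_pow, map_pow]
        calc w.valuation (c (p.coeff i)) * w.valuation (r : L) ^ i
            ≤ 1 * w.valuation (r : L) ^ i := by
              gcongr
              exact (w.valuation_le_one_iff _).2 (hcM _).2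
          _ = w.valuation (r : L) ^ i := one_mul _
          _ < w.valuation (r : L) ^ p.natDegree :=
            pow_lt_pow_right₀ h1 (Finset.mem_range.1 hi)
    have h3 := Valuation.map_add_eq_of_lt_left w.valuation h2
    rw [hr', map_zero] at h3
    exact (_root_.map_ne_zero w.valuation).2 (pow_ne_zero p.natDegree fun h0 => by
      rw [h0, map_zero] at h1
      exact not_lt_zero' h1) h3.symm
  refine ⟨IsLocalRing.residue v ⟨⟨r, hlM r.2⟩, hrw⟩, ?_⟩
  set x : v := ⟨⟨r, hlM r.2⟩, hrw⟩ with hx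
  have h1 : x ^ p.natDegree + ∑ i ∈ Finset.range p.natDegree,
      (⟨⟨c (p.coeff i), (hcM _).1⟩, (hcM _).2⟩ : v) * x ^ i = 0 := by
    apply Subtype.ext
    apply Subtype.ext
    push_cast
    exact hr'
  have h2 := congrArg (IsLocalRing.residue v) h1
  rw [map_add, map_sum, map_zero, map_pow] at h2
  simp only [map_mul, map_pow, hc] at h2
  rw [Polynomial.eval_eq_sum_range, Finset.sum_range_succ, hp.coeff_natDegree, one_mul, add_comm]
  exact h2

theorem monh_gsp [PerfectField L] [DecidableEq L] {l : Subfield L} {ρ ϖ c₀ : L} (hϖ : ϖ ≠ 0)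
    (hc₀ : c₀ ∈ l) (hc₀0 : c₀ ≠ 0) (n : ℤ) :
    gsp l {ρ * (c₀ * ϖ ^ n)⁻¹, ϖ} = gsp l {ρ, ϖ} := by
  have hne : c₀ * ϖ ^ n ≠ 0 := mul_ne_zero hc₀0 (zpow_ne_zero _ hϖ)
  haveI := gsp_perfect l {ρ, ϖ}
  haveI := gsp_perfect l {ρ * (c₀ * ϖ ^ n)⁻¹, ϖ}
  have key : ∀ (B : Finset L), ϖ ∈ B → c₀ * ϖ ^ n ∈ gsp l B := fun B hB =>
    Subfield.mul_mem _ (le_gsp l B hc₀) (Subfield.zpow_mem _ (mem_gsp hB) _)
  apply le_antisymm
  · refine gsp_le (le_gsp _ _) fun x hx => ?_
    rw [Finset.mem_insert, Finset.mem_singleton] at hx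
    rcases hx with rfl | rfl
    · exact Subfield.mul_mem _ (mem_gsp (Finset.mem_insert_self _ _))
        (Subfield.inv_mem _ (key _ (by simp)))
    · exact mem_gsp (by simp)
  · refine gsp_le (le_gsp _ _) fun x hx => ?_
    rw [Finset.mem_insert, Finset.mem_singleton] at hx
    rcases hx with rfl | rfl
    · have h1 : x = (x * (c₀ * ϖ ^ n)⁻¹) * (c₀ * ϖ ^ n) := by
        rw [mul_assoc, inv_mul_cancel₀ hne, mul_one]
      rw [h1]
      exact Subfield.mul_mem _ (mem_gsp (by rw [← h1]; exact Finset.mem_insert_self _ _))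
        (key _ (by simp))
    · exact mem_gsp (by simp)

theorem QMon.congr {l M : Subfield L} (hlM : l ≤ M) {w q q' : ValuationSubring L} {u ϖ : L}
    (h : QMon l w q u ϖ) (hu : u ∈ M) (hϖ : ϖ ∈ M) (hq : ∀ x ∈ M, x ∈ q ↔ x ∈ q') :
    QMon l w q' u ϖ := by
  have hle : ∀ x ∈ M, ∀ y ∈ M, y ≠ 0 → (q.valuation x ≤ q.valuation y ↔
      q'.valuation x ≤ q'.valuation y) := by
    intro x hx y hy hy0
    have h1 : ∀ v : ValuationSubring L, v.valuation x ≤ v.valuation y ↔ x / y ∈ v := by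
      intro v
      rw [← v.valuation_le_one_iff, map_div₀, div_le_one₀]
      exact zero_lt_iff.2 ((_root_.map_ne_zero _).2 hy0)
    rw [h1, h1]
    exact hq _ (M.div_mem hx hy)
  have hlt : ∀ x ∈ M, ∀ y ∈ M, x ≠ 0 → (q.valuation x < q.valuation y ↔
      q'.valuation x < q'.valuation y) := by
    intro x hx y hy hx0
    rw [← not_le, ← not_le, hle y hy x hx hx0]
  have hlt1 : ∀ x ∈ M, x ≠ 0 → (q.valuation x < 1 ↔ q'.valuation x < 1) := by
    intro x hx hx0
    have h1 := hlt x hx 1 M.one_mem hx0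
    rwa [map_one, map_one] at h1
  have heq1 : ∀ x ∈ M, x ≠ 0 → (q.valuation x = 1 ↔ q'.valuation x = 1) := by
    intro x hx hx0
    have h1 := hlt1 x hx hx0
    have h2 := hq x hx
    rw [← q.valuation_le_one_iff, ← q'.valuation_le_one_iff] at h2
    constructor
    · intro h3
      exact le_antisymm (h2.1 h3.le) (not_lt.1 fun h4 => (h1.2 h4).ne h3)
    · intro h3
      exact le_antisymm (h2.2 h3.le) (not_lt.1 fun h4 => (h1.1 h4).ne h3)
  refine ⟨fun c hc => ?_, h.pne, (hlt1 _ hϖ h.pne).1 h.plt, fun c hc hc0 hc1 b => ?_, (hq _ hu).1 h.uq,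
    fun c hc hcq => ?_⟩
  · rw [← hq c (hlM hc)]
    exact h.cst c hc
  · have h1 := h.inf c hc hc0 ((hlt1 _ (hlM hc) hc0).2 hc1) b
    rw [← map_zpow₀] at h1 ⊢
    exact (hlt _ (hlM hc) _ (M.zpow_mem hϖ _) hc0).1 h1
  · have h1 := h.ures c hc ((hq _ (hlM hc)).2 hcq)
    have h2 : u - c ≠ 0 := by
      intro h0
      rw [h0, map_zero] at h1
      exact zero_ne_one h1
    exact (heq1 _ (M.sub_mem hu (hlM hc)) h2).1 h1

/-- approximation of a valuation ring of maximal rank by transferable valuation rings. -/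
theorem appr_mon {ℓ : ℕ} [Fact ℓ.Prime] [NeZero (ℓ : L)] [PerfectField L] [DecidableEq L]
    {l : Subfield L} (hl : IsAlgClosed l) (hfg : FG l (⊤ : Subfield L)) {w : ValuationSubring L}
    {ρ ϖ : L} (hw : Mon l w ρ ϖ) (halg : ∀ z : L, IsAlgebraic (gsp l {ρ, ϖ}) z)
    (hres : ∀ z : L, w.valuation z = 1 → ∃ c ∈ l, w.valuation (z - c) < 1)
    (hval : ∀ z : L, z ≠ 0 → ∃ m : ℕ, ¬ ℓ ∣ m ∧ ∃ c ∈ l, c ≠ 0 ∧ ∃ a b : ℤ,
      w.valuation (z ^ m * c * ρ ^ a * ϖ ^ b) = 1)
    (hℓ : w.valuation (ℓ : L) = 1) :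
    ∃ (U : Ultrafilter (Finset (gsp l {ρ, ϖ} : Subfield L)))
      (Q : Finset (gsp l {ρ, ϖ} : Subfield L) → ValuationSubring L)
      (h : Finset (gsp l {ρ, ϖ} : Subfield L) → V ℓ L →ₗ[ZMod ℓ] ZMod ℓ), (∀ x, x ∈ w ↔ ∀ᶠ j in U, x ∈ Q j) ∧
      ∀ᶠ j in U, (∀ z, (Q j).valuation z = 1 → h j (cl ℓ z) = 0) ∧ h j (cl ℓ ϖ) = 1 ∧
        ∃ g₀ : L, ∀ i i' : ZMod ℓ, i • cl ℓ g₀ + i' • cl ℓ (1 - g₀) ∈ U1 ℓ (Q j) →
          i = 0 ∧ i' = 0 := by
  classical
  set M := gsp l {ρ, ϖ} with hM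
  have hlM : l ≤ M := le_gsp _ _
  have hρM : ρ ∈ M := mem_gsp (by simp)
  have hϖM : ϖ ∈ M := mem_gsp (by simp)
  haveI : PerfectField M := gsp_perfect _ _
  haveI : FiniteDimensional M L := monh_finite (hfg.mono hlM le_top) halg
  haveI : Algebra.IsSeparable M L := inferInstance
  obtain ⟨ζ, hζl, hζ⟩ := finK_prim (Ω := L) hl ℓ
  have hζM : ∃ ζ : M, IsPrimitiveRoot ζ ℓ := by
    refine ⟨⟨ζ, hlM hζl⟩, ?_⟩
    exact (IsPrimitiveRoot.map_iff_of_injective (f := M.subtype) M.subtype.injective).1 hζ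
  have hpt : ∀ S : Finset M, ∃ (q : ValuationSubring L) (c₀ : L) (n : ℤ), c₀ ∈ l ∧ c₀ ≠ 0 ∧
      QMon l w q (ρ * (c₀ * ϖ ^ n)⁻¹) ϖ ∧ ∀ z ∈ S, (z : L) ∈ w ↔ (z : L) ∈ q := by
    intro S
    obtain ⟨q, c₀, n, h1, h2, h3, h4⟩ := mon_point hl hw (S.image (fun z : M => (z : L)))
      (by
        intro z hz
        obtain ⟨y, -, rfl⟩ := Finset.mem_image.1 hz
        exact y.2)
    exact ⟨q, c₀, n, h1, h2, h3, fun z hz => h4 _ (Finset.mem_image_of_mem _ hz)⟩
  choose q c₀ n hc₀ hc₀0 hq hqS using hpt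
  let U : Ultrafilter (Finset M) := Ultrafilter.of atTop
  have hU : (U : Filter (Finset M)) ≤ atTop := Ultrafilter.of_le _
  have hlim : ∀ x : M, (x : L) ∈ w ↔ ∀ᶠ S in (U : Filter (Finset M)), x ∈ (q S).comap M.subtype := by
    intro x
    have h1 : ∀ᶠ S in (U : Filter (Finset M)), ((x : L) ∈ w ↔ (x : L) ∈ q S) := by
      refine hU ?_
      rw [Filter.mem_atTop_sets]
      exact ⟨{x}, fun S hS => hqS S x (hS (Finset.mem_singleton_self x))⟩
    constructor
    · intro h2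
      exact h1.mono fun S hS => hS.1 h2
    · intro h2
      obtain ⟨S, hS1, hS2⟩ := (h1.and h2).exists
      exact hS1.2 hS2

  obtain ⟨Q, hQ1, hQ2, hQ3⟩ := Vale.Agent.P019R.ext_val ℓ M hζM U (fun S => (q S).comap M.subtype) w hlim
    (monh_ac hl hlM hres) hℓ (by
      intro x hx
      obtain ⟨m, hm, c, hc, hc0, a, b, h1⟩ := hval x hx
      refine ⟨m, hm, ⟨(c * ρ ^ a * ϖ ^ b)⁻¹, M.inv_mem (M.mul_mem (M.mul_mem (hlM hc)
        (M.zpow_mem hρM _)) (M.zpow_mem hϖM _))⟩, ?_⟩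
      have h2 : x ^ m * c * ρ ^ a * ϖ ^ b = x ^ m * (c * ρ ^ a * ϖ ^ b) := by ring
      rw [h2, map_mul] at h1
      rw [map_inv₀]
      exact eq_inv_of_mul_eq_one_left h1)
  have hQM : ∀ S : Finset M, ∀ x ∈ M, x ∈ q S ↔ x ∈ Q S := by
    intro S x hx
    have h1 := congrArg (fun v : ValuationSubring M => (⟨x, hx⟩ : M) ∈ v) (hQ1 S)
    simp only [ValuationSubring.mem_comap, eq_iff_iff] at h1
    exact h1.symm
  have hQq : ∀ S : Finset M, QMon l w (Q S) (ρ * (c₀ S * ϖ ^ n S)⁻¹) ϖ := fun S =>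
    (hq S).congr hlM (M.mul_mem hρM (M.inv_mem (M.mul_mem (hlM (hc₀ S)) (M.zpow_mem hϖM _)))) hϖM
      (hQM S)
  have hgsp : ∀ S : Finset M, gsp l {ρ * (c₀ S * ϖ ^ n S)⁻¹, ϖ} = M := fun S =>
    monh_gsp hw.pne (hc₀ S) (hc₀0 S) _
  have hℓp : ∀ m : ℕ, ¬ ℓ ∣ (ringExpChar L) ^ m := by
    intro m hm
    exact q_pow_ne_zero ℓ L m ((ZMod.natCast_eq_zero_iff _ _).2 hm)
  -- the functionals
  have hfn : ∀ S : Finset M, (∀ x : L, x ≠ 0 → ∃ m : ℕ, ¬ ℓ ∣ m ∧ ∃ y : M,
      (Q S).valuation (x ^ m) = (Q S).valuation (y : L)) →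
      ∃ h : V ℓ L →ₗ[ZMod ℓ] ZMod ℓ, (∀ z, (Q S).valuation z = 1 → h (cl ℓ z) = 0) ∧
        h (cl ℓ ϖ) = 1 := by
    intro S hS
    refine mon_fn (l := l) hw.pne (fun x hx => ?_) (fun c hc hc0 b h1 => ?_)
    · obtain ⟨m, hm, y, hy⟩ := hS x hx
      have hy0 : (y : L) ≠ 0 := by
        intro h0
        rw [h0, map_zero] at hy
        exact (_root_.map_ne_zero _).2 (pow_ne_zero _ hx) hy
      obtain ⟨m', c, b, hc, hc0, h1⟩ := QMon.rep hl (hQq S) hy0 (by rw [hgsp]; exact y.2)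
      refine ⟨m * (ringExpChar L) ^ m', ?_, c, hc, hc0, b, ?_⟩
      · rw [(Fact.out : ℓ.Prime).dvd_mul]
        exact not_or.2 ⟨hm, hℓp m'⟩
      · rw [pow_mul]
        rw [map_mul, map_mul, map_pow] at h1 ⊢
        rwa [hy]
    · have h2 := ((hQq S).one_iff (u := ρ * (c₀ S * ϖ ^ n S)⁻¹) hc hc0 0 b).1 (by
        rw [zpow_zero, mul_one]
        exact h1)
      exact h2.2
  have hfn' : ∀ S : Finset M, ∃ h : V ℓ L →ₗ[ZMod ℓ] ZMod ℓ, (∀ x : L, x ≠ 0 → ∃ m : ℕ, ¬ ℓ ∣ m ∧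
      ∃ y : M, (Q S).valuation (x ^ m) = (Q S).valuation (y : L)) →
      (∀ z, (Q S).valuation z = 1 → h (cl ℓ z) = 0) ∧ h (cl ℓ ϖ) = 1 := by
    intro S
    by_cases hS : ∀ x : L, x ≠ 0 → ∃ m : ℕ, ¬ ℓ ∣ m ∧
      ∃ y : M, (Q S).valuation (x ^ m) = (Q S).valuation (y : L)
    · obtain ⟨h, hh⟩ := hfn S hS
      exact ⟨h, fun _ => hh⟩
    · exact ⟨0, fun h => absurd h hS⟩
  choose h hh using hfn'
  refine ⟨U, Q, h, hQ2, ?_⟩
  have hℓ0 : (ℓ : L) ≠ 0 := NeZero.ne _
  have hℓl : (ℓ : L) ∈ l := natCast_mem l ℓ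
  filter_upwards [hQ3] with S hS
  obtain ⟨h1, h2⟩ := hh S hS
  refine ⟨h1, h2, mon_nr hl hfg (hQq S) (by rw [hgsp]; exact halg) ?_⟩
  exact ((hQq S).val_iff hℓl hℓ0).2.2 hℓ

end Vale.Agent.P019P
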