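import Vale.Agent.P019Q.ApC

/-!
# Residues of the constants, adapted functionals and their transfer
-/

namespace Vale.Agent.P019P

open Vale.Agent.P019

set_option linter.style.haveILetI false
set_option linter.unusedSectionVars false

open Polynomial Filter

section rbar

variable {K : Type*} [Field K]

/-- the field of the residues of the elements of `k ∩ W`. -/
noncomputable def rbar (k : Subfield K) (W : ValuationSubring K) :
    Subfield (IsLocalRing.ResidueField W) where
  carrier := {c | ∃ z ∈ k, z ∈ W ∧ rs W z = c}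
  mul_mem' := by
    rintro _ _ ⟨x, hx, hxW, rfl⟩ ⟨y, hy, hyW, rfl⟩
    exact ⟨x * y, k.mul_mem hx hy, mul_mem hxW hyW, rs_mul hxW hyW⟩
  one_mem' := ⟨1, k.one_mem, one_mem _, rs_one⟩
  add_mem' := by
    rintro _ _ ⟨x, hx, hxW, rfl⟩ ⟨y, hy, hyW, rfl⟩
    exact ⟨x + y, k.add_mem hx hy, add_mem hxW hyW, rs_add hxW hyW⟩
  zero_mem' := ⟨0, k.zero_mem, zero_mem _, rs_zero⟩
  neg_mem' := by
    rintro _ ⟨x, hx, hxW, rfl⟩
    exact ⟨-x, k.neg_mem hx, neg_mem hxW, rs_neg hxW⟩
  inv_mem' := by
    rintro _ ⟨x, hx, hxW, rfl⟩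
    by_cases h : W.valuation x = 1
    · refine ⟨x⁻¹, k.inv_mem hx, ?_, rs_inv h⟩
      rw [← W.valuation_le_one_iff, map_inv₀, h, inv_one]
    · have h0 : rs W x = 0 := by
        rw [rs_eq_zero hxW]
        exact lt_of_le_of_ne ((W.valuation_le_one_iff x).2 hxW) h
      exact ⟨0, k.zero_mem, zero_mem _, by rw [h0, inv_zero, rs_zero]⟩

theorem mem_rbar {k : Subfield K} {W : ValuationSubring K} {c : IsLocalRing.ResidueField W} :
    c ∈ rbar k W ↔ ∃ z ∈ k, z ∈ W ∧ rs W z = c := Iff.rfl

theorem rs_mem_rbar {k : Subfield K} {W : ValuationSubring K} {z : K} (hz : z ∈ k)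
    (hzW : z ∈ W) : rs W z ∈ rbar k W := ⟨z, hz, hzW, rfl⟩

theorem rbar_eq_bar {k : Subfield K} {W : ValuationSubring K} (h : TrivOn W k) :
    rbar k W = bar h := by
  ext c
  rw [mem_rbar, mem_bar]
  exact ⟨fun ⟨z, hz, _, hc⟩ => ⟨z, hz, hc⟩, fun ⟨z, hz, hc⟩ => ⟨z, hz, h z hz, hc⟩⟩

theorem rbar_mono {k k' : Subfield K} (h : k ≤ k') (W : ValuationSubring K) :
    rbar k W ≤ rbar k' W := fun _ ⟨z, hz, hzW, hc⟩ => ⟨z, h hz, hzW, hc⟩

/-- the residue field of the constants is algebraically closed. -/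
theorem rbar_ac {k : Subfield K} (hk : IsAlgClosed k) (W : ValuationSubring K) :
    IsAlgClosed (rbar k W) := by
  classical
  apply IsAlgClosed.of_exists_root
  intro p hp hirr
  have hdeg : p.natDegree ≠ 0 := (natDegree_pos_iff_degree_pos.2 (degree_pos_of_irreducible hirr)).ne'
  set n := p.natDegree with hn
  have hz : ∀ i : ℕ, ∃ z ∈ k, z ∈ W ∧ rs W z = (p.coeff i : IsLocalRing.ResidueField W) :=
    fun i => (p.coeff i).2
  choose z hzk hzW hzr using hz
  -- the lift to `k`
  set P : k[X] := X ^ n + ∑ i ∈ Finset.range n, C (⟨z i, hzk i⟩ : k) * X ^ i with hP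
  have hlt : (∑ i ∈ Finset.range n, C (⟨z i, hzk i⟩ : k) * X ^ i).degree < (n : WithBot ℕ) := by
    rw [← mem_degreeLT]
    refine Submodule.sum_mem _ fun i hi => ?_
    rw [mem_degreeLT]
    refine lt_of_le_of_lt (degree_C_mul_X_pow_le i _) ?_
    exact_mod_cast Finset.mem_range.1 hi
  have hPm : P.Monic := monic_X_pow_add hlt
  have hPd : P.degree ≠ 0 := by
    rw [hP, degree_add_eq_left_of_degree_lt (by rwa [degree_X_pow]), degree_X_pow]
    exact_mod_cast hdeg
  obtain ⟨x, hx⟩ := IsAlgClosed.exists_root P hPd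
  have hxK : (x : K) ^ n + ∑ i ∈ Finset.range n, z i * (x : K) ^ i = 0 := by
    have h1 : P.eval x = 0 := hx
    rw [hP, eval_add, eval_pow, eval_X, eval_finsetSum] at h1
    have h2 := congrArg (fun y : k => (y : K)) h1
    simpa using h2
  -- integrality
  set Q : W[X] := X ^ n + ∑ i ∈ Finset.range n, C (⟨z i, hzW i⟩ : W) * X ^ i with hQ
  have hlt' : (∑ i ∈ Finset.range n, C (⟨z i, hzW i⟩ : W) * X ^ i).degree < (n : WithBot ℕ) := by
    rw [← mem_degreeLT]
    refine Submodule.sum_mem _ fun i hi => ?_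
    rw [mem_degreeLT]
    refine lt_of_le_of_lt (degree_C_mul_X_pow_le i _) ?_
    exact_mod_cast Finset.mem_range.1 hi
  have hQm : Q.Monic := monic_X_pow_add hlt'
  have hint : IsIntegral W (x : K) := by
    refine ⟨Q, hQm, ?_⟩
    rw [hQ, eval₂_add, eval₂_pow, eval₂_X, eval₂_finsetSum]
    have h3 : ∀ i, eval₂ (algebraMap W K) (x : K) (C (⟨z i, hzW i⟩ : W) * X ^ i) =
        z i * (x : K) ^ i := by
      intro i
      rw [eval₂_mul, eval₂_C, eval₂_pow, eval₂_X]
      rfl
    rw [Finset.sum_congr rfl fun i _ => h3 i]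
    exact hxK
  obtain ⟨y, hy⟩ := IsIntegrallyClosed.isIntegral_iff.1 hint
  have hyx : (y : K) = (x : K) := hy
  have hxW : (x : K) ∈ W := hyx ▸ y.2
  refine ⟨⟨rs W (x : K), rs_mem_rbar x.2 hxW⟩, ?_⟩
  have hyW : y ^ n + ∑ i ∈ Finset.range n, (⟨z i, hzW i⟩ : W) * y ^ i = 0 := by
    apply Subtype.ext
    have h4 := hxK
    rw [← hyx] at h4
    push_cast
    simpa using h4
  have hres := congrArg (IsLocalRing.residue W) hyW
  rw [map_add, map_pow, map_sum, map_zero] at hres
  have e1 : IsLocalRing.residue W y = rs W (x : K) := by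
    rw [rs_of_mem hxW]
    congr 1
    exact Subtype.ext hyx
  have e2 : ∀ i, IsLocalRing.residue W ((⟨z i, hzW i⟩ : W) * y ^ i) =
      (p.coeff i : IsLocalRing.ResidueField W) * rs W (x : K) ^ i := by
    intro i
    rw [map_mul, map_pow, e1, ← hzr i, rs_of_mem (hzW i)]
  rw [e1, Finset.sum_congr rfl fun i _ => e2 i] at hres
  apply Subtype.ext
  rw [hp.as_sum, eval_add, eval_pow, eval_X, eval_finsetSum]
  rw [← hn]
  simpa using hres

end rbar

section RF

variable {K : Type*} [Field K]

/-- the perfect closure of the residue field. -/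
def RFP (W : ValuationSubring K) : Type _ :=
  perfectClosure (IsLocalRing.ResidueField W) (AlgebraicClosure (IsLocalRing.ResidueField W))

noncomputable instance (W : ValuationSubring K) : Field (RFP W) :=
  inferInstanceAs (Field (perfectClosure (IsLocalRing.ResidueField W)
    (AlgebraicClosure (IsLocalRing.ResidueField W))))

instance (W : ValuationSubring K) : PerfectField (RFP W) :=
  inferInstanceAs (PerfectField (perfectClosure (IsLocalRing.ResidueField W)
    (AlgebraicClosure (IsLocalRing.ResidueField W))))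

/-- the embedding of the residue field in its perfect closure. -/
noncomputable def rf (W : ValuationSubring K) : IsLocalRing.ResidueField W →+* RFP W :=
  algebraMap (IsLocalRing.ResidueField W) (perfectClosure (IsLocalRing.ResidueField W)
    (AlgebraicClosure (IsLocalRing.ResidueField W)))

theorem rf_pow (W : ValuationSubring K) (x : RFP W) :
    ∃ (m : ℕ) (y : IsLocalRing.ResidueField W),
      rf W y = x ^ ringExpChar (IsLocalRing.ResidueField W) ^ m := by
  have h := x.2
  rw [mem_perfectClosure_iff] at h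
  obtain ⟨m, y, hy⟩ := h
  refine ⟨m, y, Subtype.ext ?_⟩
  exact hy

theorem rf_injective (W : ValuationSubring K) : Function.Injective (rf W) := (rf W).injective

/-- residues in the perfect closure. -/
noncomputable def rsP (W : ValuationSubring K) (z : K) : RFP W := rf W (rs W z)

/-- residues of the constants. -/
noncomputable def rbarP (k : Subfield K) (W : ValuationSubring K) : Subfield (RFP W) :=
  (rbar k W).map (rf W)

theorem mem_rbarP {k : Subfield K} {W : ValuationSubring K} {c : RFP W} :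
    c ∈ rbarP k W ↔ ∃ z ∈ k, z ∈ W ∧ rsP W z = c := by
  constructor
  · rintro ⟨_, ⟨z, hz, hzW, rfl⟩, rfl⟩
    exact ⟨z, hz, hzW, rfl⟩
  · rintro ⟨z, hz, hzW, rfl⟩
    exact ⟨_, ⟨z, hz, hzW, rfl⟩, rfl⟩

theorem rf_mem_rbarP {k : Subfield K} {W : ValuationSubring K} {c : IsLocalRing.ResidueField W} :
    rf W c ∈ rbarP k W ↔ c ∈ rbar k W :=
  ⟨fun ⟨_, hy, h⟩ => by rwa [← rf_injective W h], fun h => ⟨c, h, rfl⟩⟩

theorem rbarP_ac {k : Subfield K} (hk : IsAlgClosed k) (W : ValuationSubring K) :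
    IsAlgClosed (rbarP k W) := by
  have hl := rbar_ac hk W
  let e0 : rbar k W →+* rbarP k W := ((rf W).comp (rbar k W).subtype).codRestrict (rbarP k W)
    fun x => ⟨x, x.2, rfl⟩
  have hb : Function.Bijective e0 := by
    refine ⟨e0.injective, ?_⟩
    rintro ⟨_, ⟨x, hx, rfl⟩⟩
    exact ⟨⟨x, hx⟩, rfl⟩
  let e := RingEquiv.ofBijective e0 hb
  apply IsAlgClosed.of_exists_root
  intro p hp hirr
  obtain ⟨c, hc⟩ := IsAlgClosed.exists_root (p.map (e.symm : rbarP k W →+* rbar k W)) (by
    rw [degree_map]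
    exact (degree_pos_of_irreducible hirr).ne')
  refine ⟨e c, ?_⟩
  have h1 : e.symm (p.eval (e c)) = 0 := by
    rw [IsRoot.def, eval_map] at hc
    rw [← hc]
    have h2 := hom_eval₂ p (RingHom.id _) (e.symm : rbarP k W →+* rbar k W) (e c)
    rw [RingHom.comp_id] at h2
    simpa using h2
  rwa [map_eq_zero] at h1

/-- the composite of a valuation ring with a valuation ring of the perfect closure of its
residue field. -/
noncomputable def comP (W : ValuationSubring K) (Q : ValuationSubring (RFP W)) :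
    ValuationSubring K := compos W (Q.comap (rf W))

theorem mem_comP {W : ValuationSubring K} {Q : ValuationSubring (RFP W)} {z : K} :
    z ∈ comP W Q ↔ z ∈ W ∧ rsP W z ∈ Q := mem_compos

end RF

section adp

variable {ℓ : ℕ} [Fact ℓ.Prime] {K L : Type*} [Field K] [Field L]

/-- the functional `f` is adapted to the valuation ring `W`: its kernel consists of the unit
classes, and every functional forming a C-pair with `f` kills `U1 W`. -/
structure Adp (W : ValuationSubring K) (f : V ℓ K →ₗ[ZMod ℓ] ZMod ℓ) : Prop where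
  ne : f ≠ 0
  ker : ∀ v, f v = 0 ↔ v ∈ UC ℓ W
  le : U1 ℓ W ≤ H f

/-- the valuation ring `O` corresponds to the valuation ring `W` with functional `f`. -/
structure TrA (Θ : V ℓ K ≃ₗ[ZMod ℓ] V ℓ L) (W : ValuationSubring K)
    (f : V ℓ K →ₗ[ZMod ℓ] ZMod ℓ) (O : ValuationSubring L) : Prop where
  unit : ∀ z : L, O.valuation z = 1 → f (Θ.symm (cl ℓ z)) = 0
  iff : ∀ v, Θ v ∈ U1 ℓ O ↔ v ∈ U1 ℓ W

end adp

end Vale.Agent.P019P
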