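import Vale.Agent.P019R.R0
import Vale.Agent.P019Q.ResC

/-!
# Transfer of valuation rings with adapted functionals
-/

namespace Vale.Agent.P019P

open Vale.Agent.P019

set_option linter.style.haveILetI false
set_option linter.unusedSectionVars false
set_option linter.unusedVariables false

open Polynomial Filter

variable {K L : Type*} [Field K] [Field L] {ℓ : ℕ} [Fact ℓ.Prime]
  {Θ : V ℓ K ≃ₗ[ZMod ℓ] V ℓ L}

theorem Adp.H_eq (hneg : ∃ i : K, i ^ ℓ = -1) {W : ValuationSubring K}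
    {f : V ℓ K →ₗ[ZMod ℓ] ZMod ℓ} (h : Adp W f) : H f = U1 ℓ W :=
  le_antisymm (H_le_U1 hneg W f (fun z hz => (h.ker _).2 (cl_mem_UC hz))) h.le

/-- an adapted functional takes the value `1`. -/
theorem Adp.exists_one {W : ValuationSubring K} {f : V ℓ K →ₗ[ZMod ℓ] ZMod ℓ} (h : Adp W f) :
    ∃ v₀ : V ℓ K, f v₀ = 1 := by
  have h1 : ∃ v, f v ≠ 0 := by
    by_contra hcon
    push Not at hcon
    exact h.ne (LinearMap.ext hcon)
  obtain ⟨v, hv⟩ := h1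
  refine ⟨(f v)⁻¹ • v, ?_⟩
  rw [map_smul, smul_eq_mul, inv_mul_cancel₀ hv]

/-- discrete valuations are adapted. -/
theorem IsUnif.adp {K : Type*} [Field K] [PerfectField K] {ℓ : ℕ} [Fact ℓ.Prime]
    [NeZero (ℓ : K)] (hneg : ∃ i : K, i ^ ℓ = -1) {W : ValuationSubring K} {π : K}
    (hW : IsUnif W π) : Adp W (hW.fn ℓ) := by
  refine ⟨fun h0 => ?_, fun v => (hW.mem_UC_iff v).symm, U1_le_H hW⟩
  have h1 := hW.fn_self ℓ
  rw [h0, LinearMap.zero_apply] at h1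
  exact zero_ne_one h1

/-- existence of transferred valuations. -/
theorem exists_trA (hΘ : Compatible Θ) (hnegK : ∃ i : K, i ^ ℓ = -1)
    (hnegL : ∃ i : L, i ^ ℓ = -1) {W : ValuationSubring K} {f : V ℓ K →ₗ[ZMod ℓ] ZMod ℓ}
    (hW : Adp W f) {g₀ : K}
    (h₀ : ∀ i j : ZMod ℓ, i • cl ℓ g₀ + j • cl ℓ (1 - g₀) ∈ U1 ℓ W → i = 0 ∧ j = 0) :
    ∃ O : ValuationSubring L, TrA Θ W f O := by
  have hH := hW.H_eq hnegK
  obtain ⟨O, h1, h2⟩ := exists_transfer hΘ hnegL f g₀ (by rw [hH]; exact h₀)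
  refine ⟨O, h1, fun v => ⟨?_, ?_⟩⟩
  · rintro ⟨m, hm, hv⟩
    have := h2 m hm
    rw [← hv, LinearEquiv.symm_apply_apply, hH] at this
    exact this
  · intro hv
    have h3 : H (f ∘ₗ Θ.symm.toLinearMap) ≤ U1 ℓ O :=
      H_le_U1 hnegL O _ (fun z hz => h1 z hz)
    apply h3
    rw [← hH] at hv
    have := (hΘ.symm.mem_H (f := f) (v := Θ v))
    rw [LinearEquiv.symm_apply_apply] at this
    exact this.1 hv

/-- the kernel of the transferred functional consists of the unit classes. -/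
theorem TrA.uc (hΘ : Compatible Θ) (hnegK : ∃ i : K, i ^ ℓ = -1)
    (hnegL : ∃ i : L, i ^ ℓ = -1) {W : ValuationSubring K} {f : V ℓ K →ₗ[ZMod ℓ] ZMod ℓ}
    (hW : Adp W f) {O : ValuationSubring L} (hT : TrA Θ W f O)
    (hNC : NoCtr ℓ (IsLocalRing.ResidueField W)) (v : V ℓ L) :
    v ∈ UC ℓ O ↔ f (Θ.symm v) = 0 := by
  constructor
  · rintro ⟨z, hz, rfl⟩
    exact hT.unit z hz
  intro hv
  by_contra hvn
  obtain ⟨f', hf'v, hf'U⟩ := Submodule.exists_le_ker_of_notMem hvn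
  have hf'1 : ∀ z : L, O.valuation z = 1 → f' (cl ℓ z) = 0 := fun z hz => hf'U (cl_mem_UC hz)
  set F : V ℓ K →ₗ[ZMod ℓ] ZMod ℓ := f' ∘ₗ Θ.toLinearMap with hF
  have hfU1 : ∀ w ∈ U1 ℓ W, F w = 0 := fun w hw =>
    hf'U (U1_le_UC O ((hT.iff w).2 hw))
  have hpair : ∀ g : V ℓ K →ₗ[ZMod ℓ] ZMod ℓ, (∀ w ∈ U1 ℓ W, g w = 0) → CPair F g := by
    intro g hg
    have h1 : CPair f' (g ∘ₗ Θ.symm.toLinearMap) := by
      refine cpair_of_U1 hnegL O f' _ hf'1 fun w hw => hg _ ?_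
      rw [← hT.iff]
      change Θ (Θ.symm w) ∈ _
      rwa [LinearEquiv.apply_symm_apply]
    have h2 := hΘ.cpair h1
    have h3 : (g ∘ₗ Θ.symm.toLinearMap) ∘ₗ Θ.toLinearMap = g := by
      ext w
      simp
    rwa [h3] at h2
  obtain ⟨r, hr1, hrs, hrk⟩ := exists_resmap (ℓ := ℓ) W
  obtain ⟨s, hs⟩ := LinearMap.exists_rightInverse_of_surjective r (LinearMap.range_eq_top.2 hrs)
  set h : V ℓ (IsLocalRing.ResidueField W) →ₗ[ZMod ℓ] ZMod ℓ :=
    F ∘ₗ (UC ℓ W).subtype ∘ₗ s with hh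
  have hhr : ∀ w : UC ℓ W, h (r w) = F w := by
    intro w
    have h1 : r (s (r w) - w) = 0 := by
      rw [map_sub, sub_eq_zero]
      exact LinearMap.congr_fun hs (r w)
    have h2 := hfU1 _ ((hrk _).1 h1)
    have h3 : F ((s (r w) - w : UC ℓ W) : V ℓ K) = F (s (r w) : V ℓ K) - F (w : V ℓ K) := by
      rw [← map_sub]; rfl
    rw [h3, sub_eq_zero] at h2
    exact h2
  have hh0 : h = 0 := by
    apply hNC
    intro x hx0 hx1 hhx
    obtain ⟨u, hu, rfl⟩ := rs_surj x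
    have hu1 : W.valuation u = 1 := (rs_ne_zero hu).1 hx0
    have hu2 : 1 - u ∈ W := sub_mem (one_mem W) hu
    have e1 : rs W (1 - u) = 1 - rs W u := by rw [rs_sub (one_mem W) hu, rs_one]
    have hu3 : W.valuation (1 - u) = 1 := by
      rw [← rs_ne_zero hu2, e1]
      exact sub_ne_zero.2 (Ne.symm hx1)
    have hfu : F (cl ℓ u) = h (cl ℓ (rs W u)) := by
      rw [← hr1 u hu1, hhr]
    set a : ZMod ℓ := F (cl ℓ (1 - u)) / F (cl ℓ u) with ha
    have hfu0 : F (cl ℓ u) ≠ 0 := by rw [hfu]; exact hhx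
    have hw : cl ℓ (1 - u) - a • cl ℓ u ∈ U1 ℓ W := by
      by_contra hwn
      obtain ⟨g, hg1, hg2⟩ := Submodule.exists_le_ker_of_notMem hwn
      apply hg1
      have h4 := hpair g (fun w hw => hg2 hw) u
      rw [map_sub, map_smul, smul_eq_mul, ha]
      field_simp
      linear_combination h4
    refine ⟨a, ?_⟩
    have h5 := (hrk (⟨cl ℓ (1 - u), cl_mem_UC hu3⟩ - a • ⟨cl ℓ u, cl_mem_UC hu1⟩)).2 hw
    rw [map_sub, map_smul, hr1 _ hu3, hr1 _ hu1, sub_eq_zero, e1] at h5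
    exact h5
  have hfunit : ∀ z, W.valuation z = 1 → F (cl ℓ z) = 0 := by
    intro z hz
    have h6 := hhr ⟨cl ℓ z, cl_mem_UC hz⟩
    rw [hh0, LinearMap.zero_apply] at h6
    exact h6.symm
  obtain ⟨z, hz, hzv⟩ := mem_UC.1 ((hW.ker _).1 hv)
  have h7 := hfunit z hz
  rw [← hzv] at h7
  apply hf'v
  have h8 : F (Θ.symm v) = f' v := by
    rw [hF, LinearMap.comp_apply]
    change f' (Θ (Θ.symm v)) = _
    rw [LinearEquiv.apply_symm_apply]
  rw [← h8, h7]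

/-- the isomorphism of the residue fields. -/
theorem TrA.res (hΘ : Compatible Θ) (hnegK : ∃ i : K, i ^ ℓ = -1)
    (hnegL : ∃ i : L, i ^ ℓ = -1) {W : ValuationSubring K} {f : V ℓ K →ₗ[ZMod ℓ] ZMod ℓ}
    (hW : Adp W f) {O : ValuationSubring L} (hT : TrA Θ W f O)
    (hNC : NoCtr ℓ (IsLocalRing.ResidueField W)) :
    ∃ Θ' : V ℓ (IsLocalRing.ResidueField W) ≃ₗ[ZMod ℓ] V ℓ (IsLocalRing.ResidueField O),
      Compatible Θ' ∧ ResMap ℓ Θ W O Θ' := by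
  have hℓ : ℓ ≠ 0 := (Fact.out : ℓ.Prime).ne_zero
  have hUC : ∀ v, Θ v ∈ UC ℓ O ↔ v ∈ UC ℓ W := by
    intro v
    rw [hT.uc hΘ hnegK hnegL hW hNC, LinearEquiv.symm_apply_apply, hW.ker]
  have hmap : (UC ℓ W).map (Θ : V ℓ K →ₗ[ZMod ℓ] V ℓ L) = UC ℓ O := by
    ext w
    constructor
    · rintro ⟨v, hv, rfl⟩
      exact (hUC v).2 hv
    · intro hw
      refine ⟨Θ.symm w, ?_, by simp⟩
      exact (hUC _).1 (by rw [LinearEquiv.apply_symm_apply]; exact hw)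
  obtain ⟨rW, rW1, rW2, rW3⟩ := exists_rc hℓ W
  obtain ⟨rO, rO1, rO2, rO3⟩ := exists_rc hℓ O
  let e : UC ℓ W ≃ₗ[ZMod ℓ] UC ℓ O := Θ.ofSubmodules (UC ℓ W) (UC ℓ O) hmap
  have he : ∀ v : UC ℓ W, ((e v : UC ℓ O) : V ℓ L) = Θ v := fun v => rfl
  obtain ⟨Θ', hΘ'⟩ := exists_induced rW rW2 rO rO2 e fun v => by
    rw [rW3, rO3, he]
    exact hT.iff v
  have hres : ResMap ℓ Θ W O Θ' := by
    intro z z' hz hz' hzz
    have h1 := hΘ' ⟨cl ℓ z, mem_UC.2 ⟨z, hz, rfl⟩⟩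
    rw [rW1 z hz _ rfl] at h1
    rw [h1]
    exact rO1 z' hz' _ (by rw [he]; exact hzz)
  obtain ⟨v₀, hv₀⟩ := hW.exists_one
  refine ⟨Θ', ?_, hres⟩
  obtain ⟨spO, so1, so2⟩ := exists_sp hnegL hℓ O (f ∘ₗ (Θ.symm : V ℓ L →ₗ[ZMod ℓ] V ℓ K))
    (fun v => hT.uc hΘ hnegK hnegL hW hNC v) (Θ v₀) (by
      rw [LinearMap.comp_apply, LinearEquiv.coe_coe, LinearEquiv.symm_apply_apply]
      exact hv₀)
  obtain ⟨spW, sw1, sw2⟩ := exists_sp hnegK hℓ W f (fun v => (hW.ker v).symm) v₀ hv₀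
  refine compatible_of (fun a => ?_) fun a => ?_
  · by_cases ha0 : a = 0
    · rw [ha0, cl_zero, map_zero]
      exact orth_zero_left _
    by_cases ha1 : 1 - a = 0
    · rw [ha1, cl_zero, map_zero]
      exact orth_zero_right _
    obtain ⟨x, hx, rfl⟩ := rs_surj a
    have hx1 : W.valuation x = 1 := (rs_ne_zero hx).1 ha0
    have e1 : rs W (1 - x) = 1 - rs W x := by rw [rs_sub (one_mem W) hx, rs_one]
    have hx2 : W.valuation (1 - x) = 1 :=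
      (rs_ne_zero (sub_mem (one_mem W) hx)).1 (by rw [e1]; exact ha1)
    have key : ∀ y : K, W.valuation y = 1 → Θ' (cl ℓ (rs W y)) = spO (Θ (cl ℓ y)) := by
      intro y hy
      obtain ⟨y', hy', hyy⟩ := mem_UC.1 ((hUC (cl ℓ y)).2 (mem_UC.2 ⟨y, hy, rfl⟩))
      rw [hres y y' hy hy' hyy, hyy, so1 y' hy']
    rw [← e1, key x hx1, key _ hx2]
    exact so2 _ _ (hΘ.orth (orth_one_sub x))
  · by_cases ha0 : a = 0
    · rw [ha0, cl_zero, map_zero]
      exact orth_zero_left _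
    by_cases ha1 : 1 - a = 0
    · rw [ha1, cl_zero, map_zero]
      exact orth_zero_right _
    obtain ⟨x, hx, rfl⟩ := rs_surj a
    have hx1 : O.valuation x = 1 := (rs_ne_zero hx).1 ha0
    have e1 : rs O (1 - x) = 1 - rs O x := by rw [rs_sub (one_mem O) hx, rs_one]
    have hx2 : O.valuation (1 - x) = 1 :=
      (rs_ne_zero (sub_mem (one_mem O) hx)).1 (by rw [e1]; exact ha1)
    have key : ∀ y : L, O.valuation y = 1 →
        Θ'.symm (cl ℓ (rs O y)) = spW (Θ.symm (cl ℓ y)) := by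
      intro y hy
      have h3 : Θ.symm (cl ℓ y) ∈ UC ℓ W := (hUC _).1 (by
        rw [LinearEquiv.apply_symm_apply]
        exact mem_UC.2 ⟨y, hy, rfl⟩)
      obtain ⟨z, hz, hzy⟩ := mem_UC.1 h3
      have h4 : Θ (cl ℓ z) = cl ℓ y := by rw [← hzy, LinearEquiv.apply_symm_apply]
      rw [hzy, sw1 z hz, LinearEquiv.symm_apply_eq]
      exact (hres z y hz hy h4).symm
    rw [← e1, key x hx1, key _ hx2]
    exact sw2 _ _ (hΘ.symm.orth (orth_one_sub x))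

end Vale.Agent.P019P
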