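import Vale.Agent.P019R.R9
import Vale.Agent.P019R.DJ
import Vale.Agent.P019R.LD
import Vale.Agent.P019Q.SA4

/-!
# Only classes of `k(t)` die in almost all residue fields of the bottom valuations
-/

namespace Vale.Agent.P019P

open Vale.Agent.P019

set_option linter.style.haveILetI false
set_option linter.unusedSectionVars false
set_option linter.unusedVariables false

open Polynomial Filter

section one

variable {K : Type*} [Field K] {W : ValuationSubring K}

theorem r11_char (W : ValuationSubring K) :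
    ringExpChar K = 1 ∨ ringExpChar (RFP W) = ringExpChar K := by
  rcases expChar_is_prime_or_one K (ringExpChar K) with h | h
  · right
    have h1 : ((ringExpChar K : ℕ) : IsLocalRing.ResidueField W) = 0 := by
      rw [← rs_natCast, natCast_expChar_eq_zero K _ h, rs_zero]
    haveI : CharP (IsLocalRing.ResidueField W) (ringExpChar K) :=
      (CharP.charP_iff_prime_eq_zero h).2 h1
    haveI : ExpChar (IsLocalRing.ResidueField W) (ringExpChar K) := ExpChar.prime h
    rw [← ringExpChar_eq_of_hom (rf W)]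
    exact ringExpChar.eq _ _
  · exact Or.inl h

theorem r11_root {F : Subfield (RFP W)} [PerfectField F] {y : RFP W} {m : ℕ}
    (h : y ^ ringExpChar K ^ m ∈ F) : y ∈ F := by
  rcases r11_char W with h1 | h1
  · rwa [h1, one_pow, pow_one] at h
  · rw [← h1] at h
    exact mem_of_pow_q h

/-- the residue field is generated by the residue of `θ`. -/
theorem r11_gen {k : Subfield K} {t s θ c : K} (h : Bot k t s θ W c) (y : RFP W) :
    y ∈ adj (adj (rbarP k W) (rsP W s)) (rsP W θ) := by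
  obtain ⟨m, y', hy'⟩ := rf_pow W y
  obtain ⟨n, hn⟩ := h.gen y'
  have h1 : rf W (y' ^ ringExpChar K ^ n) ∈ adj (adj (rbarP k W) (rsP W s)) (rsP W θ) := by
    have h2 : rf W (y' ^ ringExpChar K ^ n) ∈ (Vale.Agent.P019.adj
        (Vale.Agent.P019.adj (rbar k W) (rs W s)) (rs W θ)).map (rf W) := ⟨_, hn, rfl⟩
    rw [map_adj0, map_adj0] at h2
    refine (Vale.Agent.P019.adj_mono ?_ _ : _ ≤ _) h2 |> adj0_le_adj _ _
    exact adj0_le_adj _ _
  rw [map_pow] at h1
  have h2 := r11_root h1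
  rw [hy', ringExpChar_eq_of_hom (rf W)] at h2
  exact mem_of_pow_q h2

/-- elements of a simple algebraic extension of a perfect field. -/
theorem r11_poly {Ω : Type*} [Field Ω] [PerfectField Ω] {F : Subfield Ω} [PerfectField F] {θ : Ω}
    {p : F[X]} (hp : p.Monic) (h0 : aeval θ p = 0) {w : Ω} (hw : w ∈ adj F θ) :
    ∃ b : ℕ → Ω, (∀ j, b j ∈ F) ∧ w = ∑ j ∈ Finset.range p.natDegree, b j * θ ^ j := by
  have hint : IsIntegral F θ := ⟨p, hp, h0⟩
  haveI : FiniteDimensional F (IntermediateField.adjoin F {θ}) :=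
    IntermediateField.adjoin.finiteDimensional hint
  haveI : PerfectField (IntermediateField.adjoin F {θ}) := Algebra.IsAlgebraic.perfectField (K := F)
  have h1 : w ∈ IntermediateField.adjoin F {θ} := by
    haveI : PerfectField (IntermediateField.adjoin F {θ}).toSubfield :=
      inferInstanceAs (PerfectField (IntermediateField.adjoin F {θ}))
    refine (adj_le (F := (IntermediateField.adjoin F {θ}).toSubfield) ?_ ?_ : adj F θ ≤ _) hw
    · exact fun x hx => (IntermediateField.adjoin F {θ}).algebraMap_mem ⟨x, hx⟩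
    · exact IntermediateField.mem_adjoin_simple_self F θ
  have h2 : w ∈ (IntermediateField.adjoin F {θ}).toSubalgebra := h1
  rw [IntermediateField.adjoin_simple_toSubalgebra_of_isAlgebraic hint.isAlgebraic,
    Algebra.adjoin_singleton_eq_range_aeval] at h2
  obtain ⟨P, hP⟩ := h2
  have hP' : aeval θ P = w := hP
  have hp1 : p ≠ 1 := by
    rintro rfl
    rw [map_one] at h0
    exact one_ne_zero h0
  refine ⟨fun j => (((P %ₘ p).coeff j : F) : Ω), fun j => ((P %ₘ p).coeff j).2, ?_⟩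
  have h3 : aeval θ (P %ₘ p) = w := by
    rw [aeval_modByMonic_eq_self_of_root h0]
    exact hP'
  rw [← h3, aeval_eq_sum_range' (natDegree_modByMonic_lt P hp hp1)]
  rfl

end one

section fam

variable {K : Type*} [Field K] [PerfectField K] {k : Subfield K} {t s θ : K}
  {I : Type*} {U : Ultrafilter I} {W : I → ValuationSubring K} {c : I → K}

/-- the minimal polynomial of `θ` reduces. -/
theorem r11_red (hu : Ulu U W) {M : Subfield K} (hM : IsAlgebraic M θ)
    (hres : ∀ᶠ i in U, ∀ z ∈ M, z ∈ W i → rsP (W i) z ∈ adj (rbarP k (W i)) (rsP (W i) s)) :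
    ∃ d : ℕ, ∀ᶠ i in U, ∃ p : (adj (rbarP k (W i)) (rsP (W i) s))[X],
      p.Monic ∧ p.natDegree = d ∧ aeval (rsP (W i) θ) p = 0 := by
  classical
  set m := minpoly M θ with hm
  have hmm : m.Monic := minpoly.monic hM.isIntegral
  refine ⟨m.natDegree, ?_⟩
  have h1 : ∀ᶠ i in U, ∀ j ∈ Finset.range m.natDegree, ((m.coeff j : M) : K) ∈ W i := by
    rw [Filter.eventually_all_finset]
    exact fun j _ => hu.mem _
  filter_upwards [hres, h1, hu.mem θ] with i h2 h3 h4
  set F := adj (rbarP k (W i)) (rsP (W i) s) with hF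
  have h5 : ∀ j ∈ Finset.range m.natDegree, rsP (W i) ((m.coeff j : M) : K) ∈ F := fun j hj =>
    h2 _ (m.coeff j).2 (h3 j hj)
  set r : F[X] := ∑ j ∈ (Finset.range m.natDegree).attach,
    C (⟨rsP (W i) ((m.coeff j.1 : M) : K), h5 j.1 j.2⟩ : F) * X ^ j.1 with hr
  have hdeg : r.degree < (m.natDegree : WithBot ℕ) := by
    refine (degree_sum_le _ _).trans_lt ?_
    rw [Finset.sup_lt_iff (WithBot.bot_lt_coe _)]
    intro j _
    refine (degree_C_mul_X_pow_le _ _).trans_lt ?_
    exact_mod_cast Finset.mem_range.1 j.2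
  refine ⟨X ^ m.natDegree + r, monic_X_pow_add hdeg, ?_, ?_⟩
  · refine natDegree_eq_of_degree_eq_some ?_
    rw [degree_add_eq_left_of_degree_lt (by rw [degree_X_pow]; exact hdeg), degree_X_pow]
  have h6 : aeval (rsP (W i) θ) r =
      ∑ j ∈ Finset.range m.natDegree, rsP (W i) (((m.coeff j : M) : K) * θ ^ j) := by
    rw [hr, map_sum, ← Finset.sum_attach (Finset.range m.natDegree)]
    refine Finset.sum_congr rfl fun j _ => ?_
    rw [map_mul, map_pow, aeval_X, aeval_C, rsP_mul (h3 j.1 j.2) (pow_mem h4 _), rsP_pow h4]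
    rfl
  rw [map_add, map_pow, aeval_X, h6, ← rsP_pow h4,
    ← rsP_sum _ _ (fun j hj => mul_mem (h3 j hj) (pow_mem h4 _)),
    ← rsP_add (pow_mem h4 _) (sum_mem fun j hj => mul_mem (h3 j hj) (pow_mem h4 _))]
  have h7 : θ ^ m.natDegree + ∑ j ∈ Finset.range m.natDegree, ((m.coeff j : M) : K) * θ ^ j
      = 0 := by
    have h8 := minpoly.aeval M θ
    rw [← hm, aeval_eq_sum_range, Finset.sum_range_succ, hmm.coeff_natDegree, one_smul,
      add_comm] at h8
    exact h8
  rw [h7, rsP_zero]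

/-- powers of `t - c` are not values of constants. -/
theorem r11_zero {W : ValuationSubring K} {c : K} (h : Bot0 k t s W c) {a : K} (ha : a ∈ k)
    {n : ℤ} (h1 : W.valuation ((t - c) ^ n * a) = 1) : n = 0 := by
  by_cases h0 : t - c = 0
  · by_contra hn
    rw [h0, zero_zpow n hn, zero_mul, map_zero] at h1
    exact zero_ne_one h1
  have hx0 : 0 < W.valuation (t - c) := zero_lt_iff.2 ((Valuation.ne_zero_iff _).2 h0)
  rw [map_mul, map_zpow₀] at h1
  -- constants of value smaller than one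
  have key : ∀ b ∈ k, ∀ m : ℤ, W.valuation (t - c) ^ m * W.valuation b = 1 →
      ¬ W.valuation b < 1 := by
    intro b hb m hm hb1
    have h2 : W.valuation b = W.valuation (t - c) ^ (-m) := by
      rw [zpow_neg]
      exact eq_inv_of_mul_eq_one_right hm
    have h3 := h.inf b hb hb1 (-m).toNat
    rw [h2] at h3
    by_cases hm0 : 0 ≤ -m
    · rw [← zpow_natCast, Int.toNat_of_nonneg hm0] at h3
      exact lt_irrefl _ h3
    · rw [h2] at hb1
      exact absurd ((zpow_lt_one_iff_right_of_lt_one₀ hx0 h.tc).1 hb1) (by omega)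
  rcases lt_trichotomy (W.valuation a) 1 with h2 | h2 | h2
  · exact absurd h2 (key a ha n h1)
  · rw [h2, mul_one] at h1
    exact (zpow_eq_one_iff_right₀ hx0.le h.tc.ne).1 h1
  · exfalso
    refine key a⁻¹ (k.inv_mem ha) (-n) ?_ ?_
    · rw [zpow_neg, map_inv₀, ← mul_inv, h1, inv_one]
    · rw [map_inv₀]
      exact inv_lt_one_of_one_lt₀ h2

/-- units of `k(t, s)` have residues in the residue field of `k(s)`. -/
theorem r11_res {W : ValuationSubring K} {c : K} (h : Bot0 k t s W c) {z : K}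
    (hz : z ∈ adj (adj k s) t) (hzW : z ∈ W) : rsP W z ∈ adj (rbarP k W) (rsP W s) := by
  by_cases h0 : rsP W z = 0
  · rw [h0]
    exact Subfield.zero_mem _
  have h1 : W.valuation z = 1 := (rsP_ne_zero hzW).1 h0
  have hz0 : z ≠ 0 := by
    rintro rfl
    exact h0 rsP_zero
  obtain ⟨m, n, a, ha, ha0, h2, h3⟩ := h.rep z hz hz0
  have h4 : W.valuation ((t - c) ^ n * a) = 1 := by
    rw [mul_assoc, map_mul, map_pow, h1, one_pow, one_mul] at h2
    exact h2
  have hn := r11_zero h ha h4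
  subst hn
  rw [zpow_zero, mul_one] at h2 h3
  rw [zpow_zero, one_mul] at h4
  have haW : a ∈ W := (W.valuation_le_one_iff a).1 h4.le
  have h5 : rsP W (z ^ ringExpChar K ^ m * a) ∈ adj (rbarP k W) (rsP W s) := by
    have h6 : rf W (rs W (z ^ ringExpChar K ^ m * a)) ∈
        (Vale.Agent.P019.adj (rbar k W) (rs W s)).map (rf W) := ⟨_, h3, rfl⟩
    rw [map_adj0] at h6
    exact adj0_le_adj _ _ h6
  rw [rsP_mul (pow_mem hzW _) haW, rsP_pow hzW] at h5
  have h7 : rsP W a ∈ adj (rbarP k W) (rsP W s) := le_adj _ _ (rsP_mem_rbarP ha haW)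
  have h8 : rsP W a ≠ 0 := (rsP_ne_zero haW).2 h4
  have h9 : rsP W z ^ ringExpChar K ^ m =
      rsP W z ^ ringExpChar K ^ m * rsP W a / rsP W a := by
    field_simp
  refine r11_root (m := m) ?_
  rw [h9]
  exact Subfield.div_mem _ h5 h7

/-- the ultraproduct of the residue fields. -/
theorem r11_sup (hu : Ulu U W) (hW : ∀ᶠ i in U, Bot k t s θ (W i) (c i))
    {d : ℕ} (hd : ∀ᶠ i in U, ∃ p : (adj (rbarP k (W i)) (rsP (W i) s))[X],
      p.Monic ∧ p.natDegree = d ∧ aeval (rsP (W i) θ) p = 0)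
    (w : DGm U (fun i => RFP (W i))) :
    w ∈ dF U W k s ⊔ (⊤ : Subfield K).map hu.dj := by
  classical
  obtain ⟨f, rfl⟩ := dgm_surj U _ w
  have h1 : ∀ i, ∃ b : ℕ → RFP (W i), (∀ j, b j ∈ adj (rbarP k (W i)) (rsP (W i) s)) ∧
      ((Bot k t s θ (W i) (c i)) → (∃ p : (adj (rbarP k (W i)) (rsP (W i) s))[X],
      p.Monic ∧ p.natDegree = d ∧ aeval (rsP (W i) θ) p = 0) →
      f i = ∑ j ∈ Finset.range d, b j * rsP (W i) θ ^ j) := by
    intro i
    by_cases hi : (Bot k t s θ (W i) (c i)) ∧ (∃ p : (adj (rbarP k (W i)) (rsP (W i) s))[X],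
      p.Monic ∧ p.natDegree = d ∧ aeval (rsP (W i) θ) p = 0)
    · obtain ⟨hb, p, hp, rfl, h0⟩ := hi
      obtain ⟨b, hb1, hb2⟩ := r11_poly hp h0 (r11_gen hb (f i))
      exact ⟨b, hb1, fun _ _ => hb2⟩
    · exact ⟨fun _ => 0, fun _ => Subfield.zero_mem _, fun h2 h3 => absurd ⟨h2, h3⟩ hi⟩
  choose b hb hbf using h1
  have h2 : dgm U _ f = ∑ j ∈ Finset.range d,
      dgm U (fun i => RFP (W i)) (fun i => b i j) * hu.dj θ ^ j := by
    have h3 : dgm U _ f = dgm U (fun i => RFP (W i))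
        (fun i => ∑ j ∈ Finset.range d, b i j * rsP (W i) θ ^ j) := by
      rw [dgm_eq]
      filter_upwards [hW, hd] with i h4 h5
      exact hbf i h4 h5
    rw [h3, dgm_sum (Finset.range d) (fun j i => b i j * rsP (W i) θ ^ j)]
    refine Finset.sum_congr rfl fun j _ => ?_
    rw [dgm_mul, dgm_pow]
    rfl
  rw [h2]
  refine Subfield.sum_mem _ fun j _ => Subfield.mul_mem _ ?_ ?_
  · exact (le_sup_left : dF U W k s ≤ _) ⟨_, rfl, fun i => hb i j⟩
  · refine (le_sup_right : (⊤ : Subfield K).map hu.dj ≤ _) ?_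
    rw [← map_pow]
    exact ⟨_, Subfield.mem_top _, rfl⟩

end fam

variable {K : Type*} [Field K] [PerfectField K] {k : Subfield K} {t s θ : K}
  {I : Type*} {U : Ultrafilter I} {W : I → ValuationSubring K} {c : I → K}

theorem bot_mem {ℓ : ℕ} [Fact ℓ.Prime] [NeZero (ℓ : K)] (hk : IsAlgClosed k)
    (hfg : FG k (⊤ : Subfield K)) (ht : Good k t) (hS : Srf k t s)
    (hW : ∀ᶠ i in U, Bot k t s θ (W i) (c i)) (hu : Ulu U W) {v : V ℓ K} (hv : ∀ᶠ i in U, v ∈ U1 ℓ (W i)) : v ∈ VS ℓ (adj k t) := by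
  classical
  set D := DGm U (fun i => RFP (W i)) with hD
  obtain ⟨z, hz0, rfl⟩ := cl_surj ℓ v
  obtain ⟨w, hw⟩ := (hu.dj_root hz0).2 hv
  obtain ⟨d, hd⟩ := r11_red (s := s) (k := k) hu (hS.alg θ)
    (hW.mono fun i hi z hz hzW => r11_res hi.toBot0 hz hzW)
  have hsup := r11_sup hu hW hd w
  -- everything in an algebraically closed field
  let ι : D →+* AlgebraicClosure D := algebraMap D (AlgebraicClosure D)
  let j : K →+* AlgebraicClosure D := ι.comp hu.dj
  have hjι : ∀ x, j x = ι (hu.dj x) := fun x => rfl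
  haveI : PerfectField k := inferInstance
  haveI : PerfectField (adj k t) := perfect_adj _ _
  haveI hdR := dR_ac (U := U) (O := W) hk
  haveI : PerfectField (dR U W k) := inferInstance
  haveI : NeZero (ℓ : AlgebraicClosure D) := ⟨by
    rw [← map_natCast j, Ne, map_eq_zero]
    exact NeZero.ne (ℓ : K)⟩
  -- `t` is a constant of the limit
  have htR : hu.dj t ∈ dR U W k := by
    rw [hu.dj_mem_dR]
    refine ⟨fun i => if c i ∈ k then c i else 0, fun i => ?_, ?_⟩
    · dsimp only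
      split_ifs with h
      · exact h
      · exact k.zero_mem
    · filter_upwards [hW] with i hi
      rw [if_pos hi.ck]
      exact hi.tc
  have hER0 : (adj k t).map hu.dj ≤ dR U W k :=
    (map_adj_le hu.dj k t).trans (adj_le (hu.map_le k) htR)
  have hst : ∀ᶠ i in U, ¬ IsAlgebraic (rbarP k (W i)) (rsP (W i) s) := by
    filter_upwards [hW] with i hi h
    exact hi.sb (rf_mem_rbarP.1 (RAC_of_isAlgClosed _ (rbarP_ac hk (W i)) _ h))
  haveI : PerfectField ((adj k t).map j) := perfect_map j _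
  haveI : PerfectField ((⊤ : Subfield K).map j) := perfect_map j _
  obtain ⟨ζ, hζk, hζ⟩ := finK_prim hk ℓ
  have hadj : adj ((dR U W k).map ι) (ι (hu.dj s)) = (adj (dR U W k) (hu.dj s)).map ι :=
    le_antisymm (adj_map_le ι _ _) (map_adj_le ι _ _)
  have halg : ∀ x : K, IsAlgebraic (adj ((adj k t).map j) (j s)) (j x) := by
    intro x
    have h1 : IsAlgebraic (adj (adj k t) s) x := adj_comm_alg (hS.alg x)
    exact isAlgebraic_mono (map_adj_le j _ _) (isAlgebraic_map j h1)
  have key := ld_pow (Ω := AlgebraicClosure D) ℓ (E := (adj k t).map j)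
    (K := (⊤ : Subfield K).map j) (R := (dR U W k).map ι) (F := (dF U W k s).map ι)
    (sub_map_mono j le_top) ?_ (isAlgClosed_map ι hdR) ?_ (ζ := j ζ) ⟨ζ, le_adj k t hζk, rfl⟩
    (hζ.map_of_injective j.injective) (s := j s) ⟨s, Subfield.mem_top s, rfl⟩ ?_ ?_ ?_ ?_
    (w := ι w) (z := j z) ?_ ⟨z, Subfield.mem_top z, rfl⟩ ?_ ?_
  · obtain ⟨_, ⟨e, he, rfl⟩, _, ⟨u, -, rfl⟩, h1⟩ := key
    rw [← map_pow, ← map_mul] at h1
    have h2 := j.injective h1
    have he0 : e ≠ 0 := by
      rintro rfl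
      rw [zero_mul] at h2
      exact hz0 h2
    have hu0 : u ≠ 0 := by
      rintro rfl
      rw [zero_pow (Fact.out : ℓ.Prime).ne_zero, mul_zero] at h2
      exact hz0 h2
    have h3 : cl ℓ z = cl ℓ e := (cl_eq_iff ℓ hz0 he0).2 ⟨u, hu0, h2⟩
    rw [h3]
    exact cl_mem_VS he
  · rintro _ ⟨x, hx, rfl⟩
    exact ⟨hu.dj x, hER0 ⟨x, hx, rfl⟩, rfl⟩
  · rintro _ ⟨x, -, rfl⟩ hx
    exact ⟨x, ht.2 x (isAlgebraic_of_map j hx), rfl⟩
  · intro h1
    exact hu.dj_transc hst (isAlgebraic_of_map ι h1)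
  · rintro _ ⟨x, -, rfl⟩
    exact halg x
  · rw [hjι, hadj]
    exact sub_map_mono ι hu.adj_le_dF
  · rintro _ ⟨x, hx, rfl⟩ h1
    rw [hjι, hadj] at h1 ⊢
    exact ⟨x, hu.dF_rac hst x hx (isAlgebraic_of_map ι h1), rfl⟩
  · have h1 : ι w ∈ (dF U W k s ⊔ (⊤ : Subfield K).map hu.dj).map ι := ⟨w, hsup, rfl⟩
    rw [Subfield.map_sup, Subfield.map_map, sup_comm] at h1
    exact h1
  · rw [Ne, map_eq_zero]
    exact hz0
  · rw [← map_pow, hw]
    rfl

end Vale.Agent.P019P
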