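import Vale.Agent.P019R.BotB
import Vale.Agent.P019R.R11b
import Vale.Agent.P019R.DSpec
import Vale.Agent.P019Q.ApD

/-!
# Bottom valuations are unramified at almost all members
-/

namespace Vale.Agent.P019P

open Vale.Agent.P019

set_option linter.style.haveILetI false
set_option linter.unusedSectionVars false
set_option linter.unusedVariables false

open Polynomial Filter

section aux

/-- degrees over the image of a field. -/
theorem r10_map_ge {K Ω : Type*} [Field K] [Field Ω] (j : K →+* Ω) {E : Subfield K} {w : K}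
    (hw : IsAlgebraic E w) :
    (minpoly E w).natDegree ≤ (minpoly (E.map j) (j w)).natDegree := by
  let e0 : E →+* E.map j := (j.comp E.subtype).codRestrict (E.map j) fun x => ⟨x, x.2, rfl⟩
  have he0 : Function.Surjective e0 := by
    rintro ⟨_, x, hx, rfl⟩
    exact ⟨⟨x, hx⟩, rfl⟩
  let e : E ≃+* E.map j := RingEquiv.ofBijective e0 ⟨e0.injective, he0⟩
  have hint : IsIntegral (E.map j) (j w) := (isAlgebraic_map j hw).isIntegral
  set P := (minpoly (E.map j) (j w)).map (e.symm : E.map j →+* E) with hP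
  have h1 : aeval w P = 0 := by
    apply j.injective
    rw [map_zero, ← minpoly.aeval (E.map j) (j w), aeval_def, hP, eval₂_map, hom_eval₂,
      aeval_def]
    congr 1
    ext x
    obtain ⟨y, rfl⟩ := e.surjective x
    simp only [RingHom.coe_comp, Function.comp_apply, RingHom.coe_coe, RingEquiv.symm_apply_apply]
    rfl
  have h2 : P ≠ 0 := ((minpoly.monic hint).map _).ne_zero
  have h3 := natDegree_le_of_dvd (minpoly.dvd E w h1) h2
  rwa [hP, natDegree_map] at h3

theorem r10_mono {Ω : Type*} [Field Ω] {E M : Subfield Ω} (h : E ≤ M) {w : Ω}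
    (hw : IsAlgebraic E w) : (minpoly M w).natDegree ≤ (minpoly E w).natDegree :=
  natDegree_minpoly_map_le (RingHom.id Ω) (E := E) (M := M) (by
    rintro _ ⟨x, hx, rfl⟩
    exact h hx) hw

/-- a relation of small degree vanishes. -/
theorem r10_indep {Ω : Type*} [Field Ω] {A : Subfield Ω} {θ : Ω} {d : ℕ}
    (hd : d ≤ (minpoly A θ).natDegree) {a : ℕ → Ω} (ha : ∀ j, a j ∈ A) {j₀ : ℕ} (hj₀ : j₀ < d)
    (h0 : a j₀ ≠ 0) : ∑ j ∈ Finset.range d, a j * θ ^ j ≠ 0 := by
  intro h
  obtain ⟨H, rfl⟩ : ∃ H, d = H + 1 := ⟨d - 1, by omega⟩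
  rw [← aeval_mkPol (hα := ha)] at h
  have h1 : mkPol A H a ha ≠ 0 := by
    intro h2
    have h3 := congrArg (fun p => ((p.coeff j₀ : A) : Ω)) h2
    simp only [coeff_zero] at h3
    rw [coeff_mkPol (Nat.lt_succ_iff.1 hj₀)] at h3
    exact h0 h3
  have h2 := natDegree_le_of_dvd (minpoly.dvd A θ h) h1
  have h3 : (mkPol A H a ha).natDegree ≤ H := natDegree_mkPol
  omega

end aux

variable {K : Type*} [Field K] [PerfectField K] {k : Subfield K} {t s θ : K}
  {I : Type*} {U : Ultrafilter I} {W : I → ValuationSubring K} {c : I → K}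

/-- the degree of `θ` does not drop. -/
theorem r10_deg (hk : IsAlgClosed k) (ht : Good k t) (hS : Srf k t s)
    (hW : ∀ᶠ i in U, Bot0 k t s (W i) (c i)) (hu : Ulu U W) (θ : K) :
    ∀ᶠ i in U, (minpoly (adj (adj k s) t) θ).natDegree ≤
      (minpoly (adj (rbarP k (W i)) (rsP (W i) s)) (rsP (W i) θ)).natDegree := by
  classical
  set d := (minpoly (adj (adj k s) t) θ).natDegree with hd
  have hd0 : 0 < d := minpoly.natDegree_pos (hS.alg θ).isIntegral
  by_contra hcon
  rw [← Ultrafilter.eventually_not] at hcon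
  set D := DGm U (fun i => RFP (W i)) with hD
  have hred := bot_red hk hS hW hu θ
  haveI : PerfectField k := inferInstance
  haveI : PerfectField (adj k t) := perfect_adj _ _
  haveI hdR := dR_ac (U := U) (O := W) hk
  haveI : PerfectField (dR U W k) := inferInstance
  -- `t` is a constant of the limit
  have htR : hu.dj t ∈ dR U W k := by
    rw [hu.dj_mem_dR]
    refine ⟨fun i => if c i ∈ k then c i else 0, fun i => ?_, ?_⟩
    · dsimp only
      split_ifs with h
      · exact h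
      · exact k.zero_mem
    · filter_upwards [hW] with i hi
      rw [if_pos hi.ck]
      exact hi.tc
  have hER : (adj k t).map hu.dj ≤ dR U W k :=
    (map_adj_le hu.dj k t).trans (adj_le (hu.map_le k) htR)
  have hst : ∀ᶠ i in U, ¬ IsAlgebraic (rbarP k (W i)) (rsP (W i) s) :=
    hW.mono fun i hi => hi.transc hk
  haveI : PerfectField ((adj k t).map hu.dj) := perfect_map hu.dj _
  haveI : PerfectField ((⊤ : Subfield K).map hu.dj) := perfect_map hu.dj _
  have halg : ∀ x : K, IsAlgebraic (adj (adj k t) s) x := fun x => adj_comm_alg (hS.alg x)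
  have halg' : ∀ x : K, IsAlgebraic (adj ((adj k t).map hu.dj) (hu.dj s)) (hu.dj x) := fun x =>
    isAlgebraic_mono (map_adj_le hu.dj _ _) (isAlgebraic_map hu.dj (halg x))
  have h1 : d ≤ (minpoly ((adj (adj k t) s).map hu.dj) (hu.dj θ)).natDegree := by
    rw [hd, adj_comm k s t]
    exact r10_map_ge hu.dj (halg θ)
  have h2 : (minpoly ((adj (adj k t) s).map hu.dj) (hu.dj θ)).natDegree ≤
      (minpoly (adj ((adj k t).map hu.dj) (hu.dj s)) (hu.dj θ)).natDegree :=
    r10_mono (adj_map_le hu.dj _ _) (halg' θ)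
  have h3 : (minpoly (adj ((adj k t).map hu.dj) (hu.dj s)) (hu.dj θ)).natDegree ≤
      (minpoly (adj (dR U W k) (hu.dj s)) (hu.dj θ)).natDegree := by
    refine ld_deg (Ω := D) (E := (adj k t).map hu.dj) (K := (⊤ : Subfield K).map hu.dj)
      (R := dR U W k) (sub_map_mono hu.dj le_top) hER hdR ?_ (s := hu.dj s)
      ⟨s, Subfield.mem_top s, rfl⟩ (hu.dj_transc hst) ?_ ⟨θ, Subfield.mem_top θ, rfl⟩
    · rintro _ ⟨x, -, rfl⟩ hx
      exact ⟨x, ht.2 x (isAlgebraic_of_map hu.dj hx), rfl⟩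
    · rintro _ ⟨x, -, rfl⟩
      exact halg' x
  have halgR : IsAlgebraic (adj (dR U W k) (hu.dj s)) (hu.dj θ) :=
    isAlgebraic_mono (adj_mono hER _) (halg' θ)
  have h4 : (minpoly (adj (dR U W k) (hu.dj s)) (hu.dj θ)).natDegree ≤
      (minpoly (dF U W k s) (hu.dj θ)).natDegree :=
    ul1_natDegree hu.adj_le_dF (hu.dF_rac hst) halgR
  -- the small relation
  have hle : d ≤ (minpoly (dF U W k s) (hu.dj θ)).natDegree := h1.trans (h2.trans (h3.trans h4))
  let a : ℕ → (∀ i, RFP (W i)) := fun j i =>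
    (((minpoly (adj (rbarP k (W i)) (rsP (W i) s)) (rsP (W i) θ)).coeff j :
      adj (rbarP k (W i)) (rsP (W i) s)) : RFP (W i))
  have haF : ∀ j, dgm U (fun i => RFP (W i)) (a j) ∈ dF U W k s := fun j =>
    ⟨a j, rfl, fun i => ((minpoly (adj (rbarP k (W i)) (rsP (W i) s)) (rsP (W i) θ)).coeff j).2⟩
  have hsum : ∑ j ∈ Finset.range d, dgm U (fun i => RFP (W i)) (a j) * hu.dj θ ^ j = 0 := by
    have h5 : ∑ j ∈ Finset.range d, dgm U (fun i => RFP (W i)) (a j) * hu.dj θ ^ j =
        dgm U (fun i => RFP (W i)) (fun i => ∑ j ∈ Finset.range d, a j i * rsP (W i) θ ^ j) := by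
      rw [dgm_sum (Finset.range d) (fun j i => a j i * rsP (W i) θ ^ j)]
      refine Finset.sum_congr rfl fun j _ => ?_
      rw [dgm_mul, dgm_pow]
      rfl
    rw [h5, dgm_eq_zero]
    filter_upwards [hcon] with i hi
    have h6 := minpoly.aeval (adj (rbarP k (W i)) (rsP (W i) s)) (rsP (W i) θ)
    rw [aeval_eq_sum_range' (not_le.1 hi)] at h6
    exact h6
  have hne : ∃ j₀ < d, dgm U (fun i => RFP (W i)) (a j₀) ≠ 0 := by
    by_contra h5
    push Not at h5
    have h6 : ∀ᶠ i in U, ∀ j ∈ Finset.range d, a j i = 0 := by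
      rw [Filter.eventually_all_finset]
      intro j hj
      exact dgm_eq_zero.1 (h5 j (Finset.mem_range.1 hj))
    obtain ⟨i, hi1, hi2, hi3⟩ := (h6.and (hcon.and hred)).exists
    have h7 := hi1 _ (Finset.mem_range.2 (not_le.1 hi2))
    change (((minpoly (adj (rbarP k (W i)) (rsP (W i) s)) (rsP (W i) θ)).coeff _ :
      adj (rbarP k (W i)) (rsP (W i) s)) : RFP (W i)) = 0 at h7
    rw [coeff_natDegree, (minpoly.monic hi3.1.isIntegral).leadingCoeff] at h7
    exact one_ne_zero h7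
  obtain ⟨j₀, hj₀, h5⟩ := hne
  exact r10_indep hle haF hj₀ h5 hsum

/-- residues of the elements of `k(s, t)`. -/
theorem PBot.res_mem0 {W : ValuationSubring K} {c : K} (hk : IsAlgClosed k)
    (h : PBot k t s W c) {z : K} (hz : z ∈ adj (adj k s) t) (hzW : z ∈ W) :
    ∃ m : ℕ, rs W z ^ ringExpChar K ^ m ∈ Vale.Agent.P019.adj (rbar k W) (rs W s) := by
  by_cases hz1 : W.valuation z = 1
  · have hz0 : z ≠ 0 := by rintro rfl; rw [map_zero] at hz1; exact zero_ne_one hz1
    obtain ⟨m, n, a, ha, ha0, h1, h2⟩ := h.rep hk hz hz0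
    have h3 : W.valuation (a * (t - c) ^ n) = 1 := by
      rw [map_mul, map_mul, map_pow, hz1, one_pow, one_mul] at h1
      rw [map_mul, mul_comm]
      exact h1
    obtain ⟨hn, hva⟩ := h.inf' ha ha0 h3
    rw [hn, zpow_zero, mul_one, rs_mul (pow_mem hzW _) (mem_of_val hva), rs_pow hzW] at h2
    refine ⟨m, ?_⟩
    have h5 : rs W a ≠ 0 := (rs_ne_zero (mem_of_val hva)).2 hva
    have h6 := Subfield.div_mem _ h2
      (Vale.Agent.P019.le_adj _ (rs W s) (rs_mem_rbar ha (mem_of_val hva)))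
    rwa [mul_div_cancel_right₀ _ h5] at h6
  · have h1 : W.valuation z < 1 := lt_of_le_of_ne ((W.valuation_le_one_iff z).2 hzW) hz1
    refine ⟨0, ?_⟩
    rw [(rs_eq_zero hzW).2 h1, pow_zero, pow_one]
    exact Subfield.zero_mem _

/-- powers of sums in the residue field. -/
theorem r10_sum_pow {W : ValuationSubring K} {ι : Type*} (S : Finset ι)
    (f : ι → IsLocalRing.ResidueField W) (m : ℕ) :
    (∑ i ∈ S, f i) ^ ringExpChar K ^ m = ∑ i ∈ S, f i ^ ringExpChar K ^ m := by
  rcases expChar_is_prime_or_one K (ringExpChar K) with h | h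
  · have h1 : ((ringExpChar K : ℕ) : IsLocalRing.ResidueField W) = 0 := by
      rw [← rs_natCast, natCast_expChar_eq_zero K _ h, rs_zero]
    haveI : CharP (IsLocalRing.ResidueField W) (ringExpChar K) :=
      (CharP.charP_iff_prime_eq_zero h).2 h1
    haveI : ExpChar (IsLocalRing.ResidueField W) (ringExpChar K) := ExpChar.prime h
    exact sum_pow_char_pow _ _ _ _
  · rw [h, one_pow]
    simp only [pow_one]

/-- values of the elements of the field. -/
theorem r10_val {W : ValuationSubring K} {c : K} (hk : IsAlgClosed k) (h : PBot k t s W c)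
    (hθW : θ ∈ W) {d : ℕ}
    (hd : d ≤ (minpoly (adj (rbarP k W) (rsP W s)) (rsP W θ)).natDegree) {b : ℕ → K}
    (hb : ∀ j, b j ∈ adj (adj k s) t) (hz : ∑ j ∈ Finset.range d, b j * θ ^ j ≠ 0) :
    ∃ j₀, b j₀ ≠ 0 ∧ (∀ j ∈ Finset.range d, W.valuation (b j) ≤ W.valuation (b j₀)) ∧
      W.valuation (∑ j ∈ Finset.range d, b j * θ ^ j) = W.valuation (b j₀) := by
  classical
  obtain ⟨j₁, hj₁, hbj₁⟩ : ∃ j ∈ Finset.range d, b j ≠ 0 := by
    by_contra hcon
    push Not at hcon
    exact hz (Finset.sum_eq_zero fun j hj => by rw [hcon j hj, zero_mul])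
  obtain ⟨j₀, hj₀, hmax⟩ := (Finset.range d).exists_max_image (fun j => W.valuation (b j))
    ⟨j₁, hj₁⟩
  have hv1 : 0 < W.valuation (b j₁) := zero_lt_iff.2 ((Valuation.ne_zero_iff _).2 hbj₁)
  have hv0 : 0 < W.valuation (b j₀) := hv1.trans_le (hmax j₁ hj₁)
  have hb0 : b j₀ ≠ 0 := (Valuation.ne_zero_iff W.valuation).1 hv0.ne'
  refine ⟨j₀, hb0, hmax, ?_⟩
  have he : ∀ j ∈ Finset.range d, b j / b j₀ ∈ W := by
    intro j hj
    rw [← W.valuation_le_one_iff, map_div₀]
    exact (div_le_one₀ hv0).2 (hmax j hj)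
  have h1 : (∑ j ∈ Finset.range d, b j * θ ^ j) / b j₀ =
      ∑ j ∈ Finset.range d, b j / b j₀ * θ ^ j := by
    rw [Finset.sum_div]
    refine Finset.sum_congr rfl fun j _ => ?_
    rw [div_mul_eq_mul_div]
  have hmem : ∀ j ∈ Finset.range d, b j / b j₀ * θ ^ j ∈ W := fun j hj =>
    mul_mem (he j hj) (pow_mem hθW j)
  let a : ℕ → RFP W := fun j => if j ∈ Finset.range d then rsP W (b j / b j₀) else 0
  have ha : ∀ j, a j ∈ adj (rbarP k W) (rsP W s) := by
    intro j
    by_cases hj : j ∈ Finset.range d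
    · simp only [a, if_pos hj]
      exact h.res_mem hk (Subfield.div_mem _ (hb j) (hb j₀)) (he j hj)
    · simp only [a, if_neg hj]
      exact Subfield.zero_mem _
  have h2 : rsP W (∑ j ∈ Finset.range d, b j / b j₀ * θ ^ j) =
      ∑ j ∈ Finset.range d, a j * rsP W θ ^ j := by
    rw [rsP_sum _ _ hmem]
    refine Finset.sum_congr rfl fun j hj => ?_
    rw [rsP_mul (he j hj) (pow_mem hθW j), rsP_pow hθW]
    simp only [a, if_pos hj]
  have h3 : rsP W (∑ j ∈ Finset.range d, b j / b j₀ * θ ^ j) ≠ 0 := by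
    rw [h2]
    refine r10_indep hd ha (Finset.mem_range.1 hj₀) ?_
    simp only [a, if_pos hj₀]
    rw [div_self hb0, rsP_one]
    exact one_ne_zero
  rw [rsP_ne_zero (sum_mem hmem), ← h1, map_div₀, div_eq_one_iff_eq hv0.ne'] at h3
  exact h3

/-- bottom valuations with a generator of the residue field. -/
theorem r10_bot {W : ValuationSubring K} {c : K} (hk : IsAlgClosed k) (h : Bot0 k t s W c)
    (hθW : θ ∈ W) {d : ℕ}
    (hd : d ≤ (minpoly (adj (rbarP k W) (rsP W s)) (rsP W θ)).natDegree)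
    (hθ : ∀ z : K, ∃ b : ℕ → K, (∀ j, b j ∈ adj (adj k s) t) ∧
      z = ∑ j ∈ Finset.range d, b j * θ ^ j) : Bot k t s θ W c := by
  classical
  have hp := h.pbot
  refine { h with repT := fun z hz => ?_, θW := hθW, gen := fun y => ?_ }
  · obtain ⟨b, hb, rfl⟩ := hθ z
    obtain ⟨j₀, hb0, -, hv⟩ := r10_val hk hp hθW hd hb hz
    obtain ⟨m, n, a, ha, ha0, h1, -⟩ := hp.rep hk (hb j₀) hb0
    refine ⟨m, n, a, ha, ha0, ?_⟩
    rw [map_mul, map_mul, map_pow, hv, ← map_pow, ← map_mul, ← map_mul]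
    exact h1
  · obtain ⟨z, hzW, rfl⟩ := rs_surj y
    by_cases hz : z = 0
    · refine ⟨0, ?_⟩
      rw [hz, rs_zero, pow_zero, pow_one]
      exact Subfield.zero_mem _
    obtain ⟨b, hb, hzb⟩ := hθ z
    have hz' : ∑ j ∈ Finset.range d, b j * θ ^ j ≠ 0 := hzb ▸ hz
    obtain ⟨j₀, hb0, hmax, hv⟩ := r10_val hk hp hθW hd hb hz'
    have hbW : ∀ j ∈ Finset.range d, b j ∈ W := by
      intro j hj
      rw [← W.valuation_le_one_iff]
      refine (hmax j hj).trans ?_
      rw [← hv, ← hzb]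
      exact (W.valuation_le_one_iff z).2 hzW
    have h1 : ∀ j, ∃ m : ℕ, j ∈ Finset.range d →
        rs W (b j) ^ ringExpChar K ^ m ∈ Vale.Agent.P019.adj (rbar k W) (rs W s) := by
      intro j
      by_cases hj : j ∈ Finset.range d
      · obtain ⟨m, hm⟩ := hp.res_mem0 hk (hb j) (hbW j hj)
        exact ⟨m, fun _ => hm⟩
      · exact ⟨0, fun h' => absurd h' hj⟩
    choose m hm using h1
    refine ⟨(Finset.range d).sup m, ?_⟩
    have h2 : rs W z = ∑ j ∈ Finset.range d, rs W (b j) * rs W θ ^ j := by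
      rw [hzb, rs_sum' _ _ fun j hj => mul_mem (hbW j hj) (pow_mem hθW j)]
      refine Finset.sum_congr rfl fun j hj => ?_
      rw [rs_mul (hbW j hj) (pow_mem hθW j), rs_pow hθW]
    rw [h2, r10_sum_pow]
    refine sum_mem fun j hj => ?_
    rw [mul_pow]
    refine mul_mem (Vale.Agent.P019.le_adj _ _ ?_)
      (pow_mem (pow_mem (Vale.Agent.P019.mem_adj _ _) _) _)
    obtain ⟨r, hr⟩ := Nat.exists_eq_add_of_le (Finset.le_sup (f := m) hj)
    rw [hr, pow_add, pow_mul]
    exact pow_mem (hm j hj) _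

theorem exists_botT (hk : IsAlgClosed k) (hfg : FG k (⊤ : Subfield K)) (ht : Good k t)
    (hS : Srf k t s) (hW : ∀ i, Bot0 k t s (W i) (c i)) (hu : Ulu U W) :
    ∃ θ : K, ∀ᶠ i in U, Bot k t s θ (W i) (c i) := by
  haveI : PerfectField (adj (adj k s) t) := perfect_adj _ _
  obtain ⟨θ, hθ⟩ := exists_prim ((le_adj k s).trans (le_adj _ t)) hfg hS.alg
  have hint : IsIntegral (adj (adj k s) t) θ := (hS.alg θ).isIntegral
  refine ⟨θ, ?_⟩
  have hW' : ∀ᶠ i in U, Bot0 k t s (W i) (c i) := Eventually.of_forall hW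
  filter_upwards [hW', hu.mem θ, r10_deg hk ht hS hW' hu θ] with i h1 h2 h3
  exact r10_bot hk h1 h2 h3 fun z =>
    r11_poly (minpoly.monic hint) (minpoly.aeval _ _) (adj0_le_adj _ _ (hθ z))

end Vale.Agent.P019P
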