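import Vale.Agent.P019R.R9
import Vale.Agent.P019R.R1

/-!
# The functional of a bottom valuation
-/

namespace Vale.Agent.P019P

open Vale.Agent.P019

set_option linter.style.haveILetI false
set_option linter.unusedSectionVars false
set_option linter.unusedVariables false

open Polynomial Filter

variable {K : Type*} [Field K] [PerfectField K] {k : Subfield K} {t s θ : K}

private theorem r10b_unit {ℓ : ℕ} {W : ValuationSubring K} {z : K} (hz : W.valuation z = 1) :
    cl ℓ z ∈ UC ℓ W := mem_UC.2 ⟨z, hz, rfl⟩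

section base

variable {W : ValuationSubring K} {c : K} (h : Bot k t s θ W c)
include h

private theorem r10b_pos : 0 < W.valuation (t - c) := by
  have h1 := h.inf 0 k.zero_mem (by rw [map_zero]; exact zero_lt_one) 1
  rw [map_zero, pow_one] at h1
  exact h1

private theorem r10b_ne : t - c ≠ 0 := by
  intro h0
  have := r10b_pos h
  rw [h0, map_zero] at this
  exact lt_irrefl _ this

/-- a value `v(π)^N v(a)^e = 1`, `a` a constant, forces `N = 0`. -/
private theorem r10b_zero {a : K} (ha : a ∈ k) (ha0 : a ≠ 0) {N : ℤ} {e : ℕ} (he : e ≠ 0)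
    (hv : W.valuation (t - c) ^ N * W.valuation a ^ e = 1) : N = 0 := by
  have hπ0 := r10b_pos h
  have hπ1 := h.tc
  have hva : 0 < W.valuation a := zero_lt_iff.2 ((Valuation.ne_zero_iff _).2 ha0)
  -- `v(b) < 1`, `b` a constant, `v(b)^e = v(π)^M` is impossible
  have key : ∀ b ∈ k, W.valuation b < 1 → ∀ M : ℤ,
      W.valuation b ^ e = W.valuation (t - c) ^ M → False := by
    intro b hb hb1 M hM
    rcases le_total M 0 with hM0 | hM0
    · have h1 : 1 ≤ W.valuation (t - c) ^ M := by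
        have := zpow_le_zpow_right_of_le_one₀ hπ0 hπ1.le hM0
        rwa [zpow_zero] at this
      rw [← hM] at h1
      exact absurd (pow_lt_one₀ zero_le hb1 he) (not_lt.2 h1)
    · obtain ⟨n, rfl⟩ := Int.eq_ofNat_of_zero_le hM0
      have h1 := h.inf b hb hb1 n
      have h2 : W.valuation b ^ e ≤ W.valuation b := pow_le_of_le_one zero_le hb1.le he
      rw [hM, zpow_natCast] at h2
      exact absurd h1 (not_lt.2 h2)
  rcases lt_trichotomy (W.valuation a) 1 with h1 | h1 | h1
  · refine (key a ha h1 (-N) ?_).elim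
    rw [zpow_neg]
    exact eq_inv_of_mul_eq_one_right hv
  · rw [h1, one_pow, mul_one] at hv
    by_contra hN
    rcases lt_or_gt_of_ne hN with h2 | h2
    · have h3 := zpow_lt_zpow_right_of_lt_one₀ hπ0 hπ1 h2
      rw [zpow_zero, hv] at h3
      exact lt_irrefl _ h3
    · have h3 := zpow_lt_zpow_right_of_lt_one₀ hπ0 hπ1 h2
      rw [zpow_zero, hv] at h3
      exact lt_irrefl _ h3
  · refine (key a⁻¹ (k.inv_mem ha) ?_ N ?_).elim
    · rw [map_inv₀]; exact inv_lt_one_of_one_lt₀ h1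
    · rw [map_inv₀, inv_pow]
      exact (eq_inv_of_mul_eq_one_left hv).symm

variable (ℓ : ℕ) [Fact ℓ.Prime] [NeZero (ℓ : K)] (hk : IsAlgClosed k)
include hk

private theorem r10b_const {a : K} (ha : a ∈ k) : cl ℓ a = 0 := by
  by_cases ha0 : a = 0
  · rw [ha0, cl_zero]
  have hℓ : ℓ.Prime := Fact.out
  haveI := hk
  obtain ⟨b, hb⟩ := IsAlgClosed.exists_pow_nat_eq (⟨a, ha⟩ : k) hℓ.pos
  have hb' : (b : K) ^ ℓ = a := by
    have := congrArg (fun x : k => (x : K)) hb
    simpa using this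
  rw [← hb', cl_pow_self]

/-- the classes modulo the unit classes. -/
private theorem r10b_rep {z : K} (hz : z ≠ 0) : ∃ (m : ℕ) (n : ℤ), ∃ a ∈ k, a ≠ 0 ∧
    W.valuation z ^ ringExpChar K ^ m * W.valuation (t - c) ^ n * W.valuation a = 1 ∧
    ((ringExpChar K ^ m : ℕ) : ZMod ℓ) • cl ℓ z + (n : ZMod ℓ) • cl ℓ (t - c) ∈ UC ℓ W := by
  obtain ⟨m, n, a, ha, ha0, hv⟩ := h.repT z hz
  have hπ := r10b_ne h
  refine ⟨m, n, a, ha, ha0, ?_, ?_⟩
  · rw [map_mul, map_mul, map_pow, map_zpow₀] at hv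
    exact hv
  · have h1 := r10b_unit (ℓ := ℓ) hv
    rw [cl_mul ℓ (mul_ne_zero (pow_ne_zero _ hz) (zpow_ne_zero _ hπ)) ha0,
      cl_mul ℓ (pow_ne_zero _ hz) (zpow_ne_zero _ hπ), r10b_const h ℓ hk ha, add_zero, cl_pow,
      cl_zpow] at h1
    rwa [Nat.cast_smul_eq_nsmul, Int.cast_smul_eq_zsmul]

private theorem r10b_notMem : cl ℓ (t - c) ∉ UC ℓ W := by
  intro hcl
  obtain ⟨u, hu, hcu⟩ := mem_UC.1 hcl
  have hπ := r10b_ne h
  have hu0 : u ≠ 0 := by rintro rfl; rw [map_zero] at hu; exact zero_ne_one hu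
  obtain ⟨w, hw, hwe⟩ := (cl_eq_iff ℓ hπ hu0).1 hcu
  have hvw : W.valuation (t - c) = W.valuation w ^ ℓ := by
    rw [hwe, map_mul, hu, one_mul, map_pow]
  obtain ⟨m, n, a, ha, ha0, hv⟩ := h.repT w hw
  rw [map_mul, map_mul, map_pow, map_zpow₀] at hv
  have hℓ : ℓ.Prime := Fact.out
  have hpos := r10b_pos h
  have h1 : W.valuation (t - c) ^ (((ringExpChar K ^ m : ℕ) : ℤ) + n * ℓ) *
      W.valuation a ^ ℓ = 1 := by
    have h2 := congrArg (fun x => x ^ ℓ) hv
    simp only [one_pow, mul_pow] at h2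
    rw [← h2]
    congr 1
    rw [zpow_add₀ hpos.ne', zpow_natCast, zpow_mul, zpow_natCast]
    congr 1
    rw [hvw, ← pow_mul, ← pow_mul, mul_comm]
  have h2 := r10b_zero h ha ha0 hℓ.ne_zero h1
  have h3 : ((ringExpChar K ^ m : ℕ) : ZMod ℓ) = 0 := by
    have := congrArg (fun x : ℤ => (x : ZMod ℓ)) h2
    simpa using this
  exact q_pow_ne_zero ℓ K m h3

end base

theorem Bot.fn (ℓ : ℕ) [Fact ℓ.Prime] [NeZero (ℓ : K)] (hk : IsAlgClosed k)
    {W : ValuationSubring K} {c : K} (h : Bot k t s θ W c) :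
    ∃ f : V ℓ K →ₗ[ZMod ℓ] ZMod ℓ, Adp W f ∧ f (cl ℓ (t - c)) = 1 := by
  have hℓ : ℓ.Prime := Fact.out
  have hπ := r10b_ne h
  have hpos := r10b_pos h
  have hπ1 := h.tc
  -- the functional
  obtain ⟨f, hf1, hfU⟩ : ∃ f : V ℓ K →ₗ[ZMod ℓ] ZMod ℓ, f (cl ℓ (t - c)) = 1 ∧
      ∀ v ∈ UC ℓ W, f v = 0 := by
    obtain ⟨f, hf, hle⟩ := Submodule.exists_le_ker_of_notMem (r10b_notMem h ℓ hk)
    refine ⟨(f (cl ℓ (t - c)))⁻¹ • f, ?_, fun v hv => ?_⟩
    · rw [LinearMap.smul_apply, smul_eq_mul, inv_mul_cancel₀ hf]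
    · rw [LinearMap.smul_apply, LinearMap.mem_ker.1 (hle hv), smul_zero]
  have hfu : ∀ z : K, W.valuation z = 1 → f (cl ℓ z) = 0 := fun z hz => hfU _ (r10b_unit hz)
  have hker : ∀ v, f v = 0 ↔ v ∈ UC ℓ W := by
    intro v
    refine ⟨fun hv => ?_, hfU v⟩
    obtain ⟨z, hz, rfl⟩ := cl_surj ℓ v
    obtain ⟨m, n, a, ha, ha0, -, hmem⟩ := r10b_rep h ℓ hk hz
    have h1 := hfU _ hmem
    rw [map_add, map_smul, map_smul, hv, smul_zero, zero_add, hf1, smul_eq_mul, mul_one] at h1
    rw [h1, zero_smul, add_zero] at hmem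
    have h2 := Submodule.smul_mem _ (((ringExpChar K ^ m : ℕ) : ZMod ℓ)⁻¹) hmem
    rwa [smul_smul, inv_mul_cancel₀ (q_pow_ne_zero ℓ K m), one_smul] at h2
  refine ⟨f, ⟨?_, hker, ?_⟩, hf1⟩
  · intro h0
    rw [h0, LinearMap.zero_apply] at hf1
    exact zero_ne_one hf1
  -- first: elements `1 + m` with `f m ≠ 0`
  have h1 : ∀ m : K, m ≠ 0 → W.valuation m < 1 → f (cl ℓ m) ≠ 0 →
      cl ℓ (1 + m) ∈ H f := by
    intro m hm0 hlt hm g hg
    have h2 := hg (-m)
    have e1 : (1 : K) - -m = 1 + m := by ring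
    have hne : (-m) ≠ 0 := neg_ne_zero.2 hm0
    have e2 : f (cl ℓ (1 + m)) = 0 := hfu _ (val_one_add hlt)
    have e4 : f (cl ℓ (-m)) = f (cl ℓ m) := by
      have e5 : -m = (-1) * m := by ring
      rw [e5, cl_mul ℓ (by norm_num) hm0, map_add,
        hfu (-1) (by rw [Valuation.map_neg, map_one]), zero_add]
    rw [e1, e2, e4, zero_mul] at h2
    exact (mul_eq_zero.1 h2).resolve_left hm
  rintro _ ⟨m, hm, rfl⟩
  by_cases hm0 : m = 0
  · rw [hm0, add_zero, cl_one]; exact Submodule.zero_mem _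
  by_cases hfm : f (cl ℓ m) ≠ 0
  · exact h1 m hm0 hm hfm
  push Not at hfm
  obtain ⟨j, n, a, ha, ha0, hval1, hmem⟩ := r10b_rep h ℓ hk hm0
  haveI : PerfectRing K (ringExpChar K) := PerfectField.toPerfectRing _
  obtain ⟨p, hp⟩ := (bijective_iterateFrobenius K (ringExpChar K) (n := j)).2 (t - c)
  rw [iterateFrobenius_def] at hp
  have hp0 : p ≠ 0 := by
    rintro rfl
    rw [zero_pow (qpow_pos K j).ne'] at hp
    exact hπ hp.symm
  have hq := q_pow_ne_zero ℓ K j
  have hfp : f (cl ℓ p) ≠ 0 := by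
    have e : ((ringExpChar K ^ j : ℕ) : ZMod ℓ) * f (cl ℓ p) = 1 := by
      have e6 : cl ℓ (p ^ ringExpChar K ^ j) = cl ℓ (t - c) := congrArg (cl ℓ) hp
      rw [← hf1, ← e6, cl_pow, ← smul_eq_mul, ← map_smul, Nat.cast_smul_eq_nsmul]
    intro h0
    rw [h0, mul_zero] at e
    exact zero_ne_one e
  have hp1 : W.valuation p < 1 := by
    by_contra hcon
    push Not at hcon
    have h2 : (1 : W.ValueGroup) ≤ W.valuation (p ^ ringExpChar K ^ j) := by
      rw [map_pow]
      exact one_le_pow₀ hcon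
    rw [hp] at h2
    exact absurd hπ1 (not_lt.2 h2)
  have hn : (n : ZMod ℓ) = 0 := by
    have h2 := hfU _ hmem
    rwa [map_add, map_smul, map_smul, hfm, smul_zero, zero_add, hf1, smul_eq_mul, mul_one] at h2
  have hmp : W.valuation m < W.valuation p := by
    have hvp : W.valuation p ^ (ringExpChar K ^ j) = W.valuation (t - c) := by
      rw [← map_pow, hp]
    have hva : 0 < W.valuation a := zero_lt_iff.2 ((Valuation.ne_zero_iff _).2 ha0)
    have hvπ : W.valuation (t - c) ^ n ≠ 0 := zpow_ne_zero _ hpos.ne'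
    have hv : W.valuation m ^ (ringExpChar K ^ j) =
        W.valuation (t - c) ^ (-n) * (W.valuation a)⁻¹ := by
      rw [zpow_neg, ← mul_inv]
      rw [mul_assoc] at hval1
      exact eq_inv_of_mul_eq_one_left hval1
    have hlt1 : W.valuation m ^ (ringExpChar K ^ j) < 1 :=
      pow_lt_one₀ zero_le hm (qpow_pos K j).ne'
    refine lt_of_pow_lt_pow_left₀ (ringExpChar K ^ j) zero_le ?_
    rw [hvp]
    rcases lt_trichotomy (W.valuation a) 1 with h2 | h2 | h2
    · -- impossible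
      exfalso
      have h3 : 1 ≤ W.valuation (t - c) ^ (-n) * (W.valuation a)⁻¹ := by
        rw [← div_eq_mul_inv, one_le_div₀ hva]
        rcases le_total (-n) 0 with h4 | h4
        · have h5 := zpow_le_zpow_right_of_le_one₀ hpos hπ1.le h4
          rw [zpow_zero] at h5
          exact h2.le.trans h5
        · obtain ⟨N, hN⟩ := Int.eq_ofNat_of_zero_le h4
          rw [hN]
          have h5 := h.inf a ha h2 N
          have h6 : W.valuation (t - c) ^ (N : ℤ) = W.valuation (t - c) ^ N := zpow_natCast _ _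
          exact (h5.le).trans h6.ge
      rw [← hv] at h3
      exact absurd hlt1 (not_lt.2 h3)
    · rw [hv, h2, inv_one, mul_one]
      have hn1 : 0 < -n := by
        by_contra hcon
        push Not at hcon
        have h3 : 1 ≤ W.valuation (t - c) ^ (-n) := by
          have := zpow_le_zpow_right_of_le_one₀ hpos hπ1.le hcon
          rwa [zpow_zero] at this
        rw [hv, h2, inv_one, mul_one] at hlt1
        exact absurd hlt1 (not_lt.2 h3)
      have hn2 : -n ≠ 1 := by
        intro h3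
        have h4 : n = -1 := by omega
        rw [h4] at hn
        simp at hn
      have := zpow_lt_zpow_right_of_lt_one₀ hpos hπ1 (show (1 : ℤ) < -n by omega)
      rwa [zpow_one] at this
    · rw [hv]
      have hinv : W.valuation a⁻¹ < 1 := by rw [map_inv₀]; exact inv_lt_one_of_one_lt₀ h2
      have hpp : 0 < W.valuation (t - c) ^ (-n) := zpow_pos hpos _
      rcases le_total 0 (-n) with h4 | h4
      · have h5 := zpow_le_zpow_right_of_le_one₀ hpos hπ1.le h4
        rw [zpow_zero] at h5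
        have h6 := h.inf a⁻¹ (k.inv_mem ha) hinv 1
        rw [pow_one, map_inv₀] at h6
        calc W.valuation (t - c) ^ (-n) * (W.valuation a)⁻¹ ≤ 1 * (W.valuation a)⁻¹ :=
              mul_le_mul_left h5 _
          _ = (W.valuation a)⁻¹ := one_mul _
          _ < W.valuation (t - c) := h6
      · obtain ⟨N, hN⟩ := Int.eq_ofNat_of_zero_le (show 0 ≤ n by omega)
        have h6 := h.inf a⁻¹ (k.inv_mem ha) hinv (N + 1)
        rw [map_inv₀] at h6
        calc W.valuation (t - c) ^ (-n) * (W.valuation a)⁻¹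
            < W.valuation (t - c) ^ (-n) * W.valuation (t - c) ^ (N + 1) := by
              exact (mul_lt_mul_iff_right₀ hpp).2 h6
          _ = W.valuation (t - c) := by
              rw [← zpow_natCast, ← zpow_add₀ hpos.ne', hN]
              rw [show (-(N : ℤ) + ((N + 1 : ℕ) : ℤ)) = 1 by push_cast; ring, zpow_one]
  have hmp1 : W.valuation (m / p) < 1 := by
    rw [map_div₀]
    exact (div_lt_one₀ (zero_lt_iff.2 ((Valuation.ne_zero_iff _).2 hp0))).2 hmp
  have hne1 : 1 + p ≠ 0 := one_add_ne_zero hp1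
  set m' := (m - p) / (1 + p) with hm'
  have e : 1 + m = (1 + p) * (1 + m') := by
    rw [hm']; field_simp; ring
  have hval : W.valuation (m / p - 1) = 1 := by
    have : m / p - 1 = -(1 + -(m / p)) := by ring
    rw [this, Valuation.map_neg]
    exact val_one_add (by rwa [Valuation.map_neg])
  have hne3 : m / p - 1 ≠ 0 := by
    intro h; rw [h, map_zero] at hval; exact zero_ne_one hval
  have e2 : m' = (m / p - 1) * p / (1 + p) := by
    rw [hm']; field_simp [hp0]
  have hm'0 : m' ≠ 0 := by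
    rw [e2]
    exact div_ne_zero (mul_ne_zero hne3 hp0) hne1
  have hvm' : W.valuation m' = W.valuation p := by
    rw [e2, map_div₀, map_mul, hval, one_mul, val_one_add hp1, div_one]
  have hfm' : f (cl ℓ m') ≠ 0 := by
    rw [e2, div_eq_mul_inv, cl_mul ℓ (mul_ne_zero hne3 hp0) (inv_ne_zero hne1),
      cl_mul ℓ hne3 hp0, map_add, map_add, hfu _ hval, zero_add,
      hfu (1 + p)⁻¹ (by rw [map_inv₀, val_one_add hp1, inv_one]), add_zero]
    exact hfp
  have hlt' : W.valuation m' < 1 := by rw [hvm']; exact hp1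
  rw [e, cl_mul ℓ hne1 (one_add_ne_zero hlt')]
  exact Submodule.add_mem _ (h1 p hp0 hp1 hfp) (h1 m' hm'0 hlt' hfm')

end Vale.Agent.P019P
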