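import Vale.Agent.P019R.R0

/-!
# Residues in the perfect closure of the residue field
-/

namespace Vale.Agent.P019P

open Vale.Agent.P019

set_option linter.style.haveILetI false
set_option linter.unusedSectionVars false

open Polynomial Filter

section rsp

variable {K : Type*} [Field K] {W : ValuationSubring K}

theorem rsP_zero : rsP W 0 = 0 := by
  rw [rsP, rs_zero, map_zero]

theorem rsP_one : rsP W 1 = 1 := by
  rw [rsP, rs_one, map_one]

theorem rsP_mul {x y : K} (hx : x ∈ W) (hy : y ∈ W) : rsP W (x * y) = rsP W x * rsP W y := by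
  rw [rsP, rs_mul hx hy, map_mul, rsP, rsP]

theorem rsP_add {x y : K} (hx : x ∈ W) (hy : y ∈ W) : rsP W (x + y) = rsP W x + rsP W y := by
  rw [rsP, rs_add hx hy, map_add, rsP, rsP]

theorem rsP_sub {x y : K} (hx : x ∈ W) (hy : y ∈ W) : rsP W (x - y) = rsP W x - rsP W y := by
  rw [rsP, rs_sub hx hy, map_sub, rsP, rsP]

theorem rsP_neg {x : K} (hx : x ∈ W) : rsP W (-x) = - rsP W x := by
  rw [rsP, rs_neg hx, map_neg, rsP]

theorem rsP_pow {x : K} (hx : x ∈ W) (n : ℕ) : rsP W (x ^ n) = rsP W x ^ n := by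
  rw [rsP, rs_pow hx, map_pow, rsP]

theorem rsP_eq_zero {x : K} (hx : x ∈ W) : rsP W x = 0 ↔ W.valuation x < 1 := by
  rw [rsP, map_eq_zero_iff _ (rf_injective W), rs_eq_zero hx]

theorem rsP_ne_zero {x : K} (hx : x ∈ W) : rsP W x ≠ 0 ↔ W.valuation x = 1 := by
  rw [Ne, rsP_eq_zero hx, not_lt]
  constructor
  · exact fun h => le_antisymm ((W.valuation_le_one_iff x).2 hx) h
  · exact fun h => h.ge

theorem rsP_eq {x y : K} (hx : x ∈ W) (hy : y ∈ W) :
    rsP W x = rsP W y ↔ W.valuation (x - y) < 1 := by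
  rw [← sub_eq_zero, ← rsP_sub hx hy, rsP_eq_zero (sub_mem hx hy)]

theorem rsP_sum {ι : Type*} (s : Finset ι) (f : ι → K) (h : ∀ i ∈ s, f i ∈ W) :
    rsP W (∑ i ∈ s, f i) = ∑ i ∈ s, rsP W (f i) := by
  classical
  induction s using Finset.induction_on with
  | empty => rw [Finset.sum_empty, Finset.sum_empty, rsP_zero]
  | insert a s ha ih =>
    rw [Finset.sum_insert ha, Finset.sum_insert ha, rsP_add (h a (Finset.mem_insert_self a s))
      (sum_mem fun i hi => h i (Finset.mem_insert_of_mem hi)),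
      ih fun i hi => h i (Finset.mem_insert_of_mem hi)]

theorem rs_natCast (n : ℕ) : rs W (n : K) = (n : IsLocalRing.ResidueField W) := by
  induction n with
  | zero => rw [Nat.cast_zero, Nat.cast_zero, rs_zero]
  | succ n ih => rw [Nat.cast_succ, Nat.cast_succ, rs_add (natCast_mem _ n) W.one_mem, ih, rs_one]

theorem natCast_expChar_eq_zero (F : Type*) [Field F] (q : ℕ) [h : ExpChar F q]
    (hq : q.Prime) : (q : F) = 0 := by
  cases h with
  | zero => exact absurd hq Nat.not_prime_one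
  | prime _ => exact CharP.cast_eq_zero F q

/-- descent of roots from the perfect closure. -/
theorem cl_zero_of_rf {ℓ : ℕ} [Fact ℓ.Prime] (hℓ : W.valuation (ℓ : K) = 1)
    {c : IsLocalRing.ResidueField W} {w : RFP W} (hw : w ^ ℓ = rf W c) : cl ℓ c = 0 := by
  obtain ⟨m, y, hy⟩ := rf_pow W w
  have h1 : y ^ ℓ = c ^ (ringExpChar (IsLocalRing.ResidueField W) ^ m) := by
    apply rf_injective W
    rw [map_pow, hy, map_pow, ← hw, ← pow_mul, ← pow_mul, mul_comm]
  have h2 : (ringExpChar (IsLocalRing.ResidueField W) ^ m) • cl ℓ c = 0 := by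
    rw [← cl_pow, ← h1, cl_pow_self]
  have h3 : (ℓ : IsLocalRing.ResidueField W) ≠ 0 := by
    rw [← rs_natCast (W := W) ℓ]
    exact (rs_ne_zero (natCast_mem _ ℓ)).2 hℓ
  have h4 : ((ringExpChar (IsLocalRing.ResidueField W) ^ m : ℕ) : ZMod ℓ) ≠ 0 := by
    rw [Ne, ZMod.natCast_eq_zero_iff]
    intro h5
    have h6 := (Fact.out : ℓ.Prime).dvd_of_dvd_pow h5
    rcases expChar_is_prime_or_one (IsLocalRing.ResidueField W)
      (ringExpChar (IsLocalRing.ResidueField W)) with h7 | h7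
    · have h8 := (Nat.prime_dvd_prime_iff_eq (Fact.out : ℓ.Prime) h7).1 h6
      apply h3
      rw [h8]
      exact natCast_expChar_eq_zero _ _ h7
    · rw [h7, Nat.dvd_one] at h6
      exact (Fact.out : ℓ.Prime).one_lt.ne' h6
  rw [← Nat.cast_smul_eq_nsmul (ZMod ℓ), smul_eq_zero] at h2
  exact h2.resolve_left h4

theorem rsP_mem_rbarP {k : Subfield K} {z : K} (hz : z ∈ k) (hzW : z ∈ W) :
    rsP W z ∈ rbarP k W := mem_rbarP.2 ⟨z, hz, hzW, rfl⟩

end rsp

end Vale.Agent.P019P
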