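import Vale.Agent.P019R.R9
import Vale.Agent.P019R.RsP
import Vale.Agent.P019R.BotB
import Vale.Agent.P019R.DJ
import Vale.Agent.P019Q.ApD
import Vale.Agent.P019Q.E3

/-!
# Degrees and genera of the residue curves of bottom valuations
-/

namespace Vale.Agent.P019P

open Vale.Agent.P019

set_option linter.style.haveILetI false
set_option linter.unusedSectionVars false
set_option linter.unusedVariables false

open Polynomial Filter

variable {K : Type*} [Field K] [PerfectField K] {k : Subfield K} {t s θ : K}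
  {I : Type*} {U : Ultrafilter I} {W : I → ValuationSubring K} {c : I → K}

/-- residues are algebraic over the residues of `k(s)`. -/
theorem Bot0.res_alg (hk : IsAlgClosed k) (hS : Srf k t s) {W : ValuationSubring K} {c : K}
    (h : Bot0 k t s W c) {z : K} (hz : z ∈ W) :
    IsAlgebraic (adj (rbarP k W) (rsP W s)) (rsP W z) := by
  classical
  set F := adj (adj k s) t with hF
  have hint : IsIntegral F z := (hS.alg z).isIntegral
  set d := (minpoly F z).natDegree with hd
  let b : ℕ → K := fun j => (((minpoly F z).coeff j : F) : K)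
  have hsum : ∑ j ∈ Finset.range (d + 1), b j * z ^ j = 0 := by
    rw [← aeval_eq_sum_le hd.symm.le]
    exact minpoly.aeval F z
  have hbd : b d = 1 := by
    simp only [b]
    rw [hd, coeff_natDegree, (minpoly.monic hint).leadingCoeff]
    rfl
  obtain ⟨j₀, hj₀, hmax⟩ := (Finset.range (d + 1)).exists_max_image (fun j => W.valuation (b j))
    ⟨0, Finset.mem_range.2 (Nat.succ_pos d)⟩
  have hv0 : 0 < W.valuation (b j₀) := by
    refine lt_of_lt_of_le ?_ (hmax d (Finset.mem_range.2 (Nat.lt_succ_self d)))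
    rw [hbd, map_one]
    exact zero_lt_one
  have hb0 : b j₀ ≠ 0 := (Valuation.ne_zero_iff W.valuation).1 hv0.ne'
  have he : ∀ j ∈ Finset.range (d + 1), b j / b j₀ ∈ W := by
    intro j hj
    rw [← W.valuation_le_one_iff, map_div₀]
    exact (div_le_one₀ hv0).2 (hmax j hj)
  let a : ℕ → RFP W := fun j => if j ∈ Finset.range (d + 1) then rsP W (b j / b j₀) else 0
  have ha : ∀ j, a j ∈ adj (rbarP k W) (rsP W s) := by
    intro j
    by_cases hj : j ∈ Finset.range (d + 1)
    · simp only [a, if_pos hj]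
      exact h.res_mem hk (Subfield.div_mem _ ((minpoly F z).coeff j).2
        ((minpoly F z).coeff j₀).2) (he j hj)
    · simp only [a, if_neg hj]
      exact Subfield.zero_mem _
  have h1 : ∑ j ∈ Finset.range (d + 1), b j / b j₀ * z ^ j = 0 := by
    have h2 := congrArg (fun x => x / b j₀) hsum
    simp only [zero_div, Finset.sum_div] at h2
    rw [← h2]
    refine Finset.sum_congr rfl fun j _ => ?_
    rw [div_mul_eq_mul_div]
  have h2 : ∑ j ∈ Finset.range (d + 1), a j * rsP W z ^ j = 0 := by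
    have h3 := congrArg (rsP W) h1
    rw [rsP_zero, rsP_sum _ _ fun j hj => mul_mem (he j hj) (pow_mem hz j)] at h3
    rw [← h3]
    refine Finset.sum_congr rfl fun j hj => ?_
    rw [rsP_mul (he j hj) (pow_mem hz j), rsP_pow hz]
    simp only [a, if_pos hj]
  refine ⟨mkPol _ d a ha, ?_, by rw [aeval_mkPol]; exact h2⟩
  intro h3
  have h4 := congrArg (fun p => ((p.coeff j₀ : adj (rbarP k W) (rsP W s)) : RFP W)) h3
  simp only [coeff_zero] at h4
  rw [coeff_mkPol (Nat.lt_succ_iff.1 (Finset.mem_range.1 hj₀))] at h4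
  change a j₀ = 0 at h4
  simp only [a, if_pos hj₀] at h4
  rw [div_self hb0, rsP_one] at h4
  exact one_ne_zero h4

/-- relations in the ultraproduct. -/
theorem brel_dgm {κ : I → Type*} [∀ i, Field (κ i)] {E : ∀ i, Subfield (κ i)} {m : ℕ}
    {X Y : ∀ i, κ i} (h : BRel (dSub U E) m (dgm U κ X) (dgm U κ Y)) :
    ∀ᶠ i in U, BRel (E i) m (X i) (Y i) := by
  obtain ⟨c, hc, ⟨a, ha, b, hb, hab⟩, hsum⟩ := h
  choose f hf hfE using hc
  have h1 : dgm U κ (fun i => ∑ p ∈ Finset.range (m + 1), ∑ q ∈ Finset.range (m + 1),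
      f p q i * X i ^ p * Y i ^ q) = 0 := by
    rw [← hsum, dgm_sum (Finset.range (m + 1)) (fun p i => ∑ q ∈ Finset.range (m + 1),
      f p q i * X i ^ p * Y i ^ q)]
    refine Finset.sum_congr rfl fun p _ => ?_
    rw [dgm_sum (Finset.range (m + 1)) (fun q i => f p q i * X i ^ p * Y i ^ q)]
    refine Finset.sum_congr rfl fun q _ => ?_
    rw [dgm_mul, dgm_mul, dgm_pow, dgm_pow, hf]
  have h2 : dgm U κ (f a b) ≠ 0 := by rw [hf]; exact hab
  filter_upwards [dgm_eq_zero.1 h1, dgm_ne_zero.1 h2] with i h3 h4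
  exact ⟨fun p q => f p q i, fun p q => hfE p q i, ⟨a, ha, b, hb, h4⟩, h3⟩

/-- reduction of an algebraic relation. -/
theorem bot_rel (hk : IsAlgClosed k) (hS : Srf k t s)
    (hW : ∀ i, Bot0 k t s (W i) (c i)) (hu : Ulu U W) (w : K) :
    ∃ m : ℕ, ∀ᶠ i in U, ∃ a : ℕ → ℕ → IsLocalRing.ResidueField (W i),
      (∀ i' j, a i' j ∈ rbar k (W i)) ∧
      (∃ i' ∈ Finset.range (m + 1), ∃ j ∈ Finset.range (m + 1), a i' j ≠ 0) ∧
      ∑ i' ∈ Finset.range (m + 1), ∑ j ∈ Finset.range (m + 1),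
        a i' j * rs (W i) s ^ i' * rs (W i) w ^ j = 0 := by
  classical
  haveI : PerfectField k := inferInstance
  haveI hdR := dR_ac (U := U) (O := W) hk
  haveI : PerfectField (dR U W k) := inferInstance
  have htR : hu.dj t ∈ dR U W k := by
    rw [hu.dj_mem_dR]
    exact ⟨c, fun i => (hW i).ck, Eventually.of_forall fun i => (hW i).tc⟩
  have hER : (adj k t).map hu.dj ≤ dR U W k :=
    (map_adj_le hu.dj k t).trans (adj_le (hu.map_le k) htR)
  have hst : ∀ᶠ i in U, ¬ IsAlgebraic (rbarP k (W i)) (rsP (W i) s) :=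
    Eventually.of_forall fun i => (hW i).transc hk
  have halg : IsAlgebraic (adj (dR U W k) (hu.dj s)) (hu.dj w) := by
    refine isAlgebraic_mono (adj_mono hER _) ?_
    exact isAlgebraic_mono (map_adj_le hu.dj _ _)
      (isAlgebraic_map hu.dj (adj_comm_alg (hS.alg w)))
  obtain ⟨Φ, hΦ, h0⟩ := urel_exists (hu.dj_transc hst) (isAlgebraic_adj.1 halg)
  let m := max Φ.natDegree ((Finset.range (Φ.natDegree + 1)).sup fun j => (Φ.coeff j).natDegree)
  have hrel : BRel (dR U W k) m (hu.dj s) (hu.dj w) := by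
    refine e3_ofPoly hΦ.ne_zero (le_max_left _ _) (fun j => ?_) h0
    by_cases hj : j ∈ Finset.range (Φ.natDegree + 1)
    · exact (Finset.le_sup (f := fun j => (Φ.coeff j).natDegree) hj).trans (le_max_right _ _)
    · rw [coeff_eq_zero_of_natDegree_lt (by rw [Finset.mem_range] at hj; omega), natDegree_zero]
      exact Nat.zero_le _
  refine ⟨m, ?_⟩
  filter_upwards [brel_dgm hrel] with i hi
  obtain ⟨a, ha, ⟨i', hi', j, hj, hij⟩, hsum⟩ := hi
  choose a' ha' haa using ha
  refine ⟨a', ha', ⟨i', hi', j, hj, fun h2 => hij ?_⟩, ?_⟩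
  · rw [← haa, h2, map_zero]
  · apply rf_injective (W i)
    rw [map_zero, ← hsum, map_sum]
    refine Finset.sum_congr rfl fun p _ => ?_
    rw [map_sum]
    refine Finset.sum_congr rfl fun q _ => ?_
    rw [map_mul, map_mul, map_pow, map_pow, haa]
    rfl

theorem bg_exp_rf (W : ValuationSubring K) :
    ringExpChar (RFP W) = ringExpChar (IsLocalRing.ResidueField W) :=
  haveI := expChar_of_injective_ringHom (rf_injective W)
    (ringExpChar (IsLocalRing.ResidueField W))
  ringExpChar.eq (RFP W) _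

theorem bg_exp (W : ValuationSubring K) (h : ringExpChar K ≠ 1) :
    ringExpChar (RFP W) = ringExpChar K := by
  have hp : (ringExpChar K).Prime :=
    (expChar_is_prime_or_one K (ringExpChar K)).resolve_right h
  have h0 : ((ringExpChar K : ℕ) : RFP W) = 0 := by
    have h1 : rsP W ((ringExpChar K : ℕ) : K) = ((ringExpChar K : ℕ) : RFP W) := by
      rw [rsP, rs_natCast, map_natCast]
    rw [← h1, natCast_expChar_eq_zero K _ hp, rsP_zero]
  haveI : CharP (RFP W) (ringExpChar K) := (CharP.charP_iff_prime_eq_zero hp).2 h0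
  haveI : ExpChar (RFP W) (ringExpChar K) := ExpChar.prime hp
  exact ringExpChar.eq (RFP W) _

theorem bg_adj {F F' : Type*} [Field F] [Field F'] (f : F →+* F') {k : Subfield F} {a b x : F}
    (hx : x ∈ Vale.Agent.P019.adj (Vale.Agent.P019.adj k a) b) :
    f x ∈ adj (adj (k.map f) (f a)) (f b) := by
  have h1 : Vale.Agent.P019.adj (Vale.Agent.P019.adj k a) b ≤
      (adj (adj (k.map f) (f a)) (f b)).comap f := by
    refine Vale.Agent.P019.adj_le (Vale.Agent.P019.adj_le ?_ ?_) ?_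
    · intro y hy
      rw [Subfield.mem_comap]
      exact le_adj _ _ (le_adj _ _ (Subfield.mem_map.2 ⟨y, hy, rfl⟩))
    · rw [Subfield.mem_comap]
      exact le_adj _ _ (mem_adj _ _)
    · rw [Subfield.mem_comap]
      exact mem_adj _ _
  exact h1 hx

theorem bg_root {F : Type*} [Field F] {E : Subfield F} {b x : F} {n : ℕ}
    (h : x ^ ringExpChar F ^ n ∈ adj E b) : x ∈ adj E b := by
  have h1 : x ∈ pf (adj E b) := mem_pf.2 ⟨n, h⟩
  rwa [adj, pf_pf] at h1

/-- the residue field is generated by the residues of `s` and `θ`. -/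
theorem bg_top {W : ValuationSubring K} {c : K} (h : Bot k t s θ W c) :
    adj (adj (rbarP k W) (rsP W s)) (rsP W θ) = ⊤ := by
  rw [eq_top_iff]
  intro z _
  obtain ⟨m, y, hy⟩ := rf_pow W z
  obtain ⟨m', hm'⟩ := h.gen y
  have h1 := bg_adj (rf W) hm'
  rw [map_pow, hy, ← bg_exp_rf] at h1
  by_cases hK : ringExpChar K = 1
  · rw [hK, one_pow, pow_one] at h1
    exact bg_root h1
  · rw [← bg_exp W hK, ← pow_mul, ← pow_add] at h1
    exact bg_root h1

/-- the residue curve. -/
theorem Bot.cv (hk : IsAlgClosed k) (hfg : FG k (⊤ : Subfield K)) (hS : Srf k t s)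
    {W : ValuationSubring K} {c : K} (h : Bot k t s θ W c) : Cv (rbarP k W) := by
  refine ⟨rbarP_ac hk W, ?_, rsP W s, fun hcon => h.sb (rf_mem_rbarP.1 hcon), fun z => ?_⟩
  · haveI := rbarP_ac hk W
    haveI : PerfectField (rbarP k W) := inferInstance
    have h0 : FG (rbarP k W) (rbarP k W) :=
      ⟨∅, by rw [Finset.coe_empty, Subfield.closure_empty, sup_bot_eq, pf_eq]⟩
    rw [← bg_top h]
    exact (h0.adj_right _).adj_right _
  · obtain ⟨m, y, hy⟩ := rf_pow W z
    obtain ⟨z', hz', rfl⟩ := rs_surj y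
    have h1 := h.toBot0.res_alg hk hS hz'
    change IsAlgebraic (adj (rbarP k W) (rsP W s)) (rf W (rs W z')) at h1
    rw [hy] at h1
    exact IsAlgebraic.of_pow (qpow_pos (IsLocalRing.ResidueField W) m) h1

/-- the relations in the perfect closure of the residue field. -/
theorem bg_rel (hk : IsAlgClosed k) (hS : Srf k t s)
    (hW : ∀ᶠ i in U, Bot k t s θ (W i) (c i)) (hu : Ulu U W) (w : K) :
    ∃ m : ℕ, ∀ᶠ i in U, ∃ a : ℕ → ℕ → RFP (W i),
      (∀ i' j, a i' j ∈ rbarP k (W i)) ∧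
      (∃ i' ∈ Finset.range (m + 1), ∃ j ∈ Finset.range (m + 1), a i' j ≠ 0) ∧
      ∑ i' ∈ Finset.range (m + 1), ∑ j ∈ Finset.range (m + 1),
        a i' j * rsP (W i) s ^ i' * rsP (W i) w ^ j = 0 := by
  classical
  obtain ⟨i₀, hi₀⟩ := hW.exists
  set W' : I → ValuationSubring K := fun i => if Bot k t s θ (W i) (c i) then W i else W i₀
    with hW'
  set c' : I → K := fun i => if Bot k t s θ (W i) (c i) then c i else c i₀ with hc'
  have h1 : ∀ i, Bot k t s θ (W' i) (c' i) := by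
    intro i
    simp only [hW', hc']
    split_ifs with h
    · exact h
    · exact hi₀
  have h2 : ∀ᶠ i in U, W' i = W i := by
    filter_upwards [hW] with i hi
    simp only [hW', if_pos hi]
  have h3 : Ulu U W' := by
    intro x hx
    filter_upwards [hu x hx, h2] with i hi hi2
    rw [hi2]
    exact hi
  obtain ⟨m, hm⟩ := bot_rel hk hS (fun i => (h1 i).toBot0) h3 w
  refine ⟨m, ?_⟩
  filter_upwards [hm, h2] with i hi hi2
  rw [hi2] at hi
  obtain ⟨a, ha, ⟨i', hi', j, hj, hij⟩, hsum⟩ := hi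
  refine ⟨fun p q => rf (W i) (a p q), fun p q => rf_mem_rbarP.2 (ha p q),
    ⟨i', hi', j, hj, fun hcon => hij ((map_eq_zero _).1 hcon)⟩, ?_⟩
  have h4 := congrArg (rf (W i)) hsum
  rw [map_zero, map_sum] at h4
  rw [← h4]
  refine Finset.sum_congr rfl fun p _ => ?_
  rw [map_sum]
  refine Finset.sum_congr rfl fun q _ => ?_
  rw [map_mul, map_mul, map_pow, map_pow]
  rfl

/-- the degrees are bounded. -/
theorem bot_deg (hk : IsAlgClosed k) (hfg : FG k (⊤ : Subfield K)) (hS : Srf k t s)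
    (hW : ∀ᶠ i in U, Bot k t s θ (W i) (c i)) (hu : Ulu U W) {z : K} (hz : z ≠ 0) :
    ∃ M : ℕ, ∀ᶠ i in U, (W i).valuation z = 1 ∧ (rsP (W i) z ∉ rbarP k (W i) →
      Module.finrank (adj (rbarP k (W i)) (rsP (W i) z)) (RFP (W i)) ≤ M) := by
  obtain ⟨m, hm⟩ := bg_rel hk hS hW hu z
  obtain ⟨n, hn⟩ := bg_rel hk hS hW hu θ
  refine ⟨m * n, ?_⟩
  filter_upwards [hm, hn, hW, hu z hz] with i h1 h2 h3 h4
  refine ⟨h4, fun h5 => ?_⟩
  obtain ⟨a, ha, ha0, har⟩ := h1
  obtain ⟨b, hb, hb0, hbr⟩ := h2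
  exact apd_deg (RAC_of_isAlgClosed _ (rbarP_ac hk _)) (fun hcon => h3.sb (rf_mem_rbarP.1 hcon))
    h5 (bg_top h3) ha hb ha0 hb0 har hbr

/-- the genera are bounded. -/
theorem bot_gen {ℓ : ℕ} (hk : IsAlgClosed k)
    (hfg : FG k (⊤ : Subfield K)) (hS : Srf k t s)
    (hW : ∀ᶠ i in U, Bot k t s θ (W i) (c i)) (hu : Ulu U W) :
    ∃ G : ℕ, ∀ᶠ i in U, ∀ g : ℕ, CurveRH ℓ (rbarP k (W i)) g → g ≤ G := by
  obtain ⟨n, hn⟩ := bg_rel hk hS hW hu θ
  refine ⟨n * n, ?_⟩
  filter_upwards [hn, hW] with i h2 h3 g hC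
  obtain ⟨b, hb, hb0, hbr⟩ := h2
  exact hC.gb (rsP (W i) s) (rsP (W i) θ) (fun hcon => h3.sb (rf_mem_rbarP.1 hcon)) (bg_top h3)
    n n b hb hb0 hbr

end Vale.Agent.P019P
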