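import Vale.Agent.P019R.R9
import Vale.Agent.P019Q.SA1

/-!
# Classes of `k(t)` die in almost all residue fields of the bottom valuations
-/

namespace Vale.Agent.P019P

open Vale.Agent.P019

set_option linter.style.haveILetI false
set_option linter.unusedSectionVars false
set_option linter.unusedVariables false

open Polynomial Filter

variable {K : Type*} [Field K] [PerfectField K] {k : Subfield K} {t s θ : K}
  {I : Type*} {U : Ultrafilter I} {W : I → ValuationSubring K} {c : I → K}

theorem bot_of_mem {ℓ : ℕ} [Fact ℓ.Prime] [NeZero (ℓ : K)] (hk : IsAlgClosed k)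
    (ht : t ∉ k) (hW : ∀ i, Bot0 k t s (W i) (c i)) (hu : Ulu U W) {v : V ℓ K}
    (hv : v ∈ VS ℓ (adj k t)) : ∀ᶠ i in U, v ∈ U1 ℓ (W i) := by
  classical
  have hℓ : 0 < ℓ := (Fact.out : ℓ.Prime).pos
  obtain ⟨s', n, hs, hv⟩ := adj_factor hk ht hv
  have h1 : ∀ᶠ i in U, ∀ b ∈ s', (W i).valuation (t - b) = 1 := by
    rw [Filter.eventually_all_finset]
    intro b hb
    refine hu (t - b) fun h0 => ?_
    rw [sub_eq_zero] at h0
    exact ht (h0 ▸ hs b hb)
  refine h1.mono fun i hi => ?_
  rw [hv]
  refine Submodule.sum_mem _ fun b hb => Submodule.smul_mem _ _ ?_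
  have hic : c i - b ∈ k := k.sub_mem (hW i).ck (hs b hb)
  have e1 : t - b - (c i - b) = t - c i := by ring
  have h2 : (W i).valuation (c i - b) = 1 := by
    have e2 : c i - b = (t - b) - (t - c i) := by ring
    rw [e2, Valuation.map_sub_eq_of_lt_left]
    · exact hi b hb
    · rw [hi b hb]
      exact (hW i).tc
  have h3 := cl_sub_cl_mem_U1 (ℓ := ℓ) (x := t - b) h2 (by rw [e1]; exact (hW i).tc)
  rwa [cl_const hk hℓ hic, sub_zero] at h3

end Vale.Agent.P019P
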