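import Vale.Agent.P019R.R0
import Vale.Agent.P019Q.SA1

/-!
# Limits of transferred valuations which may be nontrivial on the constants
-/

namespace Vale.Agent.P019P

open Vale.Agent.P019

set_option linter.style.haveILetI false
set_option linter.unusedSectionVars false
set_option linter.unusedVariables false

open Polynomial Filter

section

variable {L : Type*} [Field L] {I : Type*} {U : Ultrafilter I} {O : I → ValuationSubring L}

theorem r12a_closed_map {K Ω : Type*} [Field K] [Field Ω] (j : K →+* Ω) {l : Subfield K}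
    (hl : IsAlgClosed l) : IsAlgClosed (l.map j) := by
  let e0 : l →+* l.map j := (j.comp l.subtype).codRestrict (l.map j) fun x => ⟨x, x.2, rfl⟩
  let e : l ≃+* l.map j := RingEquiv.ofBijective e0 ⟨e0.injective, by
    rintro ⟨_, ⟨x, hx, rfl⟩⟩
    exact ⟨⟨x, hx⟩, rfl⟩⟩
  refine IsAlgClosed.of_exists_root _ fun p hp hirr => ?_
  obtain ⟨c, hc⟩ := IsAlgClosed.exists_root (p.map (e.symm : l.map j →+* l)) (by
    rw [Polynomial.degree_map]
    exact hirr.degree_pos.ne')
  refine ⟨e c, ?_⟩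
  have h1 : e (eval c (p.map (e.symm : l.map j →+* l))) = 0 := by
    rw [hc, map_zero]
  rw [eval_map] at h1
  have h2 := hom_eval₂ p (e.symm : l.map j →+* l) (e : l →+* l.map j) c
  have h3 : (e : l →+* l.map j).comp (e.symm : l.map j →+* l) = RingHom.id _ := by
    ext x
    simp
  rw [h3] at h2
  exact h2.symm.trans h1

/-- evaluation is the residue class. -/
theorem r12a_ev {z : Gm U L} (hz : z ∈ uVal U O) :
    (ulP U O).ev z = algebraMap (IsLocalRing.ResidueField (uVal U O))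
      (AlgebraicClosure (IsLocalRing.ResidueField (uVal U O))) (rs (uVal U O) z) := by
  rw [Pl.ev_of_mem (P := ulP U O) hz]
  unfold rs
  rw [dif_pos hz]
  rfl

end

variable {K L : Type*} [Field K] [Field L] [PerfectField K] [PerfectField L] {ℓ : ℕ}
  [Fact ℓ.Prime] [NeZero (ℓ : K)] [NeZero (ℓ : L)] {Θ : V ℓ K ≃ₗ[ZMod ℓ] V ℓ L}
  {k : Subfield K} {l : Subfield L} {t : K} {I : Type*} {U : Ultrafilter I}
  {O : I → ValuationSubring L}

/-- if only classes of `k(t)` die in almost all residue fields, the limit is trivial. -/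
theorem ulu_gen (hk : IsAlgClosed k) (hfgk : FG k (⊤ : Subfield K)) (hl : IsAlgClosed l)
    (hfgl : FG l (⊤ : Subfield L)) (hΘ : Compatible Θ)
    (htrl : ∃ x y : L, x ∉ l ∧ ¬ IsAlgebraic (adj l x) y) (ht : Good k t)
    (hker : ∀ v, (∀ᶠ i in U, Θ v ∈ U1 ℓ (O i)) → v ∈ VS ℓ (adj k t)) : Ulu U O := by
  intro z hz
  by_contra hcon
  let v := (uVal U O).valuation.comap (gc U : L →+* Gm U L)
  have hv : ∀ w : L, v w = (uVal U O).valuation (gm U fun _ => w) := fun w => rfl
  have hv1 : v z ≠ 1 := by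
    intro h
    rw [hv, uVal_eq_one] at h
    exact hcon h
  have hcls : ∀ y : L, v y < 1 → Θ.symm (cl ℓ (1 + y)) ∈ VS ℓ (adj k t) := by
    intro y hy
    rw [hv, uVal_lt_one] at hy
    refine hker _ (hy.mono fun i hi => ?_)
    rw [LinearEquiv.apply_symm_apply]
    exact cl_mem_U1 hi
  have horth : ∀ y y' : L, v y < 1 → v y' < 1 → Orth (cl ℓ (1 + y)) (cl ℓ (1 + y')) := by
    intro y y' hy hy'
    have h3 := adj_isotropic (ℓ := ℓ) hk ht.1 _ (hcls y hy) _ (hcls y' hy')
    have h4 := hΘ.orth h3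
    rwa [LinearEquiv.apply_symm_apply, LinearEquiv.apply_symm_apply] at h4
  rcases lt_or_gt_of_ne hv1 with h | h
  · exact aeu_main hl hfgl htrl v horth hz h
  · refine aeu_main hl hfgl htrl v horth (inv_ne_zero hz) ?_
    rw [map_inv₀]
    exact inv_lt_one_of_one_lt₀ h

/-- an element `h` which is constant modulo almost all `O i`. -/
theorem case_gen (hk : IsAlgClosed k) (hfgk : FG k (⊤ : Subfield K)) (hl : IsAlgClosed l)
    (hfgl : FG l (⊤ : Subfield L)) (hΘ : Compatible Θ)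
    (htrl : ∃ x y : L, x ∉ l ∧ ¬ IsAlgebraic (adj l x) y) (ht : Good k t) (hu : Ulu U O)
    (hker : ∀ v, (∀ᶠ i in U, Θ v ∈ U1 ℓ (O i)) → v ∈ VS ℓ (adj k t))
    {h : L} (hh : h ∉ l) {c : I → L} (hc : ∀ i, c i ∈ l)
    (hhc : ∀ᶠ i in U, (O i).valuation (h - c i) < 1) :
    ∃ E : Subfield L, Crv l E ∧ ∀ v, Θ v ∈ VS ℓ E ↔ v ∈ VS ℓ (adj k t) := by
  classical
  have hℓ : 0 < ℓ := (Fact.out : ℓ.Prime).pos
  set P := ulP U O with hP
  set j := hu.j with hj
  set A : Subfield (Gm U L) := uSub U (fun _ => l) with hA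
  set Bs := (rbar A (uVal U O)).map (algebraMap (IsLocalRing.ResidueField (uVal U O))
      (AlgebraicClosure (IsLocalRing.ResidueField (uVal U O)))) with hBs
  have hBsac : IsAlgClosed Bs :=
    r12a_closed_map _ (rbar_ac (isAlgClosed_uSub fun _ => hl) (uVal U O))
  have hBsR : RAC Bs := RAC_of_isAlgClosed Bs hBsac
  haveI : PerfectField Bs := perfect_of_RAC hBsR
  have hmem : ∀ z : Gm U L, z ∈ A → z ∈ uVal U O → P.ev z ∈ Bs := by
    intro z hz hz'
    rw [hP, r12a_ev hz']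
    exact ⟨_, rs_mem_rbar hz hz', rfl⟩
  have hlB : l.map j ≤ Bs := by
    rintro _ ⟨x, hx, rfl⟩
    exact hmem _ (gc_mem_uSub hx) (hu.gc_mem x)
  have hval : ∀ x : L, ∀ᶠ i in U, x ∈ O i := by
    intro x
    by_cases hx : x = 0
    · rw [hx]; exact Eventually.of_forall fun i => (O i).zero_mem
    · exact (hu x hx).mono fun i hi => ((O i).valuation_le_one_iff x).1 hi.le
  have hcO : ∀ᶠ i in U, c i ∈ O i := by
    filter_upwards [hval h, hhc] with i h1 h2
    have h3 : c i = h - (h - c i) := by ring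
    rw [h3]
    exact (O i).sub_mem h1 (((O i).valuation_le_one_iff _).1 h2.le)
  have hhB : j h ∈ Bs := by
    have h2 : P.ev (gm U (fun _ => h)) = P.ev (gm U c) := by
      rw [ulP_ev_eq (hval h) hcO]
      exact hhc
    have h3 : j h = P.ev (gm U c) := h2
    rw [h3]
    exact hmem _ ⟨_, rfl, hc⟩ (gm_mem_uVal.2 hcO)
  have hE : ∀ e ∈ rac (adj l h), j e ∈ Bs := by
    intro e he
    apply hBsR
    refine isAlgebraic_mono ?_ (isAlgebraic_map j (mem_rac.1 he))
    exact (map_adj_le j _ _).trans (adj_le hlB hhB)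
  have hVE : ∀ v ∈ VS ℓ (rac (adj l h)), Θ.symm v ∈ VS ℓ (adj k t) := by
    rintro _ ⟨e, he, he0, rfl⟩
    refine hker _ ?_
    rw [LinearEquiv.apply_symm_apply]
    obtain ⟨_, ⟨_, ⟨f, rfl, hf⟩, hfO, rfl⟩, hy⟩ := hE e he
    have hfO' := gm_mem_uVal.1 hfO
    have h2 : P.ev (gm U (fun _ => e)) = P.ev (gm U f) := by
      rw [hP, r12a_ev hfO]
      exact hy.symm
    rw [ulP_ev_eq (hval e) hfO'] at h2
    filter_upwards [h2, hu e he0] with i hi1 hi2
    have h4 : (O i).valuation (f i) = 1 := by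
      have h5 : f i = e + -(e - f i) := by ring
      have h6 : (O i).valuation (-(e - f i)) < (O i).valuation e := by
        rw [Valuation.map_neg, hi2]
        exact hi1
      rw [h5, Valuation.map_add_eq_of_lt_left _ h6, hi2]
    have h3 := cl_sub_cl_mem_U1 (ℓ := ℓ) h4 hi1
    rwa [cl_const hl hℓ (hf i), sub_zero] at h3
  obtain ⟨y, hy⟩ := aeu_indep hl htrl h
  refine ⟨rac (adj l h), ⟨(le_adj _ _).trans (le_rac _), RAC_rac _, h,
    le_rac _ (mem_adj _ _), hh, fun z hz => mem_rac.1 hz⟩, fun v => ⟨fun hv => ?_, fun hv => ?_⟩⟩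
  · have h1 := hVE _ hv
    rwa [LinearEquiv.symm_apply_apply] at h1
  · refine k2 hl hfgl hh hy ?_
    refine (infinite_of_isAlgClosed hl).mono fun β hβ => ⟨hβ, ?_⟩
    have h1 : cl ℓ (h - β) ∈ VS ℓ (rac (adj l h)) :=
      cl_mem_VS (Subfield.sub_mem _ (le_rac _ (mem_adj _ _))
        (le_rac _ (le_adj _ _ hβ)))
    have h2 := adj_isotropic (ℓ := ℓ) hk ht.1 _ hv _ (hVE _ h1)
    have h3 := hΘ.orth h2
    rwa [LinearEquiv.apply_symm_apply] at h3

end Vale.Agent.P019P
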