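import Vale.Agent.P019R.DJ
import Vale.Agent.P019R.DSpec

/-!
# Step A, the main case, valuations which may be nontrivial on the constants
-/

namespace Vale.Agent.P019P

open Vale.Agent.P019

set_option linter.style.haveILetI false
set_option linter.unusedSectionVars false
set_option linter.unusedVariables false

open Polynomial Filter

variable {L : Type*} [Field L] [PerfectField L] {I : Type*} {U : Ultrafilter I}
  {O : I → ValuationSubring L} {l : Subfield L}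

/-- constants of the limit. -/
theorem Ulu.const_iffG (hu : Ulu U O) {h : L} :
    (∀ᶠ i in U, rsP (O i) h ∈ rbarP l (O i)) ↔
      ∃ c : I → L, (∀ i, c i ∈ l) ∧ ∀ᶠ i in U, (O i).valuation (h - c i) < 1 := by
  have h1 := hu.dj_mem_dR (l := l) (h := h)
  rwa [hu.dj_apply, dR, dgm_mem_dSub] at h1

/-- Step A, the main case: infinitely many classes die in almost all residue fields of bounded
degree. -/
theorem Ulu.specialG (hu : Ulu U O) {ℓ : ℕ} [Fact ℓ.Prime] [NeZero (ℓ : L)]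
    (hl : IsAlgClosed l) (hfg : FG l (⊤ : Subfield L)) {y1 y2 : L}
    (h1 : ¬ IsAlgebraic l y1) (h2 : ¬ IsAlgebraic (adj l y1) y2)
    (halg : ∀ z : L, IsAlgebraic (adj (adj l y1) y2) z) {d : ℕ}
    (hd : ∀ᶠ i in U, rsP (O i) y1 ∉ rbarP l (O i) →
      Module.Finite (adj (rbarP l (O i)) (rsP (O i) y1)) (RFP (O i)) ∧
      Module.finrank (adj (rbarP l (O i)) (rsP (O i) y1)) (RFP (O i)) ≤ d)
    {d' : ℕ} (hrel : ∀ᶠ i in U, BRel (rbarP l (O i)) d' (rsP (O i) y1) (rsP (O i) y2))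
    {X : Set L} (hX : ∀ x ∈ X, x ≠ 0 ∧ ∀ᶠ i in U, cl ℓ x ∈ U1 ℓ (O i))
    (hinf : ∀ n : ℕ, ∃ x : Fin n → L, (∀ i, x i ∈ X) ∧ ∀ i j, i ≠ j → cl ℓ (x i) ≠ cl ℓ (x j)) :
    ∃ h : L, h ∉ l ∧ ∃ c : I → L, (∀ i, c i ∈ l) ∧ ∀ᶠ i in U, (O i).valuation (h - c i) < 1 := by
  obtain ⟨h, hh, hj⟩ := dspecial (ℓ := ℓ) hu.dj hl hfg (E := fun i => rbarP l (O i))
    (fun i => rbarP_ac hl (O i)) (fun x hx => hu.dj_mem_of_mem hx) h1 h2 halg
    (g1 := fun i => rsP (O i) y1) (g2 := fun i => rsP (O i) y2) rfl rfl hd hrel (X := X)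
    (fun x hx => ⟨(hX x hx).1, (hu.dj_root (hX x hx).1).2 (hX x hx).2⟩) hinf
  exact ⟨h, hh, hu.dj_mem_dR.1 hj⟩

end Vale.Agent.P019P
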