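import Vale.Agent.P019R.BotA

/-!
# Places of algebraically closed fields with residue field algebraic over a finite field
-/

namespace Vale.Agent.P019P

theorem exists_finval {k : Type*} [Field k] [IsAlgClosed k] (S : Finset k)
    (hS : ∀ c ∈ S, c ≠ 0) : ∃ v : ValuationSubring k, (∀ c ∈ S, v.valuation c = 1) ∧
      ∀ c : IsLocalRing.ResidueField v, c ≠ 0 → ∃ n : ℕ, 0 < n ∧ c ^ n = 1 := by
  obtain ⟨κ, _, P, -, htor, hP⟩ := exists_finpl S hS
  refine ⟨P.O, fun c hc => P.U_iff.1 (hP c hc), fun c hc => ?_⟩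
  obtain ⟨x, rfl⟩ := IsLocalRing.residue_surjective c
  have h1 : P.ψ x ≠ 0 := by
    rw [Ne, P.ker]
    intro h
    apply hc
    rw [IsLocalRing.residue_eq_zero_iff, ValuationSubring.valuation_lt_one_iff]
    exact h
  obtain ⟨n, hn, h2⟩ := htor _ h1
  refine ⟨n, hn, ?_⟩
  rw [← map_pow, ← sub_eq_zero, ← map_one (IsLocalRing.residue P.O), ← map_sub,
    IsLocalRing.residue_eq_zero_iff, ValuationSubring.valuation_lt_one_iff, ← P.ker, map_sub,
    map_pow, h2, map_one, sub_self]

end Vale.Agent.P019P
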