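import Vale.Agent.P019R.R9
import Vale.Agent.P019R.R9a
import Vale.Agent.P019R.BotB

/-!
# Existence of bottom valuations
-/

namespace Vale.Agent.P019P

open Vale.Agent.P019

set_option linter.style.haveILetI false
set_option linter.unusedSectionVars false
set_option linter.unusedVariables false

open Polynomial Filter

universe u

/-- a zero of a polynomial relation with integral coefficients, the first and the last being
units. -/
theorem bb_rel_unit {K : Type*} [Field K] {W : ValuationSubring K} {n : ℕ} {p : ℕ → K} {z : K}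
    (hn : n ≠ 0) (hp : ∀ i ∈ Finset.range (n + 1), p i ∈ W) (h0 : W.valuation (p 0) = 1)
    (h1 : W.valuation (p n) = 1) (hz : z ≠ 0)
    (h : ∑ i ∈ Finset.range (n + 1), p i * z ^ i = 0) : W.valuation z = 1 := by
  have hv0 : 0 < W.valuation z := zero_lt_iff.2 ((Valuation.ne_zero_iff _).2 hz)
  have hle : ∀ i ∈ Finset.range (n + 1), W.valuation (p i) ≤ 1 := fun i hi =>
    (W.valuation_le_one_iff _).2 (hp i hi)
  rcases lt_trichotomy (W.valuation z) 1 with hlt | heq | hgt
  · exfalso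
    have h2 : W.valuation (∑ i ∈ Finset.range n, p (i + 1) * z ^ (i + 1)) < W.valuation (p 0) := by
      refine Valuation.map_sum_lt _ (by rw [h0]; exact one_ne_zero) fun i hi => ?_
      rw [h0, map_mul, map_pow]
      calc W.valuation (p (i + 1)) * W.valuation z ^ (i + 1) ≤ 1 * W.valuation z ^ (i + 1) :=
            mul_le_mul_left (hle _ (Finset.mem_range.2 (by
              have := Finset.mem_range.1 hi
              omega))) _
        _ = W.valuation z ^ (i + 1) := one_mul _
        _ < 1 := pow_lt_one₀ hv0.le hlt (Nat.succ_ne_zero i)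
    rw [Finset.sum_range_succ'] at h
    have h3 := Valuation.map_add_eq_of_lt_left W.valuation (x := p 0 * z ^ 0) (y := ∑ i ∈ Finset.range n, p (i + 1) * z ^ (i + 1)) (by
      rwa [pow_zero, mul_one])
    rw [add_comm, h, map_zero, pow_zero, mul_one, h0] at h3
    exact zero_ne_one h3
  · exact heq
  · exfalso
    have h2 : W.valuation (∑ i ∈ Finset.range n, p i * z ^ i) < W.valuation (p n * z ^ n) := by
      have h3 : W.valuation (p n * z ^ n) = W.valuation z ^ n := by
        rw [map_mul, map_pow, h1, one_mul]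
      refine Valuation.map_sum_lt _ (by rw [h3]; exact (pow_pos hv0 n).ne') fun i hi => ?_
      rw [h3, map_mul, map_pow]
      calc W.valuation (p i) * W.valuation z ^ i ≤ 1 * W.valuation z ^ i :=
            mul_le_mul_left (hle _ (Finset.mem_range.2 (by
              have := Finset.mem_range.1 hi
              omega))) _
        _ = W.valuation z ^ i := one_mul _
        _ < W.valuation z ^ n := pow_lt_pow_right₀ hgt (Finset.mem_range.1 hi)
    rw [Finset.sum_range_succ] at h
    have h3 := Valuation.map_add_eq_of_lt_left W.valuation h2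
    rw [add_comm, h, map_zero, map_mul, map_pow, h1, one_mul] at h3
    exact (pow_pos hv0 n).ne h3

/-- values of polynomials with integral coefficients around `c`. -/
theorem bb_poly_unit {K : Type*} [Field K] {k : Subfield K} (hk : IsAlgClosed k)
    {W : ValuationSubring K} {t s : K} {cc : k} (hsW : s ∈ W) (hsb : rs W s ∉ rbar k W)
    (htc : W.valuation (t - cc) < 1) {f : k[X][X]}
    (hf : ∀ i j, ((((f.comp (X + C (C cc))).coeff j).coeff i : k) : K) ∈ W)
    {i₀ : ℕ} (hi₀ : W.valuation ((((f.comp (X + C (C cc))).coeff 0).coeff i₀ : k) : K) = 1) :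
    W.valuation (apbEv k.subtype t s f) = 1 := by
  rw [bb_shift cc f]
  set g := f.comp (X + C (C cc)) with hg
  have htcW : t - cc ∈ W := (W.valuation_le_one_iff _).1 htc.le
  have hev : ∀ j, eval₂ k.subtype s (g.coeff j) ∈ W := by
    intro j
    rw [eval₂_eq_sum_range]
    exact sum_mem fun i _ => mul_mem (hf i j) (pow_mem hsW i)
  have h1 : apbEv k.subtype (t - cc) s g = eval₂ k.subtype s (g.coeff 0) +
      (∑ j ∈ Finset.range g.natDegree, eval₂ k.subtype s (g.coeff (j + 1)) * (t - cc) ^ j) *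
        (t - cc) := by
    unfold apbEv
    rw [coe_eval₂RingHom, eval₂_eq_sum_range, Finset.sum_range_succ', pow_zero, mul_one,
      coe_eval₂RingHom, add_comm, Finset.sum_mul]
    congr 1
    refine Finset.sum_congr rfl fun j _ => ?_
    rw [pow_succ, mul_assoc]
  have h2 : W.valuation ((∑ j ∈ Finset.range g.natDegree,
      eval₂ k.subtype s (g.coeff (j + 1)) * (t - cc) ^ j) * (t - cc)) < 1 := by
    rw [map_mul]
    have h3 : W.valuation (∑ j ∈ Finset.range g.natDegree,
        eval₂ k.subtype s (g.coeff (j + 1)) * (t - cc) ^ j) ≤ 1 :=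
      (W.valuation_le_one_iff _).2 (sum_mem fun j _ => mul_mem (hev _) (pow_mem htcW j))
    exact (mul_le_mul_left h3 _).trans_lt (by rwa [one_mul])
  have hi₀' : i₀ ≤ (g.coeff 0).natDegree := by
    refine le_natDegree_of_ne_zero fun h0 => ?_
    rw [h0] at hi₀
    change W.valuation (0 : K) = 1 at hi₀
    rw [map_zero] at hi₀
    exact zero_ne_one hi₀
  have h3 : W.valuation (eval₂ k.subtype s (g.coeff 0)) = 1 := by
    have h4 : eval₂ k.subtype s (g.coeff 0) = ∑ i ∈ Finset.range ((g.coeff 0).natDegree + 1),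
        (((g.coeff 0).coeff i : k) : K) * s ^ i := by
      rw [eval₂_eq_sum_range]
      rfl
    rw [h4]
    exact (bb_unit hk hsW hsb (fun i => ((g.coeff 0).coeff i).2) (fun i => hf i 0) hi₀' hi₀).1
  rw [h1, Valuation.map_add_eq_of_lt_left W.valuation (by rw [h3]; exact h2), h3]

/-- relations over polynomials. -/
theorem bb_exists_rel {K : Type*} [Field K] [PerfectField K] {k : Subfield K} {t s : K}
    (hS : Srf k t s) {z : K} (hz : z ≠ 0) : ∃ (n : ℕ) (p : ℕ → k[X][X]), n ≠ 0 ∧
      p 0 ≠ 0 ∧ p n ≠ 0 ∧ ∑ i ∈ Finset.range (n + 1), apbEv k.subtype t s (p i) * z ^ i = 0 := by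
  classical
  set M := Vale.Agent.P019.adj (Vale.Agent.P019.adj k s) t with hM
  have halg : IsAlgebraic M z := isAlgebraic_pf.1 (isAlgebraic_mono bb_adj_le (hS.alg z))
  have hint : IsIntegral M z := halg.isIntegral
  set n := (minpoly M z).natDegree with hn
  obtain ⟨d, hd, hdS⟩ := apb_common_den (k := k) (t := t) (s := s)
    ((Finset.range (n + 1)).image fun i => (((minpoly M z).coeff i : M) : K)) (by
      intro y hy
      obtain ⟨i, -, rfl⟩ := Finset.mem_image.1 hy
      exact ((minpoly M z).coeff i).2)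
  have h1 : ∀ i, ∃ f : k[X][X], i ∈ Finset.range (n + 1) →
      apbEv k.subtype t s f = apbEv k.subtype t s d * (((minpoly M z).coeff i : M) : K) := by
    intro i
    by_cases hi : i ∈ Finset.range (n + 1)
    · obtain ⟨f, hf⟩ := hdS _ (Finset.mem_image_of_mem _ hi)
      exact ⟨f, fun _ => hf⟩
    · exact ⟨0, fun h => absurd h hi⟩
  choose p hp using h1
  have hne : ∀ i ∈ Finset.range (n + 1), (minpoly M z).coeff i ≠ 0 → p i ≠ 0 := by
    intro i hi h2 h3
    have h4 := hp i hi
    rw [h3, map_zero] at h4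
    exact mul_ne_zero hd (fun h5 => h2 (Subtype.ext h5)) h4.symm
  refine ⟨n, p, (minpoly.natDegree_pos hint).ne', hne 0 (Finset.mem_range.2 (Nat.succ_pos n))
    (minpoly.coeff_zero_ne_zero hint hz), hne n (Finset.mem_range.2 (Nat.lt_succ_self n)) ?_, ?_⟩
  · rw [hn, coeff_natDegree, (minpoly.monic hint).leadingCoeff]
    exact one_ne_zero
  · have h2 : ∑ i ∈ Finset.range (n + 1), (((minpoly M z).coeff i : M) : K) * z ^ i = 0 := by
      rw [← aeval_eq_sum_le hn.symm.le]
      exact minpoly.aeval M z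
    calc ∑ i ∈ Finset.range (n + 1), apbEv k.subtype t s (p i) * z ^ i =
        apbEv k.subtype t s d *
          ∑ i ∈ Finset.range (n + 1), (((minpoly M z).coeff i : M) : K) * z ^ i := by
          rw [Finset.mul_sum]
          refine Finset.sum_congr rfl fun i hi => ?_
          rw [hp i hi, mul_assoc]
      _ = 0 := by rw [h2, mul_zero]

/-- a point outside the zeros of finitely many polynomials. -/
theorem bb_exists_pt {k : Type*} [Field k] [Infinite k] (T : Finset k[X][X])
    (hT : ∀ f ∈ T, f ≠ 0) : ∃ cc : k, ∀ f ∈ T, f.eval (C cc) ≠ 0 := by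
  classical
  have h1 : (⋃ f ∈ T, {cc : k | f.eval (C cc) = 0}).Finite := by
    refine Set.Finite.biUnion T.finite_toSet fun f hf => ?_
    have h2 : {x : k[X] | f.IsRoot x}.Finite := Polynomial.finite_setOfPred_isRoot (hT f hf)
    exact h2.preimage (C_injective.injOn)
  obtain ⟨cc, hcc⟩ := h1.exists_notMem
  refine ⟨cc, fun f hf h0 => hcc ?_⟩
  simp only [Set.mem_iUnion]
  exact ⟨f, hf, h0⟩

/-- existence on finite sets. -/
theorem exists_bot0 {K : Type*} [Field K] [PerfectField K] {k : Subfield K}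
    (hk : IsAlgClosed k) {t s : K} (hS : Srf k t s) (S : Finset K) (hS0 : ∀ z ∈ S, z ≠ 0) :
    ∃ (W : ValuationSubring K) (c : K), Bot0 k t s W c ∧ ∀ z ∈ S, W.valuation z = 1 := by
  classical
  haveI := hk
  have hrel : ∀ z : K, ∃ (n : ℕ) (p : ℕ → k[X][X]), z ≠ 0 → n ≠ 0 ∧
      p 0 ≠ 0 ∧ p n ≠ 0 ∧ ∑ i ∈ Finset.range (n + 1), apbEv k.subtype t s (p i) * z ^ i = 0 := by
    intro z
    by_cases hz : z ≠ 0
    · obtain ⟨n, p, h⟩ := bb_exists_rel hS hz
      exact ⟨n, p, fun _ => h⟩
    · exact ⟨0, 0, fun h => absurd h hz⟩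
  choose n p hnp using hrel
  -- the polynomials
  let T : Finset k[X][X] := (S.biUnion fun z => (Finset.range (n z + 1)).image (p z)).filter
    (fun f => f ≠ 0)
  haveI : Infinite k := IsAlgClosed.instInfinite
  obtain ⟨cc, hcc⟩ := bb_exists_pt T (fun f hf => (Finset.mem_filter.1 hf).2)
  -- the coefficients
  let T' : Finset k := insert cc (T.biUnion fun f =>
    (f.comp (X + C (C cc))).support.biUnion fun j =>
      ((f.comp (X + C (C cc))).coeff j).support.image fun i =>
        ((f.comp (X + C (C cc))).coeff j).coeff i)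
  obtain ⟨κ, _, P, -, htor, hP⟩ := exists_finpl (T'.filter (fun a => a ≠ 0))
    (fun a ha => (Finset.mem_filter.1 ha).2)
  have hPO : ∀ a ∈ T', a ∈ P.O := by
    intro a ha
    by_cases ha0 : a = 0
    · rw [ha0]; exact P.O.zero_mem
    · exact (hP a (Finset.mem_filter.2 ⟨ha, ha0⟩)).1
  have hccO : cc ∈ P.O := hPO cc (Finset.mem_insert_self _ _)
  obtain ⟨Ω, _, i, W, hWk, hWev, hsW, hstr, htcW, htc0, hinf⟩ :=
    exists_botpl hS.ss hS.tt P hccO
  have hval1 : ∀ a : k, W.O.valuation (a : K) = 1 ↔ P.O.valuation a = 1 := by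
    intro a
    rw [← Pl.U_iff, ← Pl.U_iff]
    constructor
    · rintro ⟨h1, h2⟩
      have h3 := (hWk a).1 h1
      refine ⟨h3, ?_⟩
      rw [hWev a h3] at h2
      exact fun h4 => h2 (by rw [h4, map_zero])
    · rintro ⟨h1, h2⟩
      refine ⟨(hWk a).2 h1, ?_⟩
      rw [hWev a h1, Ne, map_eq_zero]
      exact h2
  have hvallt : ∀ a : k, W.O.valuation (a : K) < 1 → P.O.valuation a < 1 := by
    intro a ha
    have h1 : (a : K) ∈ W.O := W.mem_of_lt ha
    have h2 := (hWk a).1 h1
    refine lt_of_le_of_ne ((P.O.valuation_le_one_iff a).2 h2) fun h3 => ?_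
    rw [(hval1 a).2 h3] at ha
    exact lt_irrefl _ ha
  have hsb : rs W.O s ∉ rbar k W.O := by
    rintro ⟨a, ha, haW, h1⟩
    have h2 : W.O.valuation (s - a) < 1 := (rs_eq hsW haW).1 h1.symm
    apply hstr
    have h3 : W.ev (s - a) = 0 := W.ev_of_lt h2
    rw [W.ev_sub hsW haW, sub_eq_zero] at h3
    rw [h3, hWev ⟨a, ha⟩ ((hWk ⟨a, ha⟩).1 haW)]
    exact isAlgebraic_of_mem ⟨_, rfl⟩
  have htc : W.O.valuation (t - cc) < 1 := (W.ev_eq_zero_iff htcW).1 htc0
  have htne : t ≠ cc := by
    intro h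
    apply hS.tt
    rw [h]
    exact isAlgebraic_of_mem (le_adj k s cc.2)
  have hpb : PBot k t s W.O cc :=
  { ck := cc.2
    cW := (hWk cc).2 hccO
    tc := htc
    tne := htne
    sW := hsW
    sb := hsb
    inf := fun a ha ha1 m => by
      obtain ⟨h1, h2⟩ := hinf ⟨a, ha⟩ (hvallt ⟨a, ha⟩ ha1) m
      have h3 : W.O.valuation (a / (t - cc) ^ m) < 1 := (W.ev_eq_zero_iff h1).1 h2
      have h4 : 0 < W.O.valuation ((t - cc) ^ m) := by
        rw [zero_lt_iff]
        exact (Valuation.ne_zero_iff _).2 (pow_ne_zero _ (sub_ne_zero.2 htne))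
      rw [map_div₀, div_lt_one₀ h4, map_pow] at h3
      exact h3 }
  -- the polynomials are units
  have hTu : ∀ f ∈ T, W.O.valuation (apbEv k.subtype t s f) = 1 := by
    intro f hf
    have h1 : (f.comp (X + C (C cc))).coeff 0 ≠ 0 := by
      rw [coeff_zero_eq_eval_zero, eval_comp, eval_add, eval_X, eval_C, zero_add]
      exact hcc f hf
    obtain ⟨i₀, hi₀⟩ : ∃ i₀, ((f.comp (X + C (C cc))).coeff 0).coeff i₀ ≠ 0 := by
      by_contra hcon
      push Not at hcon
      exact h1 (Polynomial.ext fun i => by rw [hcon i, coeff_zero])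
    have hmemT : ∀ i j, ((f.comp (X + C (C cc))).coeff j).coeff i ≠ 0 →
        ((f.comp (X + C (C cc))).coeff j).coeff i ∈ T' := by
      intro i j hij
      refine Finset.mem_insert_of_mem (Finset.mem_biUnion.2 ⟨f, hf, Finset.mem_biUnion.2
        ⟨j, ?_, Finset.mem_image.2 ⟨i, mem_support_iff.2 hij, rfl⟩⟩⟩)
      rw [mem_support_iff]
      intro h2
      rw [h2, coeff_zero] at hij
      exact hij rfl
    refine bb_poly_unit hk hsW hsb htc (fun i j => ?_) (i₀ := i₀) ?_
    · by_cases hij : ((f.comp (X + C (C cc))).coeff j).coeff i = 0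
      · rw [hij]
        exact W.O.zero_mem
      · exact (hWk _).2 (hPO _ (hmemT i j hij))
    · rw [hval1]
      exact P.U_iff.1 (hP _ (Finset.mem_filter.2 ⟨hmemT i₀ 0 hi₀, hi₀⟩))
  refine ⟨W.O, cc, ⟨?_, hpb.ck, hpb.cW, hpb.tc, hpb.sW, hpb.sb, hpb.inf,
    fun z hz hz0 => hpb.rep hk hz hz0⟩, fun z hz => ?_⟩
  · rintro _ ⟨a, ha, haW, rfl⟩ ha0
    have h1 : W.O.valuation a = 1 := (rs_ne_zero haW).1 ha0
    have h2 : P.O.valuation (⟨a, ha⟩ : k) = 1 := (hval1 ⟨a, ha⟩).1 h1
    have h3 := (P.U_iff.2 h2)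
    obtain ⟨m, hm, h4⟩ := htor _ h3.2
    refine ⟨m, hm, ?_⟩
    have h5 : W.ev a = i (P.ev ⟨a, ha⟩) := hWev ⟨a, ha⟩ h3.1
    have h6 : W.ev (a ^ m - 1) = 0 := by
      rw [W.ev_sub (pow_mem haW m) W.O.one_mem, W.ev_one, W.ev_pow haW, h5, ← map_pow, h4, map_one,
        sub_self]
    rw [W.ev_eq_zero_iff (sub_mem (pow_mem haW m) W.O.one_mem)] at h6
    rw [← rs_pow haW, ← rs_one, rs_eq (pow_mem haW m) W.O.one_mem]
    exact h6
  · have hz0 := hS0 z hz
    obtain ⟨hn0, hp0, hpn, hsum⟩ := hnp z hz0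
    have hmem : ∀ i ∈ Finset.range (n z + 1), p z i ≠ 0 → p z i ∈ T := fun i hi h0 =>
      Finset.mem_filter.2 ⟨Finset.mem_biUnion.2 ⟨z, hz, Finset.mem_image_of_mem _ hi⟩, h0⟩
    refine bb_rel_unit hn0 (fun i hi => ?_) (hTu _ (hmem 0 (Finset.mem_range.2 (Nat.succ_pos _)) hp0))
      (hTu _ (hmem _ (Finset.mem_range.2 (Nat.lt_succ_self _)) hpn)) hz0 hsum
    by_cases h0 : p z i = 0
    · rw [h0, map_zero]; exact W.O.zero_mem
    · exact mem_of_val (hTu _ (hmem i hi h0))

/-- the family. -/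
theorem exists_bot {K : Type u} [Field K] [PerfectField K] {k : Subfield K}
    (hk : IsAlgClosed k) {t s : K} (hS : Srf k t s) :
    ∃ (I : Type u) (U : Ultrafilter I) (W : I → ValuationSubring K) (c : I → K),
      (∀ i, Bot0 k t s (W i) (c i)) ∧ Ulu U W := by
  classical
  have h1 : ∀ i : Finset K, ∃ (W : ValuationSubring K) (c : K), Bot0 k t s W c ∧
      ∀ z ∈ i, z ≠ 0 → W.valuation z = 1 := by
    intro i
    obtain ⟨W, c, h2, h3⟩ := exists_bot0 hk hS (i.filter (fun z => z ≠ 0))
      (fun z hz => (Finset.mem_filter.1 hz).2)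
    exact ⟨W, c, h2, fun z hz hz0 => h3 z (Finset.mem_filter.2 ⟨hz, hz0⟩)⟩
  choose W c h2 h3 using h1
  refine ⟨Finset K, Ultrafilter.of atTop, W, c, h2, fun z hz => ?_⟩
  have h4 : ∀ᶠ i : Finset K in atTop, z ∈ i := by
    filter_upwards [eventually_ge_atTop ({z} : Finset K)] with i hi
    exact hi (Finset.mem_singleton_self z)
  have h5 : ∀ᶠ i in (Ultrafilter.of (atTop : Filter (Finset K)) : Filter (Finset K)), z ∈ i :=
    Ultrafilter.of_le atTop h4
  exact h5.mono fun i hi => h3 i z hi hz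

end Vale.Agent.P019P
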