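import Vale.Agent.P019R.R13a
import Vale.Agent.P019R.R9b
import Vale.Agent.P019R.R10a
import Vale.Agent.P019R.R10b
import Vale.Agent.P019R.R10c
import Vale.Agent.P019R.R11a
import Vale.Agent.P019R.R11b
import Vale.Agent.P019R.R12a
import Vale.Agent.P019R.R12b
import Vale.Agent.P019Q.StepA2
import Vale.Agent.P019Q.E1

/-!
# Step A for surfaces over arbitrary algebraically closed fields
-/

namespace Vale.Agent.P019P

open Vale.Agent.P019

set_option linter.style.haveILetI false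
set_option linter.unusedSectionVars false
set_option linter.unusedVariables false

open Polynomial Filter

variable {K L : Type*} [Field K] [Field L] [PerfectField K] [PerfectField L] {ℓ : ℕ}
  [Fact ℓ.Prime] [NeZero (ℓ : K)] [NeZero (ℓ : L)] {Θ : V ℓ K ≃ₗ[ZMod ℓ] V ℓ L}

/-- the transcendence degree of a surface. -/
theorem Srf.td {l : Subfield L} (hl : IsAlgClosed l) {x y : L} (hL : Srf l x y) : Td l 2 := by
  classical
  haveI := hl
  have hyl : y ∉ l := fun h => hL.ss (isAlgebraic_of_mem h)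
  have hxy : ¬ IsAlgebraic (gsp l {y}) x := by
    intro h
    have h1 : gsp l {y} = adj (gsp l ∅) y := gsp_insert l ∅ y
    rw [h1, gsp_empty] at h
    exact hL.tt h
  refine ⟨insert x {y}, ?_, (e1_indp_single hl hyl).insert hxy, fun z => ?_⟩
  · rw [Finset.card_insert_of_notMem, Finset.card_singleton]
    rw [Finset.mem_singleton]
    rintro rfl
    exact hxy (isAlgebraic_of_mem (mem_gsp (Finset.mem_singleton_self _)))
  · rw [gsp_insert, show gsp l {y} = adj (gsp l ∅) y from gsp_insert l ∅ y, gsp_empty]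
    exact hL.alg z

theorem stepA2g {k : Subfield K} (hk : IsAlgClosed k) (hfgk : FG k (⊤ : Subfield K))
    {l : Subfield L} (hl : IsAlgClosed l) (hfgl : FG l (⊤ : Subfield L))
    (hΘ : Compatible Θ) {t₀ s₀ : K} (hK : Srf k t₀ s₀) {x y : L} (hL : Srf l x y)
    {t : K} (ht : Good k t) : ∃ E : Subfield L, Crv l E ∧
      ∀ v, Θ v ∈ VS ℓ E ↔ v ∈ VS ℓ (adj k t) := by
  classical
  have htk : ¬ IsAlgebraic k t := fun h => ht.1 (RAC_of_isAlgClosed k hk t h)
  obtain ⟨s, hs, hs'⟩ := rsb_exch hK htk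
  have hfr0 : Frame k k s t := ⟨le_rfl, hK.fg, hs, htk, hs'⟩
  have hfr : Frame k k t s := hfr0.swap
  have htrl : ∃ x y : L, x ∉ l ∧ ¬ IsAlgebraic (adj l x) y :=
    ⟨y, x, fun h => hL.ss (isAlgebraic_of_mem h), hL.tt⟩
  have htd : Td l 2 := hL.td hl
  -- the bottom family
  obtain ⟨I, U, W, c, hB0, hu⟩ := exists_bot hk hfr
  obtain ⟨θ, hθ⟩ := exists_botT hk hfgk ht hfr hB0 hu
  have hWℓ : ∀ᶠ i in U, (W i).valuation (ℓ : K) = 1 := hu _ (NeZero.ne _)
  have hex : ∀ᶠ i in U, ∃ fO : (V ℓ K →ₗ[ZMod ℓ] ZMod ℓ) × ValuationSubring L,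
      Adp (W i) fO.1 ∧ TrA Θ (W i) fO.1 fO.2 ∧ Cv (rbarP k (W i)) := by
    filter_upwards [hθ, hWℓ] with i h1 h2
    obtain ⟨f, hf, -⟩ := h1.fn ℓ hk
    have hcv := h1.cv hk hfgk hfr
    obtain ⟨g₀, hg₀⟩ := exists_nrU h2 hcv
    obtain ⟨O, hO⟩ := exists_trA hΘ (exists_neg hk) (exists_neg hl) hf hg₀
    exact ⟨⟨f, O⟩, hf, hO, hcv⟩
  obtain ⟨fO, hfO⟩ := hex.choice
  set O : I → ValuationSubring L := fun i => (fO i).2 with hOdef
  have hker : ∀ v, (∀ᶠ i in U, Θ v ∈ U1 ℓ (O i)) → v ∈ VS ℓ (adj k t) := by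
    intro v hv
    refine bot_mem hk hfgk ht hfr hθ hu ?_
    filter_upwards [hv, hfO] with i h1 h2
    exact (h2.2.1.iff v).1 h1
  have huO : Ulu U O := ulu_gen hk hfgk hl hfgl hΘ htrl ht hker
  have hOℓ : ∀ᶠ i in U, (O i).valuation (ℓ : L) = 1 := huO _ (NeZero.ne _)
  by_cases hcase : ∃ h : L, h ∉ l ∧ ∃ c : I → L, (∀ i, c i ∈ l) ∧
      ∀ᶠ i in U, (O i).valuation (h - c i) < 1
  · obtain ⟨h, hh, c', hc, hhc⟩ := hcase
    exact case_gen hk hfgk hl hfgl hΘ htrl ht huO hker hh hc hhc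
  exfalso
  apply hcase
  have hnot : ∀ g : L, g ∉ l → ∀ᶠ i in U, rsP (O i) g ∉ rbarP l (O i) := by
    intro g hg
    rw [Ultrafilter.eventually_not]
    intro h
    obtain ⟨c', hc, hc'⟩ := huO.const_iffG.1 h
    exact hcase ⟨g, hg, c', hc, hc'⟩
  have hmem : ∀ g : L, ∀ᶠ i in U, g ∈ O i := by
    intro g
    by_cases h0 : g = 0
    · rw [h0]; exact Eventually.of_forall fun i => (O i).zero_mem
    · exact (huO g h0).mono fun i hi => mem_of_val hi
  -- five constants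
  obtain ⟨S, hSl, hSc⟩ : ∃ S : Finset L, (∀ c ∈ S, c ∈ l) ∧ S.card = 5 := by
    obtain ⟨S, hS1, hS2⟩ := (infinite_of_isAlgClosed hl).exists_subset_card_eq 5
    exact ⟨S, fun c hc => hS1 hc, hS2⟩
  have hSO : ∀ᶠ i in U, ∀ c ∈ S, c ∈ O i := by
    rw [Filter.eventually_all_finset]
    exact fun c _ => hmem c
  have hSinj : ∀ᶠ i in U, Set.InjOn (rsP (O i)) (S : Set L) := by
    have h1 : ∀ᶠ i in U, ∀ c ∈ S, ∀ c' ∈ S, c ≠ c' → (O i).valuation (c - c') = 1 := by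
      rw [Filter.eventually_all_finset]
      intro c _
      rw [Filter.eventually_all_finset]
      intro c' _
      by_cases h : c = c'
      · exact Eventually.of_forall fun i h2 => absurd h h2
      · exact (huO _ (sub_ne_zero.2 h)).mono fun i hi _ => hi
    filter_upwards [h1, hSO] with i h2 h3 c hc c' hc' hcc
    by_contra hne
    have h4 := (rsP_ne_zero (sub_mem (h3 c hc) (h3 c' hc'))).2 (h2 c hc c' hc' hne)
    rw [rsP_sub (h3 c hc) (h3 c' hc'), hcc, sub_self] at h4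
    exact h4 rfl
  obtain ⟨G, hG⟩ := bot_gen (ℓ := ℓ) hk hfgk hfr hθ hu
  have hdeg : ∀ g : L, g ∉ l → ∃ d : ℕ, ∀ᶠ i in U, rsP (O i) g ∉ rbarP l (O i) ∧
      Module.Finite (adj (rbarP l (O i)) (rsP (O i) g)) (RFP (O i)) ∧
      Module.finrank (adj (rbarP l (O i)) (rsP (O i) g)) (RFP (O i)) ≤ d := by
    intro g hg
    have hg0 : g ≠ 0 := fun h => hg (h ▸ l.zero_mem)
    choose z hz0 hz using fun c : L => cl_surj ℓ (Θ.symm (cl ℓ (g - c)))
    choose M hM using fun c : L => bot_deg hk hfgk hfr hθ hu (hz0 c)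
    refine ⟨4 * G + 5 * (2 * S.sup M), ?_⟩
    have hM' : ∀ᶠ i in U, ∀ c ∈ S, (W i).valuation (z c) = 1 ∧
        (rsP (W i) (z c) ∉ rbarP k (W i) →
        Module.finrank (adj (rbarP k (W i)) (rsP (W i) (z c))) (RFP (W i)) ≤ M c) := by
      rw [Filter.eventually_all_finset]
      exact fun c _ => hM c
    filter_upwards [hM', hnot g hg, huO g hg0, hfO, hWℓ, hOℓ, hSO, hSinj, hG]
      with i h1 h2 h3 h4 h5 h6 h7 h8 h9
    obtain ⟨hcvO, hdeg⟩ := deg_point (M := S.sup M) hk hl hfgl htd hΘ h4.1 h5 (hB0 i).fin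
      h4.2.2 h4.2.1 h6 h3 h2 h9 S (fun c hc => ⟨hSl c hc, h7 c hc⟩) h8 hSc (fun c hc =>
        ⟨z c, (h1 c hc).1, by rw [hz, LinearEquiv.apply_symm_apply],
          fun h => ((h1 c hc).2 h).trans (Finset.le_sup hc)⟩)
    exact ⟨h2, hcvO.finite h2, hdeg⟩
  -- the transcendence basis
  have hyl : y ∉ l := fun h => hL.ss (isAlgebraic_of_mem h)
  have hxy' : ∀ z, IsAlgebraic (adj l y) (y + z) → IsAlgebraic (adj l y) z := by
    intro z hz
    have h1 : IsAlgebraic (adj l y) (y + z - y) :=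
      hz.sub (isAlgebraic_of_mem (mem_adj l y))
    rwa [add_sub_cancel_left] at h1
  have hxl : ¬ IsAlgebraic l x := fun h => hL.tt (isAlgebraic_mono (le_adj l y) h)
  have hyx : ¬ IsAlgebraic (adj l x) y := fun h => hL.tt (exchange hL.ss h)
  have hsl : y + x ∉ l := fun h => hL.tt (hxy' x (isAlgebraic_of_mem (le_adj l y h)))
  have hxl' : x ∉ l := fun h => hxl (isAlgebraic_of_mem h)
  obtain ⟨d1, hd1⟩ := hdeg y hyl
  obtain ⟨d2, hd2⟩ := hdeg x hxl'
  obtain ⟨d3, hd3⟩ := hdeg (y + x) hsl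
  set d := max d1 (max d2 d3) with hd
  have h1d : d1 ≤ d := le_max_left _ _
  have h2d : d2 ≤ d := (le_max_left _ _).trans (le_max_right _ _)
  have h3d : d3 ≤ d := (le_max_right _ _).trans (le_max_right _ _)
  have hrel : ∀ᶠ i in U, BRel (rbarP l (O i)) d (rsP (O i) y) (rsP (O i) x) ∨
      (BRel (rbarP l (O i)) d (rsP (O i) y) (rsP (O i) (y + x)) ∨
        BRel (rbarP l (O i)) d (rsP (O i) x) (rsP (O i) (y + x))) := by
    filter_upwards [hd1, hd2, hd3, hmem y, hmem x] with i h1 h2 h3 h4 h5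
    have h6 := rsP_add h4 h5
    rw [h6] at h3 ⊢
    exact exists_brel (rbarP_ac hl _) ⟨h1.1, h1.2.1, h1.2.2.trans h1d⟩
      ⟨h2.1, h2.2.1, h2.2.2.trans h2d⟩ ⟨h3.1, h3.2.1, h3.2.2.trans h3d⟩
  -- the classes
  have hX : ∀ z ∈ {z : L | z ≠ 0 ∧ Θ.symm (cl ℓ z) ∈ VS ℓ (adj k t)}, z ≠ 0 ∧
      ∀ᶠ i in U, cl ℓ z ∈ U1 ℓ (O i) := by
    rintro z ⟨hz0, hz⟩
    refine ⟨hz0, ?_⟩
    have h1 := bot_of_mem hk ht.1 hB0 hu hz
    filter_upwards [h1, hfO] with i h2 h3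
    have h4 := (h3.2.1.iff _).2 h2
    rwa [LinearEquiv.apply_symm_apply] at h4
  have hinf := sa_inf (Θ := Θ) hk ht
  have hspec : ∀ (y1 y2 : L) (d0 : ℕ), ¬ IsAlgebraic l y1 → ¬ IsAlgebraic (adj l y1) y2 →
      (∀ z : L, IsAlgebraic (adj (adj l y1) y2) z) →
      (∀ᶠ i in U, rsP (O i) y1 ∉ rbarP l (O i) ∧
      Module.Finite (adj (rbarP l (O i)) (rsP (O i) y1)) (RFP (O i)) ∧
      Module.finrank (adj (rbarP l (O i)) (rsP (O i) y1)) (RFP (O i)) ≤ d0) →
      (∀ᶠ i in U, BRel (rbarP l (O i)) d (rsP (O i) y1) (rsP (O i) y2)) →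
      ∃ h : L, h ∉ l ∧ ∃ c : I → L, (∀ i, c i ∈ l) ∧
        ∀ᶠ i in U, (O i).valuation (h - c i) < 1 := fun y1 y2 d0 h1 h2 halg h4 h5 =>
    huO.specialG hl hfgl h1 h2 halg (h4.mono fun i hi _ => hi.2) h5 hX hinf
  have hle1 : adj (adj l y) x ≤ adj (adj l y) (y + x) := by
    refine adj_le (le_adj _ _) ?_
    have h1 := Subfield.sub_mem _ (mem_adj (adj l y) (y + x))
      (le_adj (adj l y) (y + x) (mem_adj l y))
    rwa [add_sub_cancel_left] at h1
  have hle2 : adj (adj l y) x ≤ adj (adj l x) (y + x) := by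
    refine adj_le (adj_le ((le_adj l x).trans (le_adj _ _)) ?_) (le_adj _ _ (mem_adj l x))
    have h1 := Subfield.sub_mem _ (mem_adj (adj l x) (y + x))
      (le_adj (adj l x) (y + x) (mem_adj l x))
    rwa [add_sub_cancel_right] at h1
  rw [Ultrafilter.eventually_or, Ultrafilter.eventually_or] at hrel
  rcases hrel with h | h | h
  · exact hspec y x d1 hL.ss hL.tt hL.alg hd1 h
  · exact hspec y (y + x) d1 hL.ss (fun h' => hL.tt (hxy' x h'))
      (fun z => isAlgebraic_mono hle1 (hL.alg z)) hd1 h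
  · refine hspec x (y + x) d2 hxl (fun h' => hyx ?_)
      (fun z => isAlgebraic_mono hle2 (hL.alg z)) hd2 h
    have h1 : IsAlgebraic (adj l x) (y + x - x) :=
      h'.sub (isAlgebraic_of_mem (mem_adj l x))
    rwa [add_sub_cancel_right] at h1

end Vale.Agent.P019P
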