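import Vale.Agent.P019R.R0
import Vale.Agent.P019Q.ApE

/-!
# Two curves such that all places of the second come from the first
-/

namespace Vale.Agent.P019P

open Vale.Agent.P019

set_option linter.style.haveILetI false
set_option linter.unusedSectionVars false
set_option linter.unusedVariables false

open Polynomial Filter

section r8

variable {F : Type*} [Field F] {k : Subfield F}

/-- a function which is not constant has a zero. -/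
theorem r8_zero (hac : IsAlgClosed k) {x : F} (hx : x ∉ k) :
    ∃ O ∈ Plc k, O.valuation x < 1 := by
  have ht : Transcendental k x := fun h => hx (RAC_of_isAlgClosed k hac x h)
  obtain ⟨B, h1, h2, h3⟩ := CPole_exists_val ht
  refine ⟨B, ⟨fun c hc => h1 ⟨c, hc⟩, fun h => h3 (h ▸ ValuationSubring.mem_top _)⟩, ?_⟩
  have hx0 : x ≠ 0 := fun h => hx (h ▸ k.zero_mem)
  have hv : B.valuation x ≠ 0 := (Valuation.ne_zero_iff _).2 hx0
  by_contra hcon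
  apply h3
  rw [← B.valuation_le_one_iff, map_inv₀]
  exact (inv_le_one₀ (zero_lt_iff.2 hv)).2 (not_lt.1 hcon)

/-- a curve has infinitely many places. -/
theorem r8_inf (h : Cv k) : (Plc k).Infinite := by
  obtain ⟨x, hx, -⟩ := h.ex
  have key : ∀ c : F, ∃ O : ValuationSubring F,
      c ∈ k → O ∈ Plc k ∧ O.valuation (x - c) < 1 := by
    intro c
    by_cases hc : c ∈ k
    · obtain ⟨O, hO, hOc⟩ := r8_zero h.ac (x := x - c)
        (fun h' => hx (by simpa using k.add_mem h' hc))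
      exact ⟨O, fun _ => ⟨hO, hOc⟩⟩
    · exact ⟨⊤, fun h' => absurd h' hc⟩
  choose φ hφ using key
  have hinj : Set.InjOn φ (k : Set F) := by
    intro c hc c' hc' hcc
    by_contra hne
    obtain ⟨h1, h2⟩ := hφ c hc
    obtain ⟨-, h3⟩ := hφ c' hc'
    rw [← hcc] at h3
    have h4 : (φ c).valuation (c' - c) = 1 :=
      h1.1.eq_one (k.sub_mem hc' hc) (sub_ne_zero.2 (Ne.symm hne))
    have h5 : (φ c).valuation ((x - c) - (x - c')) < 1 :=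
      lt_of_le_of_lt (Valuation.map_sub _ _ _) (max_lt h2 h3)
    rw [sub_sub_sub_cancel_left, h4] at h5
    exact lt_irrefl _ h5
  have h1 : (φ '' (k : Set F)).Infinite := (infinite_of_isAlgClosed h.ac).image hinj
  refine h1.mono ?_
  rintro _ ⟨c, hc, rfl⟩
  exact (hφ c hc).1

end r8

variable {F₁ F₂ : Type*} [Field F₁] [Field F₂] [PerfectField F₁] [PerfectField F₂] {ℓ : ℕ}
  [Fact ℓ.Prime] [NeZero (ℓ : F₁)] [NeZero (ℓ : F₂)] {k₁ : Subfield F₁} {k₂ : Subfield F₂}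
  {Θ' : V ℓ F₁ ≃ₗ[ZMod ℓ] V ℓ F₂}

/-- places of curves are determined by their unit classes. -/
theorem plc_inj {g : ℕ} (hcv : Cv k₂) (h₂ : CurveCard ℓ k₂ g) {Q Q' : ValuationSubring F₂}
    (hQ : Q ∈ Plc k₂) (hQ' : Q' ∈ Plc k₂) (h : ∀ v, v ∈ UC ℓ Q ↔ v ∈ UC ℓ Q') : Q = Q' := by
  classical
  by_contra hne
  obtain ⟨R, hR, hnot⟩ := (r8_inf hcv).exists_notMem_finite (Set.toFinite {Q, Q'})
  have hRQ : R ≠ Q := fun h' => hnot (by simp [h'])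
  have hRQ' : R ≠ Q' := fun h' => hnot (by simp [h'])
  have hℓ : 2 ≤ ℓ := (Fact.out : ℓ.Prime).two_le
  have e1 := h₂ {R, Q} (by
    intro O hO
    rcases Finset.mem_insert.1 hO with rfl | hO
    · exact hR
    · rw [Finset.mem_singleton.1 hO]
      exact hQ)
  have e2 := h₂ {R} (by
    intro O hO
    rw [Finset.mem_singleton.1 hO]
    exact hR)
  have heq : ∀ v : V ℓ F₂, (∀ O ∈ Plc k₂, O ∉ ({R, Q} : Finset (ValuationSubring F₂)) →
      v ∈ UC ℓ O) ↔ (∀ O ∈ Plc k₂, O ∉ ({R} : Finset (ValuationSubring F₂)) → v ∈ UC ℓ O) := by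
    intro v
    constructor
    · intro hv O hO hOR
      by_cases hOQ : O = Q
      · rw [hOQ, h]
        apply hv Q' hQ'
        rw [Finset.mem_insert, Finset.mem_singleton, not_or]
        exact ⟨fun h' => hRQ' h'.symm, fun h' => hne h'.symm⟩
      · apply hv O hO
        rw [Finset.mem_insert, Finset.mem_singleton, not_or]
        exact ⟨fun h' => hOR (Finset.mem_singleton.2 h'), hOQ⟩
    · intro hv O hO hOR
      apply hv O hO
      rw [Finset.mem_insert, Finset.mem_singleton, not_or] at hOR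
      rw [Finset.mem_singleton]
      exact hOR.1
  rw [Nat.card_congr (Equiv.subtypeEquivRight heq), e2, Finset.card_singleton,
    Finset.card_pair hRQ] at e1
  have h3 := Nat.pow_right_injective hℓ e1
  simp at h3

/-- the inequality between the numbers of classes with bounded ramification. -/
theorem r8_le {g₁ g₂ : ℕ} (h₁ : CurveCard ℓ k₁ g₁) (h₂ : CurveCard ℓ k₂ g₂)
    {p : ValuationSubring F₂ → ValuationSubring F₁}
    (hp : ∀ Q ∈ Plc k₂, p Q ∈ Plc k₁ ∧ ∀ v, Θ' v ∈ UC ℓ Q ↔ v ∈ UC ℓ (p Q))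
    (hinj : Set.InjOn p (Plc k₂)) (T : Finset (ValuationSubring F₂)) (hT : ∀ O ∈ T, O ∈ Plc k₂)
    (X : Finset (ValuationSubring F₁)) (hX : ∀ O ∈ X, O ∈ Plc k₁ ∧ ∀ Q ∈ Plc k₂, p Q ≠ O) :
    2 * g₁ + (T.card + X.card - 1) ≤ 2 * g₂ + (T.card - 1) := by
  classical
  have hcard : (T.image p ∪ X).card = T.card + X.card := by
    rw [Finset.card_union_of_disjoint, Finset.card_image_of_injOn (hinj.mono hT)]
    rw [Finset.disjoint_left]
    intro O hO hOX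
    obtain ⟨Q, hQ, rfl⟩ := Finset.mem_image.1 hO
    exact (hX _ hOX).2 Q (hT Q hQ) rfl
  have e1 := h₁ (T.image p ∪ X) (by
    intro O hO
    rcases Finset.mem_union.1 hO with hO | hO
    · obtain ⟨Q, hQ, rfl⟩ := Finset.mem_image.1 hO
      exact (hp Q (hT Q hQ)).1
    · exact (hX O hO).1)
  have e2 := h₂ T hT
  have hℓ : 2 ≤ ℓ := (Fact.out : ℓ.Prime).two_le
  have hfin : Finite {v : V ℓ F₂ // ∀ O ∈ Plc k₂, O ∉ T → v ∈ UC ℓ O} := by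
    apply Nat.finite_of_card_ne_zero
    rw [e2]
    exact pow_ne_zero _ (by omega)
  have hle : Nat.card {v : V ℓ F₁ // ∀ O ∈ Plc k₁, O ∉ T.image p ∪ X → v ∈ UC ℓ O} ≤
      Nat.card {v : V ℓ F₂ // ∀ O ∈ Plc k₂, O ∉ T → v ∈ UC ℓ O} := by
    refine Nat.card_le_card_of_injective (fun v => ⟨Θ' v.1, fun Q hQ hQT => ?_⟩) ?_
    · rw [(hp Q hQ).2]
      apply v.2 _ (hp Q hQ).1
      rw [Finset.mem_union, not_or]
      constructor
      · intro hc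
        obtain ⟨Q', hQ', hQQ⟩ := Finset.mem_image.1 hc
        exact hQT (hinj (hT Q' hQ') hQ hQQ ▸ hQ')
      · intro hc
        exact (hX _ hc).2 Q hQ rfl
    · intro v w hvw
      have h3 : Θ' v.1 = Θ' w.1 := congrArg Subtype.val hvw
      exact Subtype.ext (Θ'.injective h3)
  rw [e1, e2, hcard] at hle
  exact (Nat.pow_le_pow_iff_right hℓ).1 hle

/-- the reverse inequality if all places are known. -/
theorem r8_ge {g₁ g₂ : ℕ} (h₁ : CurveCard ℓ k₁ g₁) (h₂ : CurveCard ℓ k₂ g₂)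
    {p : ValuationSubring F₂ → ValuationSubring F₁}
    (hp : ∀ Q ∈ Plc k₂, p Q ∈ Plc k₁ ∧ ∀ v, Θ' v ∈ UC ℓ Q ↔ v ∈ UC ℓ (p Q))
    (hinj : Set.InjOn p (Plc k₂)) (T : Finset (ValuationSubring F₂)) (hT : ∀ O ∈ T, O ∈ Plc k₂)
    (X : Finset (ValuationSubring F₁)) (hX : ∀ O, O ∈ X ↔ O ∈ Plc k₁ ∧ ∀ Q ∈ Plc k₂, p Q ≠ O) :
    2 * g₂ + (T.card - 1) ≤ 2 * g₁ + (T.card + X.card - 1) := by
  classical
  have hcard : (T.image p ∪ X).card = T.card + X.card := by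
    rw [Finset.card_union_of_disjoint, Finset.card_image_of_injOn (hinj.mono hT)]
    rw [Finset.disjoint_left]
    intro O hO hOX
    obtain ⟨Q, hQ, rfl⟩ := Finset.mem_image.1 hO
    exact ((hX _).1 hOX).2 Q (hT Q hQ) rfl
  have e1 := h₁ (T.image p ∪ X) (by
    intro O hO
    rcases Finset.mem_union.1 hO with hO | hO
    · obtain ⟨Q, hQ, rfl⟩ := Finset.mem_image.1 hO
      exact (hp Q (hT Q hQ)).1
    · exact ((hX O).1 hO).1)
  have e2 := h₂ T hT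
  have hℓ : 2 ≤ ℓ := (Fact.out : ℓ.Prime).two_le
  have hfin : Finite {v : V ℓ F₁ // ∀ O ∈ Plc k₁, O ∉ T.image p ∪ X → v ∈ UC ℓ O} := by
    apply Nat.finite_of_card_ne_zero
    rw [e1]
    exact pow_ne_zero _ (by omega)
  have hle : Nat.card {v : V ℓ F₂ // ∀ O ∈ Plc k₂, O ∉ T → v ∈ UC ℓ O} ≤
      Nat.card {v : V ℓ F₁ // ∀ O ∈ Plc k₁, O ∉ T.image p ∪ X → v ∈ UC ℓ O} := by
    refine Nat.card_le_card_of_injective (fun v => ⟨Θ'.symm v.1, fun P hP hPT => ?_⟩) ?_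
    · rw [Finset.mem_union, not_or] at hPT
      have h3 : ¬ ∀ Q ∈ Plc k₂, p Q ≠ P := fun h4 => hPT.2 ((hX P).2 ⟨hP, h4⟩)
      push Not at h3
      obtain ⟨Q, hQ, rfl⟩ := h3
      rw [← (hp Q hQ).2, LinearEquiv.apply_symm_apply]
      exact v.2 Q hQ fun h4 => hPT.1 (Finset.mem_image_of_mem p h4)
    · intro v w hvw
      have h3 : Θ'.symm v.1 = Θ'.symm w.1 := congrArg Subtype.val hvw
      exact Subtype.ext (Θ'.symm.injective h3)
  rw [e1, e2, hcard] at hle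
  exact (Nat.pow_le_pow_iff_right hℓ).1 hle

/-- the choice of the places. -/
theorem r8_choose {g₂ : ℕ} (hcv₂ : Cv k₂) (h₂ : CurveCard ℓ k₂ g₂)
    (hQ : ∀ Q ∈ Plc k₂, ∃ P ∈ Plc k₁, ∀ v, Θ' v ∈ UC ℓ Q ↔ v ∈ UC ℓ P) :
    ∃ p : ValuationSubring F₂ → ValuationSubring F₁,
      (∀ Q ∈ Plc k₂, p Q ∈ Plc k₁ ∧ ∀ v, Θ' v ∈ UC ℓ Q ↔ v ∈ UC ℓ (p Q)) ∧
      Set.InjOn p (Plc k₂) := by
  have key : ∀ Q : ValuationSubring F₂, ∃ P : ValuationSubring F₁, Q ∈ Plc k₂ →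
      P ∈ Plc k₁ ∧ ∀ v, Θ' v ∈ UC ℓ Q ↔ v ∈ UC ℓ P := by
    intro Q
    by_cases h : Q ∈ Plc k₂
    · obtain ⟨P, hP, hv⟩ := hQ Q h
      exact ⟨P, fun _ => ⟨hP, hv⟩⟩
    · exact ⟨⊤, fun h' => absurd h' h⟩
  choose p hp using key
  refine ⟨p, hp, fun Q hQ' R hR h => plc_inj hcv₂ h₂ hQ' hR fun w => ?_⟩
  have h3 := (hp Q hQ').2 (Θ'.symm w)
  have h4 := (hp R hR).2 (Θ'.symm w)
  rw [LinearEquiv.apply_symm_apply] at h3 h4
  rw [h3, h4, h]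

/-- equality of the genera. -/
theorem cnt_eq {g₁ g₂ : ℕ} (hcv₁ : Cv k₁) (hcv₂ : Cv k₂) (h₁ : CurveCard ℓ k₁ g₁)
    (h₂ : CurveCard ℓ k₂ g₂)
    (hQ : ∀ Q ∈ Plc k₂, ∃ P ∈ Plc k₁, ∀ v, Θ' v ∈ UC ℓ Q ↔ v ∈ UC ℓ P) : g₁ = g₂ := by
  classical
  obtain ⟨p, hp, hinj⟩ := r8_choose hcv₂ h₂ hQ
  obtain ⟨Q₀, hQ₀⟩ := (r8_inf hcv₂).nonempty
  have hfin : {O : ValuationSubring F₁ | O ∈ Plc k₁ ∧ ∀ Q ∈ Plc k₂, p Q ≠ O}.Finite := by
    by_contra hcon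
    obtain ⟨X, hX, hXc⟩ := Set.Infinite.exists_subset_card_eq hcon (2 * g₂ + 2)
    have h3 := r8_le h₁ h₂ hp hinj ∅ (fun O hO => absurd hO (Finset.notMem_empty O)) X
      (fun O hO => hX hO)
    rw [hXc, Finset.card_empty] at h3
    omega
  have hX : ∀ O, O ∈ hfin.toFinset ↔ O ∈ Plc k₁ ∧ ∀ Q ∈ Plc k₂, p Q ≠ O := fun O =>
    hfin.mem_toFinset
  have hT₀ : ∀ O ∈ (∅ : Finset (ValuationSubring F₂)), O ∈ Plc k₂ := fun O hO =>
    absurd hO (Finset.notMem_empty O)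
  have hT₁ : ∀ O ∈ ({Q₀} : Finset (ValuationSubring F₂)), O ∈ Plc k₂ := fun O hO => by
    rw [Finset.mem_singleton.1 hO]
    exact hQ₀
  have a1 := r8_le h₁ h₂ hp hinj ∅ hT₀ hfin.toFinset fun O hO => (hX O).1 hO
  have a2 := r8_ge h₁ h₂ hp hinj ∅ hT₀ hfin.toFinset hX
  have b1 := r8_le h₁ h₂ hp hinj {Q₀} hT₁ hfin.toFinset fun O hO => (hX O).1 hO
  have b2 := r8_ge h₁ h₂ hp hinj {Q₀} hT₁ hfin.toFinset hX
  rw [Finset.card_empty] at a1 a2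
  rw [Finset.card_singleton] at b1 b2
  omega

/-- the degree bound. -/
theorem deg_abs {g₁ g₂ : ℕ} (hcv₁ : Cv k₁) (hcv₂ : Cv k₂)
    (h₁ : CurveCard ℓ k₁ g₁) (h₂ : CurveCard ℓ k₂ g₂) (hrh : CurveRH ℓ k₂ g₂)
    (hQ : ∀ Q ∈ Plc k₂, ∃ P ∈ Plc k₁, ∀ v, Θ' v ∈ UC ℓ Q ↔ v ∈ UC ℓ P)
    {x : F₂} (hx : x ∉ k₂) (s : Finset F₂) (hs : ∀ c ∈ s, c ∈ k₂) (hs5 : s.card = 5) {M : ℕ}
    (hy : ∀ c ∈ s, ∃ y : F₁, y ≠ 0 ∧ Θ' (cl ℓ y) = cl ℓ (x - c) ∧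
      (y ∉ k₁ → Module.finrank (adj k₁ y) F₁ ≤ M)) :
    Module.finrank (adj k₂ x) F₂ ≤ 4 * g₁ + 5 * (2 * M) := by
  obtain ⟨p, hp, hinj⟩ := r8_choose hcv₂ h₂ hQ
  rw [cnt_eq hcv₁ hcv₂ h₁ h₂ hQ]
  refine hrh.rh x hx (2 * M) s hs hs5 fun c hc => ?_
  obtain ⟨y, hy0, hyc, hyM⟩ := hy c hc
  refine le_trans ?_ (dbd_nonunit (ℓ := ℓ) hcv₁ hy0 hyM)
  refine Set.encard_le_encard_of_injOn (f := p) ?_ (hinj.mono fun O hO => hO.1)
  rintro O ⟨hO, -, hOc⟩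
  refine ⟨(hp O hO).1, fun hcP => hOc ?_⟩
  rw [← hyc, (hp O hO).2]
  exact hcP

end Vale.Agent.P019P
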