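import Vale.Agent.P019R.R7
import Vale.Agent.P019R.R8
import Vale.Agent.P019Q.CurveAny
import Vale.Agent.P019R.RsP

/-!
# The degree bound for a single valuation
-/

namespace Vale.Agent.P019P

open Vale.Agent.P019

set_option linter.style.haveILetI false
set_option linter.unusedSectionVars false
set_option linter.unusedVariables false

open Polynomial Filter

variable {K L : Type*} [Field K] [Field L] [PerfectField K] [PerfectField L] {ℓ : ℕ}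
  [Fact ℓ.Prime] [NeZero (ℓ : K)] [NeZero (ℓ : L)] {Θ : V ℓ K ≃ₗ[ZMod ℓ] V ℓ L}

/-- the residue field of the transferred valuation is a curve and the degree bound. -/
theorem deg_point {k : Subfield K} (hk : IsAlgClosed k)
    {l : Subfield L} (hl : IsAlgClosed l) (hfgl : FG l (⊤ : Subfield L)) (htd : Td l 2)
    (hΘ : Compatible Θ) {W : ValuationSubring K} {f : V ℓ K →ₗ[ZMod ℓ] ZMod ℓ}
    (hW : Adp W f) (hWℓ : W.valuation (ℓ : K) = 1) (hfin : Fin' (rbar k W))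
    (hcv : Cv (rbarP k W)) {O : ValuationSubring L} (hT : TrA Θ W f O)
    (hOℓ : O.valuation (ℓ : L) = 1) {g : L} (hOg : O.valuation g = 1)
    (hgO : rsP O g ∉ rbarP l O) {G M : ℕ}
    (hG : ∀ g : ℕ, CurveRH ℓ (rbarP k W) g → g ≤ G) (s₀ : Finset L)
    (hs₀ : ∀ c ∈ s₀, c ∈ l ∧ c ∈ O) (hinj : Set.InjOn (rsP O) (s₀ : Set L))
    (hs5 : s₀.card = 5) (hy : ∀ c ∈ s₀, ∃ y : K, W.valuation y = 1 ∧
      Θ (cl ℓ y) = cl ℓ (g - c) ∧ (rsP W y ∉ rbarP k W →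
        Module.finrank (adj (rbarP k W) (rsP W y)) (RFP W) ≤ M)) :
    Cv (rbarP l O) ∧
      Module.finrank (adj (rbarP l O) (rsP O g)) (RFP O) ≤ 4 * G + 5 * (2 * M) := by
  classical
  haveI := rfp_neZero hWℓ
  haveI := rfp_neZero hOℓ
  have hnegK : ∃ i : K, i ^ ℓ = -1 := exists_neg hk
  have hnegL : ∃ i : L, i ^ ℓ = -1 := exists_neg hl
  obtain ⟨x₁, hx₁, -⟩ := hcv.ex
  have hNCP : NoCtr ℓ (RFP W) := noCtr hcv.ac hcv.fg hx₁
  have hNC : NoCtr ℓ (IsLocalRing.ResidueField W) := noCtr_rfp hWℓ hNCP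
  have huc := hT.uc hΘ hnegK hnegL hW hNC
  have hgO' : rs O g ∉ rbar l O := fun h => hgO (rf_mem_rbarP.2 h)
  -- an element which is not a unit
  obtain ⟨ρ, hρ0, hρ⟩ : ∃ ρ : L, ρ ≠ 0 ∧ cl ℓ ρ ∉ UC ℓ O := by
    obtain ⟨v, hv⟩ : ∃ v, f v ≠ 0 := by
      by_contra hcon
      push Not at hcon
      exact hW.ne (LinearMap.ext hcon)
    obtain ⟨ρ, hρ0, hρ⟩ := cl_surj ℓ (Θ v)
    refine ⟨ρ, hρ0, fun h => hv ?_⟩
    have h1 := (huc _).1 h
    rwa [hρ, LinearEquiv.symm_apply_apply] at h1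
  have hcvO : Cv (rbarP l O) := abh_cv hl hfgl htd hρ0 (not_torsion hl hρ0 hρ) hgO'
  refine ⟨hcvO, ?_⟩
  obtain ⟨ΘP, hΘP, hres⟩ := TrA.resP hΘ hnegK hnegL hW hT hWℓ hOℓ hNCP
  obtain ⟨g₁, hrh1, hcc1⟩ := exists_curve_any (ℓ := ℓ) hcv
  obtain ⟨g₂, hrh2, hcc2⟩ := exists_curve_any (ℓ := ℓ) hcvO
  have hQ : ∀ Q ∈ Plc (rbarP l O), ∃ P ∈ Plc (rbarP k W), ∀ v, ΘP v ∈ UC ℓ Q ↔ v ∈ UC ℓ P :=
    fun Q hQ => place_back hk hl hfgl htd hΘ hW hWℓ hfin hcv hT hOℓ hcvO hres hQ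
  have key := deg_abs (Θ' := ΘP) hcv hcvO hcc1 hcc2 hrh2 hQ hgO (s₀.image (rsP O))
    (fun c hc => by
      obtain ⟨c', hc', rfl⟩ := Finset.mem_image.1 hc
      exact rsP_mem_rbarP (hs₀ c' hc').1 (hs₀ c' hc').2)
    (by rw [Finset.card_image_of_injOn hinj, hs5]) (M := M)
    (fun c hc => by
      obtain ⟨c', hc', rfl⟩ := Finset.mem_image.1 hc
      obtain ⟨z, hz, hzc, hzM⟩ := hy c' hc'
      have hc'O : c' ∈ O := (hs₀ c' hc').2
      have hgc : O.valuation (g - c') = 1 := by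
        rw [← rsP_ne_zero (sub_mem (mem_of_val hOg) hc'O), rsP_sub (mem_of_val hOg) hc'O,
          sub_ne_zero]
        intro h
        exact hgO (h ▸ rsP_mem_rbarP (hs₀ c' hc').1 hc'O)
      refine ⟨rsP W z, (rsP_ne_zero (mem_of_val hz)).2 hz, ?_, hzM⟩
      rw [hres z (g - c') hz hgc hzc, rsP_sub (mem_of_val hOg) hc'O])
  have hg₁ := hG g₁ hrh1
  omega

end Vale.Agent.P019P
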