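import Vale.Agent.P019R.R5a
import Vale.Agent.P019Q.E1

/-!
# Abhyankar valuations: the residue fields are function fields
-/

namespace Vale.Agent.P019P

open Vale.Agent.P019

set_option linter.style.haveILetI false
set_option linter.unusedSectionVars false
set_option linter.unusedVariables false

open Polynomial Filter

section map

variable {A Ω : Type*} [Field A] [Field Ω] (ι : A →+* Ω)

/-- elements whose images are algebraic are algebraic. -/
theorem r5b_alg_of_map {E : Subfield A} {x : A} (h : IsAlgebraic (E.map ι) (ι x)) :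
    IsAlgebraic E x := by
  obtain ⟨P, hP0, hP⟩ := h
  have hex : ∀ i, ∃ y : E, ι y = ((P.coeff i : E.map ι) : Ω) := by
    intro i
    obtain ⟨y, hy, hyi⟩ := (P.coeff i).2
    exact ⟨⟨y, hy⟩, hyi⟩
  choose y hy using hex
  let G : E[X] := ∑ i ∈ Finset.range (P.natDegree + 1), monomial i (y i)
  have hGc : ∀ j ∈ Finset.range (P.natDegree + 1), G.coeff j = y j := by
    intro j hj
    simp only [G, finsetSum_coeff, coeff_monomial]
    rw [Finset.sum_ite_eq' (Finset.range (P.natDegree + 1)) j (fun i => y i), if_pos hj]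
  refine ⟨G, ?_, ?_⟩
  · intro h0
    have h1 := hGc P.natDegree (Finset.self_mem_range_succ _)
    rw [h0, coeff_zero] at h1
    have h2 := hy P.natDegree
    rw [← h1] at h2
    have h3 : P.coeff P.natDegree = 0 := by
      apply Subtype.ext
      rw [← h2]
      exact map_zero ι
    exact hP0 (leadingCoeff_eq_zero.1 h3)
  · apply ι.injective
    have h1 : aeval x G = ∑ i ∈ Finset.range (P.natDegree + 1), algebraMap E A (y i) * x ^ i := by
      simp only [G, map_sum, aeval_monomial]
    have h2 : aeval (ι x) P = ∑ i ∈ Finset.range (P.natDegree + 1),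
        ((P.coeff i : E.map ι) : Ω) * ι x ^ i := by
      rw [aeval_eq_sum_range]
      refine Finset.sum_congr rfl fun i _ => ?_
      rw [Algebra.smul_def]
      rfl
    rw [map_zero, ← hP, h1, h2, map_sum]
    refine Finset.sum_congr rfl fun i _ => ?_
    rw [map_mul, map_pow, ← hy]
    rfl

theorem r5b_gs0_map [DecidableEq Ω] (k : Subfield A) (B : Finset A) :
    gs0 (k.map ι) (B.image ι) = (gs0 k B).map ι := by
  rw [gs0, gs0, Subfield.map_sup, RingHom.map_field_closure, Finset.coe_image]

/-- images of independent sets are independent. -/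
theorem r5b_indp_map [DecidableEq Ω] {k : Subfield A} {B : Finset A} (hB : Indp k B) :
    Indp (k.map ι) (B.image ι) := by
  classical
  rw [ab_indp_iff] at hB ⊢
  intro S hS v hv hvS h
  obtain ⟨v, hvB, rfl⟩ := Finset.mem_image.1 hv
  have hS' : S = (B.filter fun x => ι x ∈ S).image ι := by
    ext x
    rw [Finset.mem_image]
    constructor
    · intro hx
      obtain ⟨y, hy, rfl⟩ := Finset.mem_image.1 (hS hx)
      exact ⟨y, Finset.mem_filter.2 ⟨hy, hx⟩, rfl⟩
    · rintro ⟨y, hy, rfl⟩
      exact (Finset.mem_filter.1 hy).2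
  rw [hS', r5b_gs0_map] at h
  exact hB _ (Finset.filter_subset _ _) v hvB (fun h1 => hvS (Finset.mem_filter.1 h1).2)
    (r5b_alg_of_map ι h)

end map

variable {L : Type*} [Field L] [PerfectField L] {l : Subfield L}

/-- the residue field of an Abhyankar valuation of rational rank one over `l` is finitely
generated (up to perfect closures). -/
theorem abh_fg (hl : IsAlgClosed l) (hfg : FG l (⊤ : Subfield L)) {n : ℕ} (htd : Td l (n + 1))
    {O : ValuationSubring L} {ρ : L} (hρ0 : ρ ≠ 0)
    (hρ : ∀ a ∈ l, a ≠ 0 → ∀ i : ℤ, O.valuation (a * ρ ^ i) = 1 → i = 0)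
    {B : Finset (IsLocalRing.ResidueField O)} (hBc : B.card = n)
    (hB : Indp (rbar l O) B) :
    Td (rbarP l O) n ∧ FG (rbarP l O) (⊤ : Subfield (RFP O)) := by
  classical
  have hι : ∀ c : RFP O, ∃ (n : ℕ) (x : IsLocalRing.ResidueField O),
      rf O x = c ^ ringExpChar (RFP O) ^ n := by
    intro c
    obtain ⟨m, y, hy⟩ := rf_pow O c
    rw [ringExpChar_eq_of_hom (rf O)] at hy
    exact ⟨m, y, hy⟩
  obtain ⟨h1, h2⟩ := ab_main (rf O) hι hfg htd hρ0 hρ hB hBc
  refine ⟨⟨B.image (rf O), ?_, r5b_indp_map (rf O) hB, fun z => ?_⟩, h2⟩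
  · rw [Finset.card_image_of_injective _ (rf_injective O), hBc]
  · rw [gs0_alg]
    have h3 := h1 z
    rw [← r5b_gs0_map] at h3
    exact h3

/-- the case of surfaces. -/
theorem abh_cv (hl : IsAlgClosed l) (hfg : FG l (⊤ : Subfield L)) (htd : Td l 2)
    {O : ValuationSubring L} {ρ : L} (hρ0 : ρ ≠ 0)
    (hρ : ∀ a ∈ l, a ≠ 0 → ∀ i : ℤ, O.valuation (a * ρ ^ i) = 1 → i = 0)
    {y : IsLocalRing.ResidueField O} (hy : y ∉ rbar l O) : Cv (rbarP l O) := by
  classical
  have hB : Indp (rbar l O) {y} := by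
    rw [ab_indp_iff]
    intro S hS v hv hvS h
    rw [Finset.mem_singleton] at hv
    subst hv
    have h1 : S = ∅ := by
      rcases Finset.subset_singleton_iff.1 hS with h | h
      · exact h
      · rw [h] at hvS
        exact absurd (Finset.mem_singleton_self _) hvS
    rw [h1, gs0_empty] at h
    exact hy (RAC_of_isAlgClosed _ (rbar_ac hl O) v h)
  have hι : ∀ c : RFP O, ∃ (n : ℕ) (x : IsLocalRing.ResidueField O),
      rf O x = c ^ ringExpChar (RFP O) ^ n := by
    intro c
    obtain ⟨m, y, hy⟩ := rf_pow O c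
    rw [ringExpChar_eq_of_hom (rf O)] at hy
    exact ⟨m, y, hy⟩
  obtain ⟨h1, h2⟩ := ab_main (rf O) hι hfg (n := 1) htd hρ0 hρ hB (Finset.card_singleton y)
  refine ⟨rbarP_ac hl O, h2, rf O y, fun h => hy (rf_mem_rbarP.1 h), fun z => ?_⟩
  have h3 := h1 z
  rw [← r5b_gs0_map, Finset.image_singleton] at h3
  rw [isAlgebraic_adj]
  have h4 : gs0 ((rbar l O).map (rf O)) {rf O y} =
      Vale.Agent.P019.adj (rbarP l O) (rf O y) := by
    rw [← insert_empty_eq, gs0_insert, gs0_empty]
    rfl
  rwa [h4] at h3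

end Vale.Agent.P019P
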