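import Vale.Agent.P019R.R1
import Vale.Agent.P019R.R5b
import Vale.Agent.P019Q.E1

/-!
# The transcendence degree does not drop
-/

namespace Vale.Agent.P019P

open Vale.Agent.P019

set_option linter.style.haveILetI false
set_option linter.unusedSectionVars false
set_option linter.unusedVariables false

open Polynomial Filter

universe u v

/-- an element whose class corresponds to a uniformizer is not commensurable with the values of
the constants. -/
theorem r14_rho {K : Type u} {M : Type v} [Field K] [Field M] [PerfectField K]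
    {ℓ : ℕ} [Fact ℓ.Prime] [NeZero (ℓ : K)] {Θ : V ℓ K ≃ₗ[ZMod ℓ] V ℓ M}
    {l : Subfield M} (hl : IsAlgClosed l) (hΘ : Compatible Θ)
    (hnegK : ∃ i : K, i ^ ℓ = -1) (hnegL : ∃ i : M, i ^ ℓ = -1)
    {W : ValuationSubring K} {π : K} (hW : IsUnif W π) {O : ValuationSubring M}
    (hT : TrA Θ W (hW.fn ℓ) O) (hNC : NoCtr ℓ (IsLocalRing.ResidueField W)) :
    ∃ ρ : M, ρ ≠ 0 ∧
      ∀ a ∈ l, a ≠ 0 → ∀ i : ℤ, O.valuation (a * ρ ^ i) = 1 → i = 0 := by
  obtain ⟨ρ, hρ0, hρ⟩ := cl_surj ℓ (Θ (cl ℓ π))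
  refine ⟨ρ, hρ0, not_torsion hl (ℓ := ℓ) hρ0 fun h => ?_⟩
  have h1 := (TrA.uc hΘ hnegK hnegL (hW.adp hnegK) hT hNC (cl ℓ ρ)).1 h
  rw [hρ, LinearEquiv.symm_apply_apply, hW.fn_self ℓ] at h1
  exact one_ne_zero h1

/-- the transcendence degree does not drop under compatible isomorphisms. -/
theorem dim_ge' {ℓ : ℕ} [Fact ℓ.Prime] (n : ℕ) : ∀ {K : Type u} {M : Type v} [Field K] [Field M]
    [PerfectField K] [NeZero (ℓ : K)] {k : Subfield K}
    (_ : IsAlgClosed k) (_ : FG k (⊤ : Subfield K)) {l : Subfield M} (_ : IsAlgClosed l)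
    {Θ : V ℓ K ≃ₗ[ZMod ℓ] V ℓ M} (_ : Compatible Θ) (_ : Td k n),
    ∃ B : Finset M, B.card = n ∧ Indp l B := by
  induction n with
  | zero =>
    intro K M _ _ _ _ k hk hfg l hl Θ hΘ hTd
    exact ⟨∅, Finset.card_empty, fun S _ v hv => absurd hv (Finset.notMem_empty v)⟩
  | succ n ih =>
    intro K M _ _ _ _ k hk hfg l hl Θ hΘ hTd
    classical
    haveI := hk
    haveI := hl
    obtain ⟨t, ht⟩ : ∃ t : K, t ∉ k := by
      obtain ⟨B, hBc, hB, -⟩ := id hTd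
      obtain ⟨t, ht⟩ : B.Nonempty := by
        rw [← Finset.card_pos, hBc]
        exact Nat.succ_pos n
      exact ⟨t, e1_notMem hB ht⟩
    rcases Nat.eq_zero_or_pos n with hn | hn
    · obtain ⟨y, hy⟩ := e1_exists hk hfg hl Θ ht
      exact ⟨{y}, by rw [Finset.card_singleton, hn], e1_indp_single hl hy⟩
    · obtain ⟨B, hBc, hB, htB, halg, -⟩ := hTd.exists_basis hk hfg ht
      have hBne : B.Nonempty := by
        rw [← Finset.card_pos, hBc]
        exact hn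
      obtain ⟨θ, hθ⟩ := exists_over_nice hk hfg hB htB halg
      haveI := ae_neBot_of_isAlgClosed hk
      obtain ⟨b, ⟨W, hWo⟩, hNb⟩ := hθ.exists
      have hN := hNb W hWo
      have hWk : TrivOn W k := hN.triv.mono (le_gsp k B)
      obtain ⟨y, hy⟩ := id hBne
      haveI := gsp_perfect k B
      have hnegK : ∃ i : K, i ^ ℓ = -1 := e1_neg_one hk (Fact.out : ℓ.Prime).pos
      have hnegL : ∃ i : M, i ^ ℓ = -1 := e1_neg_one hl (Fact.out : ℓ.Prime).pos
      have hyk : y ∉ k := e1_notMem hB hy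
      have hyW : TrivOn W (adj k y) := hN.triv.mono (adj_le (le_gsp k B) (mem_gsp hy))
      have hfin := hN.finite (ℓ := ℓ) hk (le_gsp k B) (gsp_fg k B) (le_adj k y) hyW
      obtain ⟨g₀, -, hg₀⟩ := exists_nr' hk hfg hyk hfin
      obtain ⟨O, hT⟩ := exists_trA hΘ hnegK hnegL (hN.unif.adp (ℓ := ℓ) hnegK) hg₀
      have hNC := e1_noCtr (ℓ := ℓ) hk hB hBne hN hWk
      obtain ⟨Θ', hΘ', -⟩ := TrA.res hΘ hnegK hnegL (hN.unif.adp (ℓ := ℓ) hnegK) hT hNC
      haveI := rs_perfect hWk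
      haveI := rs_neZero (ℓ := ℓ) hWk
      have htd := Nice.td hB hN hWk
      rw [hBc] at htd
      obtain ⟨B1, hB1c, hB1⟩ := ih (bar_isAlgClosed hWk hk) htd.2 (rbar_ac hl O) hΘ' htd.1
      obtain ⟨ρ, hρ0, hρ⟩ := r14_rho hl hΘ hnegK hnegL hN.unif hT hNC
      obtain ⟨B', hB'c, hB'⟩ := abh_lift hl hρ0 hρ hB1
      exact ⟨B', by rw [hB'c, hB1c], hB'⟩

/-- the residue fields of transferred valuations. -/
theorem res_td' {K : Type u} {L : Type v} [Field K] [Field L] [PerfectField K] [PerfectField L]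
    {ℓ : ℕ} [Fact ℓ.Prime] [NeZero (ℓ : K)] [NeZero (ℓ : L)] {Θ : V ℓ K ≃ₗ[ZMod ℓ] V ℓ L}
    {k : Subfield K} (hk : IsAlgClosed k) (hfgk : FG k (⊤ : Subfield K)) {l : Subfield L}
    (hl : IsAlgClosed l) (hfgl : FG l (⊤ : Subfield L)) (hΘ : Compatible Θ)
    {B : Finset K} (hB : Indp k B) (hBne : B.Nonempty) (hL : Td l (B.card + 1))
    {W : ValuationSubring K} {π θ : K} (hW : Nice W (gsp k B) π θ)
    {O : ValuationSubring L} (hT : Tr Θ W π O) :
    Td (rbarP l O) B.card ∧ FG (rbarP l O) (⊤ : Subfield (RFP O)) := by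
  classical
  haveI := hk
  haveI := hl
  have hWk : TrivOn W k := hW.triv.mono (le_gsp k B)
  have hnegK : ∃ i : K, i ^ ℓ = -1 := e1_neg_one hk (Fact.out : ℓ.Prime).pos
  have hnegL : ∃ i : L, i ^ ℓ = -1 := e1_neg_one hl (Fact.out : ℓ.Prime).pos
  have hTA : TrA Θ W (hW.unif.fn ℓ) O := ⟨hT.unit hW.unif, hT.iff⟩
  have hNC := e1_noCtr (ℓ := ℓ) hk hB hBne hW hWk
  obtain ⟨Θ', hΘ', -⟩ := TrA.res hΘ hnegK hnegL (hW.unif.adp (ℓ := ℓ) hnegK) hTA hNC
  haveI := rs_perfect hWk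
  haveI := rs_neZero (ℓ := ℓ) hWk
  have htd := Nice.td hB hW hWk
  obtain ⟨B1, hB1c, hB1⟩ := dim_ge' B.card (bar_isAlgClosed hWk hk) htd.2 (rbar_ac hl O) hΘ' htd.1
  obtain ⟨ρ, hρ0, hρ⟩ := r14_rho hl hΘ hnegK hnegL hW.unif hTA hNC
  exact abh_fg hl hfgl hL hρ0 hρ hB1c hB1

end Vale.Agent.P019P
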