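import Vale.Agent.P019R.R12a
import Vale.Agent.P019R.RsP
import Vale.Agent.P019Q.E5

/-!
# Step A by induction, transferred valuations possibly nontrivial on the constants
-/

namespace Vale.Agent.P019P

open Vale.Agent.P019

set_option linter.style.haveILetI false
set_option linter.unusedSectionVars false
set_option linter.unusedVariables false

open Polynomial Filter

/-- the residue fields of `W` and `O` correspond: `Θ` induces a multiple of an isomorphism. -/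
def ResIsoG (ℓ : ℕ) {K L : Type*} [Field K] [Field L] (Θ : V ℓ K ≃ₗ[ZMod ℓ] V ℓ L)
    (k : Subfield K) (l : Subfield L) (W : ValuationSubring K) (O : ValuationSubring L) : Prop :=
  ∃ (e : (ZMod ℓ)ˣ) (α : IsLocalRing.ResidueField W ≃+* RFP O),
    (∀ x, x ∈ rbar k W ↔ α x ∈ rbarP l O) ∧
    ∀ (z : K) (y : L), W.valuation z = 1 → O.valuation y = 1 → Θ (cl ℓ z) = cl ℓ y →
      cl ℓ (rsP O y) = (e : ZMod ℓ) • cl ℓ (α (rs W z))

section e5five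

variable {K L : Type*} [Field K] [Field L] [PerfectField K] [PerfectField L] {ℓ : ℕ}
  [Fact ℓ.Prime] [NeZero (ℓ : K)] [NeZero (ℓ : L)]

/-- bounds of the transferred functions in all directions. -/
theorem exists_fiveG {k : Subfield K} (hk : IsAlgClosed k) (hfgk : FG k (⊤ : Subfield K))
    {l : Subfield L} (hl : IsAlgClosed l) {B : Finset K} (hB : Indp k B) {t : K}
    (ht : ¬ IsAlgebraic (gsp k B) t) (halg : ∀ z : K, IsAlgebraic (adj (gsp k B) t) z)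
    {Ω : Type*} [Field Ω] [IsAlgClosed Ω] [Algebra K Ω] [DecidableEq K] [DecidableEq Ω]
    (Θ : V ℓ K ≃ₗ[ZMod ℓ] V ℓ L) (g : L) (S0 : Finset L) (hS0l : ∀ c ∈ S0, c ∈ l)
    (hS0c : S0.card = 5) : ∃ m : ℕ, ∀ᶠ b in ae k, ∀ W : ValuationSubring K,
      Over W (gsp k B) t b → ∀ O : ValuationSubring L, O.valuation g ≤ 1 →
      (∀ c ∈ S0, c ∈ O) → Set.InjOn (rsP O) (S0 : Set L) →
      ∀ (ι : IsLocalRing.ResidueField W →+* Ω),
      (∀ z ∈ gsp k B, ι (rs W z) = algebraMap K Ω z) →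
      ∀ (hW : TrivOn W k)
        (α : IsLocalRing.ResidueField W ≃+* RFP O) (e : (ZMod ℓ)ˣ),
        (∀ x, x ∈ bar hW ↔ α x ∈ rbarP l O) →
        (∀ (z : K) (y : L), W.valuation z = 1 → O.valuation y = 1 → Θ (cl ℓ z) = cl ℓ y →
          cl ℓ (rsP O y) = (e : ZMod ℓ) • cl ℓ (α (rs W z))) →
        ∀ v ∈ B, Five' ℓ (rcl (k.map (algebraMap K Ω)) ((B.erase v).image (algebraMap K Ω)))
          ι.fieldRange m (algebraMap K Ω v) (ι (α.symm (rsP O g))) := by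
  classical
  have hy : ∀ c : L, ∃ y : K, y ≠ 0 ∧ Θ (cl ℓ y) = cl ℓ (g - c) := by
    intro c
    obtain ⟨y, hy0, hy⟩ := cl_surj ℓ (Θ.symm (cl ℓ (g - c)))
    exact ⟨y, hy0, by rw [hy, LinearEquiv.apply_symm_apply]⟩
  choose y hy0 hyΘ using hy
  have hrel : ∀ c : L, _ := fun c => e5a_rel (Ω := Ω) halg (y c)
  choose m hm using hrel
  refine ⟨S0.sup m, ?_⟩
  have hE1 : ∀ᶠ b in ae k, ∀ c ∈ S0, ∀ W : ValuationSubring K, Over W (gsp k B) t b → y c ∈ W →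
      ∀ ι : IsLocalRing.ResidueField W →+* Ω,
      (∀ z ∈ gsp k B, ι (rs W z) = algebraMap K Ω z) → ∀ v ∈ B,
      BRel (rcl (k.map (algebraMap K Ω)) ((B.erase v).image (algebraMap K Ω))) (m c)
        (algebraMap K Ω v) (ι (rs W (y c))) := by
    rw [Filter.eventually_all_finset]
    exact fun c _ => hm c
  have hE2 : ∀ᶠ b in ae k, ∀ c ∈ S0, ∀ W : ValuationSubring K, Over W (gsp k B) t b →
      W.valuation (y c) = 1 := by
    rw [Filter.eventually_all_finset]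
    exact fun c _ => ae_mono (le_gsp k B) (unit_over (hy0 c) (halg (y c)))
  filter_upwards [hE1, hE2] with b h1 h2 W hOv O hg hS0O hinj ι hι hW α e hbar htr v hv
  have hgO : g ∈ O := (O.valuation_le_one_iff g).1 hg
  refine ⟨S0.image (fun c => ι (α.symm (rsP O c))), ?_, ?_⟩
  · rw [Finset.card_image_of_injOn, hS0c]
    intro c hc c' hc' hcc
    exact hinj hc hc' (α.symm.injective (ι.injective hcc))
  · intro c' hc'
    obtain ⟨c, hc, rfl⟩ := Finset.mem_image.1 hc'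
    have hcl := hS0l c hc
    have hcO : c ∈ O := hS0O c hc
    have hyv := h2 c hc W hOv
    refine ⟨?_, ⟨_, rfl⟩, ι (rs W (y c)), ⟨_, rfl⟩, ?_, ?_, ?_⟩
    · have hb1 : α.symm (rsP O c) ∈ bar hW := by
        rw [hbar, RingEquiv.apply_symm_apply]
        exact rsP_mem_rbarP hcl hcO
      obtain ⟨a, ha, hae⟩ := (mem_bar hW).1 hb1
      rw [← hae, hι a (le_gsp k B ha)]
      exact le_rcl _ _ ⟨a, ha, rfl⟩
    · exact (map_ne_zero ι).2 ((rs_ne_zero (mem_of_val hyv)).2 hyv)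
    · exact e5a_brel_mono (Finset.le_sup hc) (h1 c hc W hOv (mem_of_val hyv) ι hι v hv)
    · have hZ : ι (α.symm (rsP O g)) - ι (α.symm (rsP O c)) = ι (α.symm (rsP O (g - c))) := by
        rw [rsP_sub hgO hcO, map_sub, map_sub]
      have hgc : g - c ∈ O := sub_mem hgO hcO
      rw [hZ]
      by_cases hv1 : O.valuation (g - c) = 1
      · have h3 := htr (y c) (g - c) hyv hv1 (hyΘ c)
        have hx0 : rsP O (g - c) ≠ 0 := (rsP_ne_zero hgc).2 hv1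
        have hx1 : α (rs W (y c)) ≠ 0 := by
          rw [Ne, EmbeddingLike.map_eq_zero_iff]
          exact (rs_ne_zero (mem_of_val hyv)).2 hyv
        have h4 : (e : ZMod ℓ) • cl ℓ (α (rs W (y c))) =
            cl ℓ (α (rs W (y c)) ^ (e : ZMod ℓ).val) := by
          rw [cl_pow, ← Nat.cast_smul_eq_nsmul (ZMod ℓ), ZMod.natCast_zmod_val]
        rw [h4, cl_eq_iff ℓ hx0 (pow_ne_zero _ hx1)] at h3
        obtain ⟨w, -, hw⟩ := h3
        refine ⟨(e : ZMod ℓ).val, ι (α.symm w), ⟨_, rfl⟩, ?_⟩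
        rw [hw, map_mul, map_mul, map_pow, map_pow, map_pow, map_pow, RingEquiv.symm_apply_apply]
      · refine ⟨0, 0, Subfield.zero_mem _, ?_⟩
        have h5 : rsP O (g - c) = 0 := by
          by_contra hne
          exact hv1 ((rsP_ne_zero hgc).1 hne)
        rw [h5, map_zero, map_zero, zero_pow (Fact.out : ℓ.Prime).ne_zero, mul_zero]

end e5five

section e5pt

/-- the data at one point. -/
structure E5G (ℓ : ℕ) {K L : Type*} [Field K] [Field L] (k : Subfield K) (l : Subfield L)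
    (F : Subfield K) (Θ : V ℓ K ≃ₗ[ZMod ℓ] V ℓ L) (W : ValuationSubring K)
    (O : ValuationSubring L) (Ω : Type*) [Field Ω] [Algebra K Ω] where
  hF : TrivOn W F
  hW : TrivOn W k
  e : (ZMod ℓ)ˣ
  α : IsLocalRing.ResidueField W ≃+* RFP O
  hα : ∀ x, x ∈ bar hW ↔ α x ∈ rbarP l O
  hcl : ∀ (z : K) (y : L), W.valuation z = 1 → O.valuation y = 1 → Θ (cl ℓ z) = cl ℓ y →
    cl ℓ (rsP O y) = (e : ZMod ℓ) • cl ℓ (α (rs W z))
  ι : IsLocalRing.ResidueField W →+* Ω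
  hι : ∀ z ∈ F, ι (rs W z) = algebraMap K Ω z

variable {K L : Type*} [Field K] [Field L] {ℓ : ℕ} {Θ : V ℓ K ≃ₗ[ZMod ℓ] V ℓ L}
  {k F : Subfield K} {l : Subfield L} {W : ValuationSubring K} {O : ValuationSubring L}
  {Ω : Type*} [Field Ω] [Algebra K Ω]

theorem e5g_exists [IsAlgClosed Ω] (hkF : k ≤ F) {π θ : K} (hN : Nice W F π θ)
    (h : ResIsoG ℓ Θ k l W O) : Nonempty (E5G ℓ k l F Θ W O Ω) := by
  obtain ⟨e, α, hα, hcl⟩ := h
  obtain ⟨ι, hι⟩ := exists_emb hN.triv hN.alg_bar (Ω := Ω)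
  have hW : TrivOn W k := hN.triv.mono hkF
  refine ⟨⟨hN.triv, hW, e, α, fun x => ?_, hcl, ι, hι⟩⟩
  rw [← rbar_eq_bar hW]
  exact hα x

/-- the embedding of the residue field. -/
noncomputable def E5G.ρ (P : E5G ℓ k l F Θ W O Ω) : RFP O →+* Ω :=
  P.ι.comp (P.α.symm : RFP O →+* IsLocalRing.ResidueField W)

theorem E5G.ρ_apply (P : E5G ℓ k l F Θ W O Ω) (c : RFP O) :
    P.ρ c = P.ι (P.α.symm c) := rfl

theorem E5G.ρ_mem (P : E5G ℓ k l F Θ W O Ω) (c : RFP O) :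
    P.ρ c ∈ P.ι.fieldRange := ⟨_, rfl⟩

theorem E5G.map_le (P : E5G ℓ k l F Θ W O Ω) : F.map (algebraMap K Ω) ≤ P.ι.fieldRange := by
  rintro _ ⟨x, hx, rfl⟩
  exact ⟨rs W x, P.hι x hx⟩

theorem e5g_rsP_mem {c : L} (hc : c ∈ l) : rsP O c ∈ rbarP l O := by
  by_cases hcO : c ∈ O
  · exact rsP_mem_rbarP hc hcO
  · have h1 : rsP O c = 0 := by
      rw [rsP, rs, dif_neg hcO, map_zero]
    rw [h1]
    exact (rbarP l O).zero_mem

theorem E5G.ρ_l (P : E5G ℓ k l F Θ W O Ω) (hkF : k ≤ F) {c : L} (hc : c ∈ l) :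
    P.ρ (rsP O c) ∈ k.map (algebraMap K Ω) := by
  have h1 : P.α.symm (rsP O c) ∈ bar P.hW := by
    rw [P.hα, RingEquiv.apply_symm_apply]
    exact e5g_rsP_mem hc
  obtain ⟨z, hz, hz'⟩ := (mem_bar P.hW).1 h1
  refine ⟨z, hz, ?_⟩
  rw [P.ρ_apply, ← hz']
  exact (P.hι z (hkF hz)).symm

theorem E5G.of_ρ (P : E5G ℓ k l F Θ W O Ω) (hkF : k ≤ F) {c : RFP O}
    (h : P.ρ c ∈ k.map (algebraMap K Ω)) : c ∈ rbarP l O := by
  obtain ⟨z, hz, hz'⟩ := h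
  have h1 : P.α.symm c = rs W z := by
    apply P.ι.injective
    rw [P.hι z (hkF hz)]
    exact hz'.symm
  have h2 : P.α.symm c ∈ bar P.hW := by
    rw [h1]
    exact rs_mem_bar P.hW hz
  rw [P.hα, RingEquiv.apply_symm_apply] at h2
  exact h2

/-- transport of monic polynomials. -/
theorem E5G.deg (P : E5G ℓ k l F Θ W O Ω) {G : Subfield Ω} (hG : G = F.map (algebraMap K Ω))
    {d : ℕ} (h : ∀ c : IsLocalRing.ResidueField W,
      ∃ p : (bar P.hF)[X], p.Monic ∧ p.natDegree ≤ d ∧ aeval c p = 0) {c : Ω}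
    (hc : c ∈ P.ι.fieldRange) : ∃ p : G[X], p.Monic ∧ p.natDegree ≤ d ∧ aeval c p = 0 := by
  subst hG
  obtain ⟨c, rfl⟩ := hc
  obtain ⟨p, hp, hpd, hpc⟩ := h c
  have hmem : ∀ x : bar P.hF, (P.ι.comp (bar P.hF).subtype) x ∈ F.map (algebraMap K Ω) := by
    rintro ⟨x, hx⟩
    obtain ⟨z, hz, rfl⟩ := (mem_bar P.hF).1 hx
    exact ⟨z, hz, (P.hι z hz).symm⟩
  let φ : bar P.hF →+* (F.map (algebraMap K Ω) : Subfield Ω) :=
    (P.ι.comp (bar P.hF).subtype).codRestrict _ hmem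
  refine ⟨p.map φ, hp.map φ, natDegree_map_le.trans hpd, ?_⟩
  rw [aeval_def, eval₂_map]
  have h1 : (algebraMap (F.map (algebraMap K Ω) : Subfield Ω) Ω).comp φ =
      P.ι.comp (algebraMap (bar P.hF) (IsLocalRing.ResidueField W)) := rfl
  rw [h1, ← hom_eval₂, ← aeval_def, hpc, map_zero]

theorem E5G.root (P : E5G ℓ k l F Θ W O Ω) [Fact ℓ.Prime] {z : L} (hz : O.valuation z = 1)
    (h : cl ℓ z ∈ U1 ℓ O) : ∃ w ∈ P.ι.fieldRange, w ^ ℓ = P.ρ (rsP O z) := by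
  have h2 : rs O z ≠ 0 := (rs_ne_zero (mem_of_val hz)).2 hz
  rw [cl_mem_U1_iff hz, cl_eq_zero_iff ℓ h2] at h
  obtain ⟨c, -, hc⟩ := h
  exact ⟨P.ρ (rf O c), P.ρ_mem _, by rw [← map_pow, ← map_pow, hc, rsP]⟩

theorem E5G.cl_eq (P : E5G ℓ k l F Θ W O Ω) [Fact ℓ.Prime] {x : K} (hx : x ∈ F) (hx0 : x ≠ 0)
    {z : L} (hz : O.valuation z = 1) (h : Θ (cl ℓ x) = cl ℓ z) {n : ℕ}
    (hn : (n : ZMod ℓ) * (P.e : ZMod ℓ) = 1) :
    ∃ w ∈ P.ι.fieldRange, w ≠ 0 ∧ algebraMap K Ω x = P.ρ (rsP O z) ^ n * w ^ ℓ := by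
  have h1 := P.hcl x z (P.hF.eq_one hx hx0) hz h
  have h2 : rsP O z ≠ 0 := (rsP_ne_zero (mem_of_val hz)).2 hz
  have h3 : rs W x ≠ 0 := (rs_ne_zero (P.hF _ hx)).2 (P.hF.eq_one hx hx0)
  have h4 : cl ℓ (P.α (rs W x)) = cl ℓ (rsP O z ^ n) := by
    rw [cl_pow, h1, ← Nat.cast_smul_eq_nsmul (ZMod ℓ), smul_smul, hn, one_smul]
  obtain ⟨w, hw0, hw⟩ := (cl_eq_iff ℓ ((map_ne_zero P.α).2 h3) (pow_ne_zero n h2)).1 h4
  refine ⟨P.ρ w, P.ρ_mem w, (map_ne_zero P.ρ).2 hw0, ?_⟩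
  rw [← map_pow, ← map_pow, ← map_mul, ← hw, P.ρ_apply, RingEquiv.symm_apply_apply, P.hι x hx]

end e5pt

section e5fam

variable {K L : Type*} [Field K] [Field L] {ℓ : ℕ} [Fact ℓ.Prime]
  {Θ : V ℓ K ≃ₗ[ZMod ℓ] V ℓ L} {k F : Subfield K} {l : Subfield L} {Ω : Type*} [Field Ω]
  [Algebra K Ω] {I : Type*} {U : Ultrafilter I} {W : I → ValuationSubring K}
  {O : I → ValuationSubring L}

theorem e5g_die (P : ∀ i, E5G ℓ k l F Θ (W i) (O i) Ω) {z : L}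
    (hz : ∀ᶠ i in U, (O i).valuation z = 1) (h : ∀ᶠ i in U, cl ℓ z ∈ U1 ℓ (O i)) :
    ∃ h ∈ uSub U (fun i => (P i).ι.fieldRange),
      h ^ ℓ = gm U (fun i => (P i).ρ (rsP (O i) z)) := by
  have h1 : ∀ i, ∃ w ∈ (P i).ι.fieldRange, ((O i).valuation z = 1 → cl ℓ z ∈ U1 ℓ (O i) →
      w ^ ℓ = (P i).ρ (rsP (O i) z)) := by
    intro i
    by_cases h : (O i).valuation z = 1 ∧ cl ℓ z ∈ U1 ℓ (O i)
    · obtain ⟨w, hw, hw'⟩ := (P i).root h.1 h.2
      exact ⟨w, hw, fun _ _ => hw'⟩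
    · exact ⟨0, Subfield.zero_mem _, fun h1 h2 => absurd ⟨h1, h2⟩ h⟩
  choose w hw hw' using h1
  refine ⟨gm U w, ⟨w, rfl, hw⟩, ?_⟩
  rw [← gm_pow, gm_eq]
  filter_upwards [hz, h] with i h1 h2
  exact hw' i h1 h2

theorem e5g_ram (P : ∀ i, E5G ℓ k l F Θ (W i) (O i) Ω) {x : K} (hx : x ∈ F) (hx0 : x ≠ 0)
    {z : L} (hzx : Θ (cl ℓ x) = cl ℓ z) (hz : ∀ᶠ i in U, (O i).valuation z = 1) :
    ∃ e : ℕ, ∃ h ∈ uSub U (fun i => (P i).ι.fieldRange), h ≠ 0 ∧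
      gm U (fun _ => algebraMap K Ω x) = gm U (fun i => (P i).ρ (rsP (O i) z)) ^ e * h ^ ℓ := by
  obtain ⟨e0, he0⟩ := e5_const U (fun i => (P i).e)
  have hn : (((((e0⁻¹ : (ZMod ℓ)ˣ) : ZMod ℓ).val : ℕ) : ZMod ℓ)) * (e0 : ZMod ℓ) = 1 := by
    rw [ZMod.natCast_zmod_val, ← Units.val_mul, inv_mul_cancel, Units.val_one]
  set n : ℕ := ((e0⁻¹ : (ZMod ℓ)ˣ) : ZMod ℓ).val
  have h1 : ∀ i, ∃ w ∈ (P i).ι.fieldRange, w ≠ 0 ∧ ((O i).valuation z = 1 → (P i).e = e0 →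
      algebraMap K Ω x = (P i).ρ (rsP (O i) z) ^ n * w ^ ℓ) := by
    intro i
    by_cases h : (O i).valuation z = 1 ∧ (P i).e = e0
    · obtain ⟨w, hw, hw0, hw'⟩ := (P i).cl_eq hx hx0 h.1 hzx (n := n) (by rw [h.2]; exact hn)
      exact ⟨w, hw, hw0, fun _ _ => hw'⟩
    · exact ⟨1, Subfield.one_mem _, one_ne_zero, fun h1 h2 => absurd ⟨h1, h2⟩ h⟩
  choose w hw hw0 hw' using h1
  refine ⟨n, gm U w, ⟨w, rfl, hw⟩, ?_, ?_⟩
  · rw [Ne, gm_eq_zero, ← Ultrafilter.eventually_not]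
    exact Eventually.of_forall hw0
  · rw [← gm_pow, ← gm_pow, ← gm_mul, gm_eq]
    filter_upwards [hz, he0] with i h1 h2
    exact hw' i h1 h2

end e5fam

section e5main

variable {K L : Type*} [Field K] [Field L] [PerfectField K] [PerfectField L] {ℓ : ℕ}
  [Fact ℓ.Prime] [NeZero (ℓ : K)] [NeZero (ℓ : L)] {Θ : V ℓ K ≃ₗ[ZMod ℓ] V ℓ L}
  {k : Subfield K} {l : Subfield L} {B : Finset K} {t : K}

variable {Ω : Type*} [Field Ω] [IsAlgClosed Ω] [Algebra K Ω]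

/-- the five points condition for almost all members of the family. -/
theorem e5g_five [DecidableEq K] [DecidableEq Ω] (hk : IsAlgClosed k)
    (hfgk : FG k (⊤ : Subfield K)) (hl : IsAlgClosed l) (hB : Indp k B)
    (ht : ¬ IsAlgebraic (gsp k B) t) (halg : ∀ z : K, IsAlgebraic (adj (gsp k B) t) z)
    (D : Dat k (gsp k B) t Θ) (hu : Ulu D.U D.O)
    (P : ∀ i, E5G ℓ k l (gsp k B) Θ (D.W i) (D.O i) Ω) (x : L) :
    ∃ m : ℕ, ∀ᶠ i in D.U, ∀ v ∈ B, Five' ℓ (rcl (k.map (algebraMap K Ω))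
      ((B.erase v).image (algebraMap K Ω))) (P i).ι.fieldRange m (algebraMap K Ω v)
      ((P i).ρ (rsP (D.O i) x)) := by
  haveI : Infinite l := inferInstance
  obtain ⟨S0', hS0'⟩ := Infinite.exists_subset_card_eq l 5
  obtain ⟨S0, hS0l, hS0c⟩ : ∃ S0 : Finset L, (∀ c ∈ S0, c ∈ l) ∧ S0.card = 5 := by
    refine ⟨S0'.map ⟨Subtype.val, Subtype.val_injective⟩, fun c hc => ?_, ?_⟩
    · rw [Finset.mem_map] at hc
      obtain ⟨c', -, rfl⟩ := hc
      exact c'.2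
    · rw [Finset.card_map, hS0']
  obtain ⟨m, hm⟩ := exists_fiveG hk hfgk hl hB ht halg (Ω := Ω) Θ x S0 hS0l hS0c
  refine ⟨m, ?_⟩
  have hx : ∀ᶠ i in D.U, (D.O i).valuation x ≤ 1 := by
    by_cases hx : x = 0
    · refine Eventually.of_forall fun i => ?_
      rw [hx, map_zero]
      exact zero_le_one
    · exact (hu x hx).mono fun i hi => hi.le
  have hSO : ∀ᶠ i in D.U, ∀ c ∈ S0, c ∈ D.O i := by
    rw [Filter.eventually_all_finset]
    exact fun c _ => hu.ev_mem c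
  have hSd : ∀ᶠ i in D.U, ∀ c ∈ S0, ∀ c' ∈ S0, c ≠ c' → (D.O i).valuation (c - c') = 1 := by
    rw [Filter.eventually_all_finset]
    intro c _
    rw [Filter.eventually_all_finset]
    intro c' _
    by_cases h : c = c'
    · exact Eventually.of_forall fun i hi => absurd h hi
    · exact (hu _ (sub_ne_zero.2 h)).mono fun i hi _ => hi
  filter_upwards [D.ev hm, hx, hSO, hSd] with i h1 h2 h3 h4
  refine h1 (D.W i) (D.ov i) (D.O i) h2 h3 (fun c hc c' hc' hcc => ?_) (P i).ι (P i).hι (P i).hW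
    (P i).α (P i).e (P i).hα (P i).hcl
  by_contra hne
  exact ((rsP_eq (h3 c hc) (h3 c' hc')).1 hcc).ne (h4 c hc c' hc' hne)

theorem e5g_gen [DecidableEq K] [DecidableEq Ω] (hk : IsAlgClosed k)
    (hfgk : FG k (⊤ : Subfield K)) (hB : Indp k B)
    (ht : ¬ IsAlgebraic (gsp k B) t) (halg : ∀ z : K, IsAlgebraic (adj (gsp k B) t) z)
    (D : Dat k (gsp k B) t Θ) (P : ∀ i, E5G ℓ k l (gsp k B) Θ (D.W i) (D.O i) Ω) :
    ∃ (m : ℕ) (θ : D.S → Ω), (∀ i, θ i ∈ (P i).ι.fieldRange) ∧ ∀ᶠ i in D.U, ∀ v ∈ B,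
      BRel (rcl (k.map (algebraMap K Ω)) ((B.erase v).image (algebraMap K Ω))) m
        (algebraMap K Ω v) (θ i) ∧
      (P i).ι.fieldRange ≤ adj (adj (rcl (k.map (algebraMap K Ω))
        ((B.erase v).image (algebraMap K Ω))) (algebraMap K Ω v)) (θ i) := by
  obtain ⟨m, θ, h⟩ := exists_gen hk hfgk hB ht halg (Ω := Ω)
  refine ⟨m, fun i => (P i).ι (rs (D.W i) θ), fun i => ⟨_, rfl⟩, ?_⟩
  filter_upwards [D.ev h] with i h1 v hv
  exact h1 (D.W i) (D.ov i) (P i).ι (P i).hι v hv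

end e5main

section e5lim

variable {K L : Type*} [Field K] [Field L] [PerfectField K] [PerfectField L] {ℓ : ℕ}
  [Fact ℓ.Prime] [NeZero (ℓ : K)] [NeZero (ℓ : L)] {Θ : V ℓ K ≃ₗ[ZMod ℓ] V ℓ L}
  {k : Subfield K} {l : Subfield L} {B : Finset K} {t : K}
  {Ω : Type*} [Field Ω] [IsAlgClosed Ω] [Algebra K Ω] [DecidableEq K] [DecidableEq Ω]

theorem e5g_hdep [NeZero (ℓ : Ω)] (hk : IsAlgClosed k)
    (hfgk : FG k (⊤ : Subfield K)) (hl : IsAlgClosed l) (hB : Indp k B)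
    (ht : ¬ IsAlgebraic (gsp k B) t) (halg : ∀ z : K, IsAlgebraic (adj (gsp k B) t) z)
    (D : Dat k (gsp k B) t Θ) (hu : Ulu D.U D.O)
    (P : ∀ i, E5G ℓ k l (gsp k B) Θ (D.W i) (D.O i) Ω) {v : K} (hv : v ∈ B) (x y : L) :
    gm D.U (fun i => (P i).ρ (rsP (D.O i) x)) ∈ uSub D.U (fun _ =>
        rcl (k.map (algebraMap K Ω)) ((B.erase v).image (algebraMap K Ω))) ∨
      IsAlgebraic (adj (uSub D.U (fun _ =>
        rcl (k.map (algebraMap K Ω)) ((B.erase v).image (algebraMap K Ω))))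
          (gm D.U (fun i => (P i).ρ (rsP (D.O i) x))))
        (gm D.U (fun i => (P i).ρ (rsP (D.O i) y))) := by
  obtain ⟨m0, θ, hθR, hθ⟩ := e5g_gen hk hfgk hB ht halg D P
  obtain ⟨m1, h1⟩ := e5g_five hk hfgk hl hB ht halg D hu P x
  obtain ⟨m2, h2⟩ := e5g_five hk hfgk hl hB ht halg D hu P y
  obtain ⟨m3, h3⟩ := e5g_five hk hfgk hl hB ht halg D hu P (x + y)
  have e0 : m0 ≤ max (max m0 m1) (max m2 m3) := (le_max_left _ _).trans (le_max_left _ _)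
  have e1 : m1 ≤ max (max m0 m1) (max m2 m3) := (le_max_right _ _).trans (le_max_left _ _)
  have e2 : m2 ≤ max (max m0 m1) (max m2 m3) := (le_max_left _ _).trans (le_max_right _ _)
  have e3 : m3 ≤ max (max m0 m1) (max m2 m3) := (le_max_right _ _).trans (le_max_right _ _)
  refine e5_dep (ℓ := ℓ) (R := fun i => (P i).ι.fieldRange) (s := algebraMap K Ω v) (θ := θ)
    (m := max (max m0 m1) (max m2 m3)) (e5_rcl_ac _ _) (fun i => ?_)
    (fun i => (P i).map_le ⟨v, mem_gsp hv, rfl⟩) (e5_notMem hB hv) hθR ?_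
    (fun i => (P i).ρ_mem _) (fun i => (P i).ρ_mem _) ?_ ?_ ?_
  · haveI := rs_perfect (P i).hW
    exact perfect_fieldRange _
  · filter_upwards [hθ] with i hi
    exact ⟨(hi v hv).1.mono le_rfl e0, (hi v hv).2⟩
  · filter_upwards [h1] with i hi
    exact e5_five_mono e1 (hi v hv)
  · filter_upwards [h2] with i hi
    exact e5_five_mono e2 (hi v hv)
  · filter_upwards [h3, hu.ev_mem x, hu.ev_mem y] with i h4 h5 h6
    rw [← map_add, ← rsP_add h5 h6]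
    exact e5_five_mono e3 (h4 v hv)

theorem e5g_htw [NeZero (ℓ : Ω)] (hk : IsAlgClosed k)
    (hfgk : FG k (⊤ : Subfield K)) (hl : IsAlgClosed l) (hB : Indp k B)
    (ht : ¬ IsAlgebraic (gsp k B) t) (halg : ∀ z : K, IsAlgebraic (adj (gsp k B) t) z)
    (D : Dat k (gsp k B) t Θ) (hu : Ulu D.U D.O)
    (P : ∀ i, E5G ℓ k l (gsp k B) Θ (D.W i) (D.O i) Ω) {v : K} (hv : v ∈ B) (x : L)
    (hx : gm D.U (fun i => (P i).ρ (rsP (D.O i) x)) ∉ uSub D.U (fun _ =>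
        rcl (k.map (algebraMap K Ω)) ((B.erase v).image (algebraMap K Ω)))) :
    ∃ f : D.S → Ω, Twi f (algebraMap K Ω v) ∧
      IsAlgebraic (adj (uSub D.U (fun _ =>
        rcl (k.map (algebraMap K Ω)) ((B.erase v).image (algebraMap K Ω)))) (gm D.U f))
        (gm D.U (fun i => (P i).ρ (rsP (D.O i) x))) := by
  obtain ⟨m0, θ, hθR, hθ⟩ := e5g_gen hk hfgk hB ht halg D P
  obtain ⟨m1, h1⟩ := e5g_five hk hfgk hl hB ht halg D hu P x
  refine e5_tw (ℓ := ℓ) (R := fun i => (P i).ι.fieldRange) (θ := θ)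
    (m := max m0 m1) (e5_rcl_ac _ _) (fun i => ?_)
    (fun i => (P i).map_le ⟨v, mem_gsp hv, rfl⟩) (e5_notMem hB hv) hθR ?_
    (fun i => (P i).ρ_mem _) ?_ hx
  · haveI := rs_perfect (P i).hW
    exact perfect_fieldRange _
  · filter_upwards [hθ] with i hi
    exact ⟨(hi v hv).1.mono le_rfl (le_max_left _ _), (hi v hv).2⟩
  · filter_upwards [h1] with i hi
    exact e5_five_mono (le_max_right _ _) (hi v hv)

/-- classes dying in the residue fields. -/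
theorem e5g_hdie (hk : IsAlgClosed k) (htg : Good k t) (D : Dat k (gsp k B) t Θ)
    (hu : Ulu D.U D.O) (P : ∀ i, E5G ℓ k l (gsp k B) Θ (D.W i) (D.O i) Ω) (N : ℕ) :
    ∃ x : Fin N → L, (∀ i, x i ≠ 0 ∧ ∃ h ∈ uSub D.U (fun i => (P i).ι.fieldRange),
      h ^ ℓ = gm D.U (fun j => (P j).ρ (rsP (D.O j) (x i)))) ∧
      ∀ i j, i ≠ j → ¬ ∃ w : L, x i = x j * w ^ ℓ := by
  obtain ⟨x, hx, hxx⟩ := sa_inf (Θ := Θ) hk htg N
  refine ⟨x, fun i => ⟨(hx i).1, ?_⟩, ?_⟩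
  · refine e5g_die P (hu _ (hx i).1) ?_
    have h1 := D.ev_of_mem hk (le_gsp k B) htg.1 (hx i).2
    rwa [LinearEquiv.apply_symm_apply] at h1
  · rintro i j hij ⟨w, hw⟩
    apply hxx i j hij
    have hw0 : w ≠ 0 := by
      rintro rfl
      rw [zero_pow (Fact.out : ℓ.Prime).ne_zero, mul_zero] at hw
      exact (hx i).1 hw
    exact (cl_eq_iff ℓ (hx i).1 (hx j).1).2 ⟨w, hw0, hw⟩

theorem e5g_hram (hk : IsAlgClosed k) (hB : Indp k B) (D : Dat k (gsp k B) t Θ)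
    (hu : Ulu D.U D.O) (P : ∀ i, E5G ℓ k l (gsp k B) Θ (D.W i) (D.O i) Ω) {v : K}
    (hv : v ∈ B) :
    {c : Ω | c ∈ k.map (algebraMap K Ω) ∧ ∃ z : L, z ≠ 0 ∧ ∃ e : ℕ,
      ∃ h ∈ uSub D.U (fun i => (P i).ι.fieldRange), h ≠ 0 ∧
      gm D.U (fun _ => algebraMap K Ω v - c) =
        gm D.U (fun i => (P i).ρ (rsP (D.O i) z)) ^ e * h ^ ℓ}.Infinite := by
  refine ((infinite_of_isAlgClosed hk).image (algebraMap K Ω).injective.injOn).mono ?_
  rintro _ ⟨c, hc, rfl⟩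
  refine ⟨⟨c, hc, rfl⟩, ?_⟩
  have h0 : v - c ≠ 0 := by
    intro h
    rw [sub_eq_zero] at h
    refine hB ∅ (Finset.empty_subset _) v hv (Finset.notMem_empty _)
      (isAlgebraic_of_mem (le_gsp k ∅ ?_))
    rw [h]
    exact hc
  obtain ⟨z, hz0, hz⟩ := cl_surj ℓ (Θ (cl ℓ (v - c)))
  obtain ⟨e, h, hh, hh0, h1⟩ := e5g_ram P (x := v - c)
    (Subfield.sub_mem _ (mem_gsp hv) (le_gsp k B hc)) h0 hz.symm (hu z hz0)
  refine ⟨z, hz0, e, h, hh, hh0, ?_⟩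
  rw [← h1, map_sub]

theorem e5g_lim [NeZero (ℓ : Ω)] (hk : IsAlgClosed k) (hfgk : FG k (⊤ : Subfield K))
    (hl : IsAlgClosed l) (hfgl : FG l (⊤ : Subfield L)) (hB : Indp k B) (htg : Good k t)
    (ht : ¬ IsAlgebraic (gsp k B) t) (halg : ∀ z : K, IsAlgebraic (adj (gsp k B) t) z)
    (hL : Td l (B.card + 1)) (D : Dat k (gsp k B) t Θ) (hu : Ulu D.U D.O)
    (P : ∀ i, E5G ℓ k l (gsp k B) Θ (D.W i) (D.O i) Ω) (A : L →+* Gm D.U Ω)
    (hA : ∀ z, A z = gm D.U (fun i => (P i).ρ (rsP (D.O i) z))) :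
    ∃ e : L, e ∉ l ∧ A e ∈ uSub D.U (fun _ => k.map (algebraMap K Ω)) := by
  haveI : PerfectField (gsp k B) := gsp_perfect k B
  have hFG : FG (gsp k B) (⊤ : Subfield K) := hfgk.mono (le_gsp k B) le_top
  obtain ⟨d, hd⟩ := res_deg hFG ht halg
  have hcard : (B.image (algebraMap K Ω)).card = B.card :=
    Finset.card_image_of_injective _ (algebraMap K Ω).injective
  refine lim_main ℓ (k := k.map (algebraMap K Ω)) (B := B.image (algebraMap K Ω))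
    (R := fun i => (P i).ι.fieldRange) (d := d) (l := l) (e5_map_ac _ hk) (e5_indp _ hB)
    (fun i => ?_) (fun i => ?_) (fun i c hc => ?_) hl hfgl ?_ A (fun z => ?_) (fun c hc => ?_)
    ?_ ?_ ?_ ?_
  · rw [e5_gsp_map]
    exact (P i).map_le
  · haveI := rs_perfect (P i).hW
    exact perfect_fieldRange _
  · exact (P i).deg (e5_gsp_map _ _ _) (hd (D.W i) (P i).hF i.1 (le_gsp k B (D.le _ i.2))
      (D.ov i).lt) hc
  · rw [hcard]
    exact hL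
  · rw [hA]
    exact ⟨_, rfl, fun i => (P i).ρ_mem _⟩
  · rw [hA]
    exact ⟨_, rfl, fun i => (P i).ρ_l (le_gsp k B) hc⟩
  · intro v hv x y
    obtain ⟨v, hv', rfl⟩ := Finset.mem_image.1 hv
    rw [e5_erase, hA, hA]
    exact e5g_hdep hk hfgk hl hB ht halg D hu P hv' x y
  · intro v hv x hx
    obtain ⟨v, hv', rfl⟩ := Finset.mem_image.1 hv
    rw [e5_erase, hA] at hx ⊢
    exact e5g_htw hk hfgk hl hB ht halg D hu P hv' x hx
  · intro N
    simp only [hA]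
    exact e5g_hdie hk htg D hu P N
  · intro v hv
    obtain ⟨v, hv', rfl⟩ := Finset.mem_image.1 hv
    simp only [hA]
    exact e5g_hram hk hB D hu P hv'

end e5lim

variable {K L : Type*} [Field K] [Field L] [PerfectField K] [PerfectField L] {ℓ : ℕ}
  [Fact ℓ.Prime] [NeZero (ℓ : K)] [NeZero (ℓ : L)] {Θ : V ℓ K ≃ₗ[ZMod ℓ] V ℓ L}

/-- Step A, assuming that the theorem holds for the residue fields. -/
theorem stepAn_gen {k : Subfield K} (hk : IsAlgClosed k) (hfgk : FG k (⊤ : Subfield K))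
    {l : Subfield L} (hl : IsAlgClosed l) (hfgl : FG l (⊤ : Subfield L)) (hΘ : Compatible Θ)
    {B : Finset K} (hB : Indp k B) (hBne : B.Nonempty) {t : K} (htg : Good k t)
    (ht : ¬ IsAlgebraic (gsp k B) t) (halg : ∀ z : K, IsAlgebraic (adj (gsp k B) t) z)
    (hL : Td l (B.card + 1))
    (hIH : ∀ᶠ b in ae k, ∀ W : ValuationSubring K, Over W (gsp k B) t b →
      ∃ O : ValuationSubring L, Tr Θ W (t - b) O ∧
        (O.valuation (ℓ : L) = 1 → ResIsoG ℓ Θ k l W O)) :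
    ∃ E : Subfield L, Crv l E ∧ ∀ v, Θ v ∈ VS ℓ E ↔ v ∈ VS ℓ (adj k t) := by
  classical
  haveI : PerfectField k := inferInstance
  have hF : RatF k (gsp k B) := hB.ratF
  have hkF : k ≤ gsp k B := le_gsp k B
  have htrl := e5_trl (Finset.card_pos.2 hBne) hL
  haveI : NeZero (ℓ : AlgebraicClosure K) := ⟨by
    rw [← map_natCast (algebraMap K (AlgebraicClosure K)), Ne, map_eq_zero]
    exact NeZero.ne (ℓ : K)⟩
  obtain ⟨θ, hθ⟩ := exists_over_nice hk hfgk hB ht halg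
  have hIH' : ∀ᶠ b in ae k, ∀ W : ValuationSubring K, Over W (gsp k B) t b →
      ∃ O : ValuationSubring L, Tr Θ W (t - b) O ∧ ResIsoG ℓ Θ k l W O := by
    filter_upwards [hIH, ae_unit hk hfgk hl hfgl hΘ htrl hF htg ht halg
      (z := (ℓ : L)) (NeZero.ne _)] with b h1 h2 W hW
    obtain ⟨O, hO, hO'⟩ := h1 W hW
    exact ⟨O, hO, hO' (h2 W hW O hO)⟩
  obtain ⟨D, hD⟩ := e5_dat (Θ := Θ) (q := ResIsoG ℓ Θ k l) hk hθ hIH'
  have hP : ∀ i, Nonempty (E5G ℓ k l (gsp k B) Θ (D.W i) (D.O i) (AlgebraicClosure K)) :=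
    fun i => e5g_exists hkF (hD i).1 (hD i).2
  have hu : Ulu D.U D.O := D.ulu hk hfgk hl hfgl hΘ htrl hF htg ht halg
  let P := fun i => (hP i).some
  obtain ⟨A, hA'⟩ := exists_lim D.U D.O (fun i => (P i).ρ.comp (rf (D.O i))) hu
  have hA : ∀ z, A z = gm D.U (fun i => (P i).ρ (rsP (D.O i) z)) := hA'
  obtain ⟨h, hhl, hh⟩ := e5g_lim hk hfgk hl hfgl hB htg ht halg hL D hu P A hA
  rw [hA, gm_mem_uSub] at hh
  have h1 : ∀ᶠ i in D.U, ∃ c ∈ l, (D.O i).valuation (h - c) < 1 := by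
    filter_upwards [hh, hu.ev_mem h] with i h2 h3
    obtain ⟨c, hc, hcO, hc'⟩ := mem_rbarP.1 ((P i).of_ρ hkF h2)
    exact ⟨c, hc, (rsP_eq h3 hcO).1 hc'.symm⟩
  have h2 : ∀ i, ∃ c ∈ l, (∃ c ∈ l, (D.O i).valuation (h - c) < 1) →
      (D.O i).valuation (h - c) < 1 := by
    intro i
    by_cases h : ∃ c ∈ l, (D.O i).valuation (h - c) < 1
    · obtain ⟨c, hc, hc'⟩ := h
      exact ⟨c, hc, fun _ => hc'⟩
    · exact ⟨0, l.zero_mem, fun h' => absurd h' h⟩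
  choose c hc hc' using h2
  exact case_gen hk hfgk hl hfgl hΘ htrl htg hu
    (fun v hv => D.mem_of_ev hk hfgk hF htg ht halg hv) hhl hc (h1.mono fun i hi => hc' i hi)

end Vale.Agent.P019P
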