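import Vale.Agent.P019R.R13
import Vale.Agent.P019R.R14
import Vale.Agent.P019R.R15
import Vale.Agent.P019Q.E6
import Vale.Agent.P019P.Iface

/-!
# The main theorem over arbitrary algebraically closed fields
-/

namespace Vale.Agent.P019P

open Vale.Agent.P019

set_option linter.style.haveILetI false
set_option linter.unusedSectionVars false
set_option linter.unusedVariables false

open Polynomial Filter

universe u v

noncomputable instance rfpAlg {K : Type*} [Field K] (W : ValuationSubring K) :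
    Algebra (IsLocalRing.ResidueField W) (RFP W) := (rf W).toAlgebra

instance rfpPI {K : Type*} [Field K] (W : ValuationSubring K) :
    IsPurelyInseparable (IsLocalRing.ResidueField W) (RFP W) := by
  rw [isPurelyInseparable_iff_pow_mem (IsLocalRing.ResidueField W)
    (ringExpChar (IsLocalRing.ResidueField W))]
  intro x
  obtain ⟨m, y, hy⟩ := rf_pow W x
  exact ⟨m, y, hy⟩

/-- two independent elements from a transcendence basis with at least two elements. -/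
theorem r16_two {K : Type*} [Field K] [PerfectField K] {k : Subfield K}
    (hk : IsAlgClosed k) {n : ℕ} (h : Td k (n + 2)) :
    ∃ x y : K, x ∉ k ∧ ¬ IsAlgebraic (adj k x) y := by
  classical
  haveI : PerfectField k := inferInstance
  obtain ⟨B, hBc, hB, -⟩ := h
  obtain ⟨x, hx, y, hy, hxy⟩ := Finset.one_lt_card.1 (show 1 < B.card by omega)
  refine ⟨x, y, fun hxk => ?_, fun hya => ?_⟩
  · exact hB ∅ (by simp) x hx (by simp) (isAlgebraic_of_mem (le_gsp _ _ hxk))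
  · have e1 : gsp k (insert x ∅) = adj k x := by
      rw [gsp_insert, gsp_empty]
    refine hB (insert x ∅) (by simpa using hx) y hy (by simpa using hxy.symm) ?_
    rw [e1]
    exact hya

/-- a surface from a transcendence basis with two elements. -/
theorem r16_srf {K : Type*} [Field K] [PerfectField K] {k : Subfield K}
    (hk : IsAlgClosed k) (h : Td k 2) : ∃ t s : K, Srf k t s := by
  classical
  haveI : PerfectField k := inferInstance
  obtain ⟨B, hBc, hB, halg⟩ := h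
  obtain ⟨t, s, hts, rfl⟩ := Finset.card_eq_two.1 hBc
  have e1 : gsp k {s} = adj k s := by
    have := gsp_insert k ∅ s
    rw [gsp_empty] at this
    exact this
  have e2 : gsp k {t, s} = adj (adj k s) t := by
    rw [← e1]
    exact gsp_insert k {s} t
  refine ⟨t, s, le_rfl, FG.refl', ?_, ?_, ?_⟩
  · rw [← e1]
    exact hB {s} (by simp) t (by simp) (by simpa using hts)
  · have := hB ∅ (by simp) s (by simp) (by simp)
    rwa [gsp_empty] at this
  · intro z
    rw [← e2]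
    exact halg z

/-- a transcendence basis with at least two elements. -/
theorem r16_td {K : Type*} [Field K] [PerfectField K] {k : Subfield K}
    (hk : IsAlgClosed k) (hfg : FG k (⊤ : Subfield K))
    (tr : ∃ x y : K, x ∉ k ∧ ¬ IsAlgebraic (adj k x) y) : ∃ n, Td k (n + 2) := by
  classical
  haveI : PerfectField k := inferInstance
  obtain ⟨x, y, hx, hy⟩ := tr
  have h0 : Indp k ∅ := fun S _ v hv => absurd hv (Finset.notMem_empty v)
  have h1 : Indp k (insert x ∅) := h0.insert (by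
    rw [gsp_empty]
    exact fun h => hx (RAC_of_isAlgClosed k hk x h))
  have e1 : gsp k (insert x ∅) = adj k x := by
    rw [gsp_insert, gsp_empty]
  have h2 : Indp k (insert y (insert x ∅)) := h1.insert (by
    rw [e1]
    exact hy)
  have hyx : y ∉ insert x (∅ : Finset K) := by
    rw [Finset.mem_insert]
    rintro (h | h)
    · exact hy (by rw [h]; exact isAlgebraic_of_mem (mem_adj k x))
    · exact Finset.notMem_empty y h
  obtain ⟨B', hsub, hB', halg⟩ := h2.extend hfg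
  have hc := Finset.card_le_card hsub
  rw [Finset.card_insert_of_notMem hyx, Finset.card_insert_of_notMem (Finset.notMem_empty x),
    Finset.card_empty] at hc
  exact ⟨B'.card - 2, B', by omega, hB', halg⟩

/-- the main theorem in transcendence degree `n + 2`. -/
def R16Main (ℓ : ℕ) [Fact ℓ.Prime] (n : ℕ) : Prop := ∀ {K : Type u} {L : Type v} [Field K]
    [Field L] [PerfectField K] [PerfectField L] [NeZero (ℓ : K)] [NeZero (ℓ : L)]
    {Θ : V ℓ K ≃ₗ[ZMod ℓ] V ℓ L} {k : Subfield K} (_ : IsAlgClosed k)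
    (_ : FG k (⊤ : Subfield K)) {l : Subfield L} (_ : IsAlgClosed l)
    (_ : FG l (⊤ : Subfield L)) (_ : Compatible Θ) (_ : Td k (n + 2)) (_ : Td l (n + 2)),
    ∃ (c : (ZMod ℓ)ˣ) (α : K ≃+* L), (∀ x, x ∈ k ↔ α x ∈ l) ∧
      ∀ x : K, Θ (cl ℓ x) = (c : ZMod ℓ) • cl ℓ (α x)

theorem R16Main.symm {ℓ : ℕ} [Fact ℓ.Prime] {n : ℕ} (h : R16Main.{u, v} ℓ n) :
    R16Main.{v, u} ℓ n := by
  intro K L _ _ _ _ _ _ Θ k hk hfgk l hl hfgl hΘ hK hL
  obtain ⟨c, α, h1, h2⟩ := h hl hfgl hk hfgk hΘ.symm hL hK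
  refine ⟨c⁻¹, α.symm, fun x => ?_, fun x => ?_⟩
  · rw [h1, RingEquiv.apply_symm_apply]
  · have h3 := h2 (α.symm x)
    rw [RingEquiv.apply_symm_apply, LinearEquiv.symm_apply_eq, map_smul] at h3
    rw [h3, smul_smul, Units.inv_mul, one_smul]

/-- Step A from the main theorem for the residue fields. -/
theorem R16Main.stepA {ℓ : ℕ} [Fact ℓ.Prime] {n : ℕ} (ih : R16Main.{u, v} ℓ n)
    {K : Type u} {L : Type v} [Field K] [Field L] [PerfectField K] [PerfectField L]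
    [NeZero (ℓ : K)] [NeZero (ℓ : L)] {Θ : V ℓ K ≃ₗ[ZMod ℓ] V ℓ L} {k : Subfield K}
    (hk : IsAlgClosed k) (hfgk : FG k (⊤ : Subfield K)) {l : Subfield L}
    (hl : IsAlgClosed l) (hfgl : FG l (⊤ : Subfield L)) (hΘ : Compatible Θ)
    (hK : Td k (n + 3)) (hL : Td l (n + 3)) {t : K} (ht : Good k t) :
    ∃ E : Subfield L, Crv l E ∧ ∀ v, Θ v ∈ VS ℓ E ↔ v ∈ VS ℓ (adj k t) := by
  classical
  haveI : PerfectField k := inferInstance
  obtain ⟨B, hBc, hB, htB, halg, -⟩ := Td.exists_basis hk hfgk (n := n + 2) hK ht.1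
  have hBne : B.Nonempty := by
    rw [← Finset.card_pos, hBc]
    omega
  have hL' : Td l (B.card + 1) := by rw [hBc]; exact hL
  obtain ⟨θ, hθ⟩ := exists_over_nice hk hfgk hB htB halg
  refine stepAn_gen hk hfgk hl hfgl hΘ hB hBne ht htB halg hL' ?_
  filter_upwards [hθ] with b hb W hW
  have hN := hb.2 W hW
  have hWk : TrivOn W k := hN.triv.mono (le_gsp k B)
  obtain ⟨y, hyB⟩ := id hBne
  have hyk : y ∉ k := fun h => hB ∅ (by simp) y hyB (by simp)
    (isAlgebraic_of_mem (le_gsp _ _ h))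
  haveI := gsp_perfect k B
  obtain ⟨O, hT⟩ := exists_tr0 hk hfgk hl hΘ (le_gsp k B) (gsp_fg k B) hN hyk
    (hN.triv.mono (adj_le (le_gsp k B) (mem_gsp hyB)))
  refine ⟨O, hT, fun hOℓ => ?_⟩
  obtain ⟨hTdO, hFGO⟩ := res_td' hk hfgk hl hfgl hΘ hB hBne hL' hN hT
  obtain ⟨hTdW, hFGW⟩ := hN.td hB hWk
  haveI := rs_perfect hWk
  haveI := rs_neZero (ℓ := ℓ) hWk
  haveI := rfp_neZero hOℓ
  obtain ⟨x, hx⟩ : ∃ x : IsLocalRing.ResidueField W, x ∉ bar hWk := by
    obtain ⟨B', hBc', hB', -⟩ := id hTdW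
    have h0 : B'.Nonempty := by
      rw [← Finset.card_pos, hBc', hBc]
      omega
    obtain ⟨x, hx⟩ := h0
    refine ⟨x, fun h => hB' ∅ (by simp) x hx (by simp) ?_⟩
    exact isAlgebraic_of_mem (le_gsp _ _ h)
  have hNC : NoCtr ℓ (IsLocalRing.ResidueField W) := noCtr (bar_isAlgClosed hWk hk) hFGW hx
  have hTA : TrA Θ W (hN.unif.fn ℓ) O := ⟨hT.unit hN.unif, hT.iff⟩
  have hAd : Adp W (hN.unif.fn ℓ) := IsUnif.adp (exists_neg hk) hN.unif
  obtain ⟨Θ', hΘ', hres⟩ := TrA.res hΘ (exists_neg hk) (exists_neg hl) hAd hTA hNC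
  haveI : NeZero (ℓ : IsLocalRing.ResidueField O) := ⟨fun h => by
    apply NeZero.ne (ℓ : RFP O)
    have h1 := congrArg (rf O) h
    rwa [map_natCast, map_zero] at h1⟩
  let ΘQ : V ℓ (IsLocalRing.ResidueField W) ≃ₗ[ZMod ℓ] V ℓ (RFP O) :=
    Θ'.trans (perfV ℓ (IsLocalRing.ResidueField O) (RFP O))
  have hΘQ : Compatible ΘQ := Compatible.trans hΘ' perfV_compatible
  rw [hBc] at hTdO hTdW
  obtain ⟨e, α, h1, h2⟩ := ih (bar_isAlgClosed hWk hk) hFGW (rbarP_ac hl O) hFGO hΘQ hTdW hTdO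
  refine ⟨e, α, fun x => ?_, fun z y hz hy hzy => ?_⟩
  · rw [← h1, rbar_eq_bar hWk]
  · rw [← h2]
    change cl ℓ (rsP O y) = perfV ℓ (IsLocalRing.ResidueField O) (RFP O) (Θ' (cl ℓ (rs W z)))
    rw [hres z y hz hy hzy, perfV_apply, Vmap_cl]
    rfl

theorem main_gen' {ℓ : ℕ} [Fact ℓ.Prime] (n : ℕ) : ∀ {K : Type u} {L : Type v} [Field K]
    [Field L] [PerfectField K] [PerfectField L] [NeZero (ℓ : K)] [NeZero (ℓ : L)]
    {Θ : V ℓ K ≃ₗ[ZMod ℓ] V ℓ L} {k : Subfield K} (_ : IsAlgClosed k)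
    (_ : FG k (⊤ : Subfield K)) {l : Subfield L} (_ : IsAlgClosed l)
    (_ : FG l (⊤ : Subfield L)) (_ : Compatible Θ) (_ : Td k (n + 2)) (_ : Td l (n + 2)),
    ∃ (c : (ZMod ℓ)ˣ) (α : K ≃+* L), (∀ x, x ∈ k ↔ α x ∈ l) ∧
      ∀ x : K, Θ (cl ℓ x) = (c : ZMod ℓ) • cl ℓ (α x) := by
  change R16Main.{u, v} ℓ n
  induction n with
  | zero =>
    intro K L _ _ _ _ _ _ Θ k hk hfgk l hl hfgl hΘ hK hL
    obtain ⟨t, s, hts⟩ := r16_srf hk hK
    obtain ⟨x, y, hxy⟩ := r16_srf hl hL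
    exact final_of_stepA' hk hfgk hl hfgl hΘ (r16_two hk hK) (r16_two hl hL)
      (fun _ h => stepA2g hk hfgk hl hfgl hΘ hts hxy h)
      (fun _ h => stepA2g hl hfgl hk hfgk hΘ.symm hxy hts h)
  | succ n ih =>
    intro K L _ _ _ _ _ _ Θ k hk hfgk l hl hfgl hΘ hK hL
    exact final_of_stepA' hk hfgk hl hfgl hΘ (r16_two hk hK) (r16_two hl hL)
      (fun _ h => R16Main.stepA ih hk hfgk hl hfgl hΘ hK hL h)
      (fun _ h => R16Main.stepA ih.symm hl hfgl hk hfgk hΘ.symm hL hK h)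

/-- the main theorem. -/
theorem main_gen {K : Type u} {L : Type v} [Field K] [Field L] [PerfectField K] [PerfectField L]
    {ℓ : ℕ} [Fact ℓ.Prime] [NeZero (ℓ : K)] [NeZero (ℓ : L)] {Θ : V ℓ K ≃ₗ[ZMod ℓ] V ℓ L}
    {k : Subfield K} (hk : IsAlgClosed k) (hfgk : FG k (⊤ : Subfield K))
    {l : Subfield L} (hl : IsAlgClosed l) (hfgl : FG l (⊤ : Subfield L))
    (hΘ : Compatible Θ) (trk : ∃ x y : K, x ∉ k ∧ ¬ IsAlgebraic (adj k x) y)
    (trl : ∃ x y : L, x ∉ l ∧ ¬ IsAlgebraic (adj l x) y) :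
    ∃ (c : (ZMod ℓ)ˣ) (α : K ≃+* L), (∀ x, x ∈ k ↔ α x ∈ l) ∧
      ∀ x : K, Θ (cl ℓ x) = (c : ZMod ℓ) • cl ℓ (α x) := by
  obtain ⟨n, hn⟩ := r16_td hk hfgk trk
  obtain ⟨m, hm⟩ := r16_td hl hfgl trl
  obtain ⟨B, hBc, hB⟩ := dim_ge' (n + 2) hk hfgk hl hΘ hn
  obtain ⟨B', hBc', hB'⟩ := dim_ge' (m + 2) hl hfgl hk hΘ.symm hm
  have h1 := hm.le hB
  have h2 := hn.le hB'
  obtain rfl : n = m := by omega
  exact main_gen' n hk hfgk hl hfgl hΘ hn hm

end Vale.Agent.P019P
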