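import Vale.Agent.P019R.R1
import Vale.Agent.P019P.Iface

/-!
# Isomorphisms of the classes of the perfect closures of the residue fields
-/

namespace Vale.Agent.P019P

open Vale.Agent.P019

set_option linter.style.haveILetI false
set_option linter.unusedSectionVars false
set_option linter.unusedVariables false

open Polynomial Filter

/-- `ΘP` is induced by `Θ` on the perfect closures of the residue fields. -/
def ResMapP (ℓ : ℕ) {K L : Type*} [Field K] [Field L] (Θ : V ℓ K ≃ₗ[ZMod ℓ] V ℓ L)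
    (W : ValuationSubring K) (O : ValuationSubring L)
    (ΘP : V ℓ (RFP W) ≃ₗ[ZMod ℓ] V ℓ (RFP O)) : Prop :=
  ∀ (z : K) (z' : L), W.valuation z = 1 → O.valuation z' = 1 → Θ (cl ℓ z) = cl ℓ z' →
    ΘP (cl ℓ (rsP W z)) = cl ℓ (rsP O z')

variable {K L : Type*} [Field K] [Field L] {ℓ : ℕ} [Fact ℓ.Prime]
  {Θ : V ℓ K ≃ₗ[ZMod ℓ] V ℓ L}

private theorem r1b_rs_natCast (W : ValuationSubring K) (n : ℕ) :
    rs W (n : K) = (n : IsLocalRing.ResidueField W) := by
  have h : (n : K) ∈ W := natCast_mem W n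
  rw [rs_of_mem h]
  have h1 : (⟨(n : K), h⟩ : W) = (n : W) := Subtype.ext (by simp)
  rw [h1, map_natCast]

private theorem r1b_neZero {W : ValuationSubring K} (h : W.valuation (ℓ : K) = 1) :
    NeZero (ℓ : IsLocalRing.ResidueField W) := by
  refine ⟨?_⟩
  rw [← r1b_rs_natCast W ℓ]
  exact (rs_ne_zero (mem_of_val h)).2 h

theorem rfp_neZero {W : ValuationSubring K} (h : W.valuation (ℓ : K) = 1) :
    NeZero (ℓ : RFP W) := by
  refine ⟨?_⟩
  rw [← map_natCast (rf W)]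
  exact (map_ne_zero_iff _ (rf_injective W)).2 (r1b_neZero h).1

private theorem r1b_pi (W : ValuationSubring K) :
    letI : Algebra (IsLocalRing.ResidueField W) (RFP W) := (rf W).toAlgebra
    IsPurelyInseparable (IsLocalRing.ResidueField W) (RFP W) := by
  letI : Algebra (IsLocalRing.ResidueField W) (RFP W) := (rf W).toAlgebra
  haveI : ExpChar (IsLocalRing.ResidueField W) (ringExpChar (IsLocalRing.ResidueField W)) :=
    inferInstance
  rw [isPurelyInseparable_iff_pow_mem (IsLocalRing.ResidueField W)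
    (ringExpChar (IsLocalRing.ResidueField W))]
  intro x
  obtain ⟨m, y, hy⟩ := rf_pow W x
  exact ⟨m, y, hy⟩

/-- the isomorphism between the classes of the residue field and of its perfect closure. -/
private theorem r1b_iso {W : ValuationSubring K} (h : W.valuation (ℓ : K) = 1) :
    ∃ e : V ℓ (IsLocalRing.ResidueField W) ≃ₗ[ZMod ℓ] V ℓ (RFP W), Compatible e ∧
      ∀ y, e (cl ℓ y) = cl ℓ (rf W y) := by
  letI : Algebra (IsLocalRing.ResidueField W) (RFP W) := (rf W).toAlgebra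
  haveI := r1b_pi W
  haveI := r1b_neZero h
  refine ⟨perfV ℓ (IsLocalRing.ResidueField W) (RFP W), perfV_compatible, fun y => ?_⟩
  rw [perfV_apply, Vmap_cl]
  rfl

/-- classes of the perfect closure come from units. -/
theorem rfp_cl {W : ValuationSubring K} (h : W.valuation (ℓ : K) = 1) (v : V ℓ (RFP W)) :
    ∃ z : K, W.valuation z = 1 ∧ cl ℓ (rsP W z) = v := by
  obtain ⟨e, -, he⟩ := r1b_iso h
  obtain ⟨y, hy0, hy⟩ := cl_surj ℓ (e.symm v)
  obtain ⟨z, hz, rfl⟩ := rs_surj y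
  refine ⟨z, (rs_ne_zero hz).1 hy0, ?_⟩
  rw [rsP, ← he, hy, LinearEquiv.apply_symm_apply]

/-- the classes of `K` which die in the residue field. -/
theorem rfp_cl_zero {W : ValuationSubring K} (h : W.valuation (ℓ : K) = 1) {z : K}
    (hz : W.valuation z = 1) : cl ℓ (rsP W z) = 0 ↔ cl ℓ z ∈ U1 ℓ W := by
  obtain ⟨e, -, he⟩ := r1b_iso h
  obtain ⟨r, hr1, -, hr3⟩ := exists_rc (Fact.out : ℓ.Prime).ne_zero W
  have h1 := hr1 z hz ⟨cl ℓ z, mem_UC.2 ⟨z, hz, rfl⟩⟩ rfl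
  have h2 := hr3 ⟨cl ℓ z, mem_UC.2 ⟨z, hz, rfl⟩⟩
  rw [h1] at h2
  rw [rsP, ← he, LinearEquiv.map_eq_zero_iff]
  exact h2

theorem noCtr_rfp {W : ValuationSubring K} (h : W.valuation (ℓ : K) = 1)
    (hN : NoCtr ℓ (RFP W)) : NoCtr ℓ (IsLocalRing.ResidueField W) := by
  obtain ⟨e, -, he⟩ := r1b_iso h
  haveI := r1b_neZero h
  intro g hg
  have h0 : g ∘ₗ (e.symm : V ℓ (RFP W) →ₗ[ZMod ℓ] V ℓ (IsLocalRing.ResidueField W)) = 0 := by
    apply hN
    intro x hx0 hx1 hgx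
    rw [LinearMap.comp_apply, LinearEquiv.coe_coe] at hgx
    obtain ⟨m, y, hy⟩ := rf_pow W x
    set q := ringExpChar (IsLocalRing.ResidueField W) with hq
    haveI : ExpChar (RFP W) q := expChar_of_injective_ringHom (rf_injective W) q
    have hqm : ((q ^ m : ℕ) : ZMod ℓ) ≠ 0 := q_pow_ne_zero ℓ (IsLocalRing.ResidueField W) m
    have hsub : rf W (1 - y) = (1 - x) ^ q ^ m := by
      rw [map_sub, map_one, hy, sub_pow_expChar_pow, one_pow]
    have hy0 : y ≠ 0 := by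
      rintro rfl
      rw [map_zero] at hy
      exact pow_ne_zero _ hx0 hy.symm
    have hy1 : y ≠ 1 := by
      rintro rfl
      rw [sub_self, map_zero] at hsub
      exact pow_ne_zero _ (sub_ne_zero.2 (Ne.symm hx1)) hsub.symm
    have hcy : cl ℓ (rf W y) = ((q ^ m : ℕ) : ZMod ℓ) • cl ℓ x := by
      rw [hy, cl_pow, Nat.cast_smul_eq_nsmul]
    have hcy' : cl ℓ (rf W (1 - y)) = ((q ^ m : ℕ) : ZMod ℓ) • cl ℓ (1 - x) := by
      rw [hsub, cl_pow, Nat.cast_smul_eq_nsmul]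
    have hgy : g (cl ℓ y) ≠ 0 := by
      have h1 : cl ℓ y = ((q ^ m : ℕ) : ZMod ℓ) • e.symm (cl ℓ x) := by
        rw [← map_smul, ← hcy, ← he, LinearEquiv.symm_apply_apply]
      rw [h1, map_smul, smul_eq_mul]
      exact mul_ne_zero hqm hgx
    obtain ⟨a, ha⟩ := hg y hy0 hy1 hgy
    refine ⟨a, ?_⟩
    have h2 := congrArg e ha
    rw [map_smul, he, he, hcy, hcy', smul_comm a] at h2
    exact smul_right_injective _ hqm h2
  ext v
  have := LinearMap.congr_fun h0 (e v)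
  simpa using this

/-- the isomorphism of the residue fields, perfect closures. -/
theorem TrA.resP (hΘ : Compatible Θ) (hnegK : ∃ i : K, i ^ ℓ = -1)
    (hnegL : ∃ i : L, i ^ ℓ = -1) {W : ValuationSubring K} {f : V ℓ K →ₗ[ZMod ℓ] ZMod ℓ}
    (hW : Adp W f) {O : ValuationSubring L} (hT : TrA Θ W f O)
    (hℓW : W.valuation (ℓ : K) = 1) (hℓO : O.valuation (ℓ : L) = 1)
    (hNC : NoCtr ℓ (RFP W)) :
    ∃ ΘP : V ℓ (RFP W) ≃ₗ[ZMod ℓ] V ℓ (RFP O), Compatible ΘP ∧ ResMapP ℓ Θ W O ΘP := by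
  obtain ⟨Θ', h1, h2⟩ := hT.res hΘ hnegK hnegL hW (noCtr_rfp hℓW hNC)
  obtain ⟨e, he, he'⟩ := r1b_iso hℓW
  obtain ⟨e₂, he₂, he₂'⟩ := r1b_iso hℓO
  refine ⟨e.symm.trans (Θ'.trans e₂),
    Compatible.trans (Compatible.symm he) (Compatible.trans h1 he₂), ?_⟩
  intro z z' hz hz' hzz
  rw [LinearEquiv.trans_apply, LinearEquiv.trans_apply, rsP, rsP, ← he', ← he₂',
    LinearEquiv.symm_apply_apply, h2 z z' hz hz' hzz]

end Vale.Agent.P019P
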