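import Vale.Agent.P019R.R0

/-!
# Incomparable valuation rings
-/

namespace Vale.Agent.P019P

open Vale.Agent.P019

set_option linter.style.haveILetI false
set_option linter.unusedSectionVars false
set_option linter.unusedVariables false

open Polynomial Filter

/-- a unit `x` of `O` which is large for `O'` is congruent modulo `1 + m_O` to a unit of
`O'` as soon as `O'` is not contained in `O`. -/
theorem r2_key {L : Type*} [Field L] {O O' : ValuationSubring L} (h : ¬ O' ≤ O) {x : L}
    (hx : O.valuation x = 1) (hx' : 1 < O'.valuation x) :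
    ∃ y : L, O'.valuation y = 1 ∧ O.valuation (y - x) < 1 := by
  obtain ⟨z, hzO', hzO⟩ := Set.not_subset.1 h
  have hz' : O'.valuation z ≤ 1 := (O'.valuation_le_one_iff z).2 hzO'
  have hz : 1 < O.valuation z := by
    rw [← not_le]
    exact fun hle => hzO ((O.valuation_le_one_iff z).1 hle)
  have hx0 : x ≠ 0 := by
    rintro rfl
    rw [map_zero] at hx
    exact zero_ne_one hx
  have hu : 1 < O.valuation (z / x) := by
    rw [map_div₀, hx, div_one]; exact hz
  have hu' : O'.valuation (z / x) < 1 := by
    rw [map_div₀]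
    have hx0' : 0 < O'.valuation x := lt_trans zero_lt_one hx'
    rw [div_lt_one₀ hx0']
    exact lt_of_le_of_lt hz' hx'
  set u := z / x with hudef
  have h1u' : O'.valuation (1 + u) = 1 := val_one_add hu'
  have h1u : O.valuation (1 + u) = O.valuation u := by
    rw [add_comm]
    refine Valuation.map_add_eq_of_lt_left _ ?_
    rwa [map_one]
  have h1u0 : (1 + u) ≠ 0 := by
    intro h0
    rw [h0, map_zero] at h1u'
    exact zero_ne_one h1u'
  set a := 1 / (1 + u) with hadef
  have ha : O.valuation a < 1 := by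
    rw [hadef, map_div₀, map_one, h1u, one_div]
    exact inv_lt_one_of_one_lt₀ hu
  have ha' : O'.valuation a = 1 := by
    rw [hadef, map_div₀, map_one, h1u', div_one]
  have h1a : 1 - a = u / (1 + u) := by
    rw [hadef]
    field_simp
    ring
  have h1a' : O'.valuation (1 - a) < 1 := by
    rw [h1a, map_div₀, h1u', div_one]; exact hu'
  have hxa' : O'.valuation (x * (1 - a)) ≤ 1 := by
    rw [h1a]
    have : x * (u / (1 + u)) = z / (1 + u) := by
      rw [hudef]
      field_simp
    rw [this, map_div₀, h1u', div_one]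
    exact hz'
  refine ⟨x * (1 - a) ^ 2 + a ^ 2, ?_, ?_⟩
  · have h1 : O'.valuation (a ^ 2) = 1 := by rw [map_pow, ha', one_pow]
    have h2 : O'.valuation (x * (1 - a) ^ 2) < 1 := by
      have : x * (1 - a) ^ 2 = (x * (1 - a)) * (1 - a) := by ring
      rw [this, map_mul]
      exact mul_lt_one_of_nonneg_of_lt_one_right hxa' zero_le h1a'
    rw [Valuation.map_add_eq_of_lt_right _ (by rw [h1]; exact h2), h1]
  · have : x * (1 - a) ^ 2 + a ^ 2 - x = a * (x * a - 2 * x + a) := by ring
    rw [this, map_mul]
    refine mul_lt_one_of_nonneg_of_lt_one_left zero_le ha ?_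
    rw [O.valuation_le_one_iff]
    have hxO : x ∈ O := (O.valuation_le_one_iff x).1 hx.le
    have haO : a ∈ O := (O.valuation_le_one_iff a).1 ha.le
    have h2O : (2 : L) ∈ O := by
      have := add_mem (one_mem O) (one_mem O)
      rwa [one_add_one_eq_two] at this
    exact add_mem (sub_mem (mul_mem hxO haO) (mul_mem h2O hxO)) haO

/-- a valuation ring killed by a functional killing `U1 ℓ O` and not trivial on the units of
`O` is contained in `O`. -/
theorem cmp_le {L : Type*} [Field L] {ℓ : ℕ} [Fact ℓ.Prime] {O O' : ValuationSubring L}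
    (f : V ℓ L →ₗ[ZMod ℓ] ZMod ℓ) (hf : ∀ v ∈ U1 ℓ O, f v = 0)
    (hf' : ∀ z, O'.valuation z = 1 → f (cl ℓ z) = 0)
    (hne : ∃ z, O.valuation z = 1 ∧ f (cl ℓ z) ≠ 0) : O' < O := by
  obtain ⟨x, hx, hfx⟩ := hne
  have hx' : O'.valuation x ≠ 1 := fun h => hfx (hf' x h)
  refine lt_of_le_of_ne ?_ ?_
  · by_contra hle
    have key : ∀ x : L, O.valuation x = 1 → f (cl ℓ x) ≠ 0 → 1 < O'.valuation x → False := by
      intro x hx hfx hx'
      obtain ⟨y, hy', hyx⟩ := r2_key hle hx hx'
      have h1 := hf _ (cl_sub_cl_mem_U1 hx hyx)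
      rw [map_sub, hf' y hy', zero_sub, neg_eq_zero] at h1
      exact hfx h1
    rcases lt_or_gt_of_ne hx' with h | h
    · refine key x⁻¹ (by rw [map_inv₀, hx, inv_one]) ?_ ?_
      · rw [cl_inv, map_neg]
        exact neg_ne_zero.2 hfx
      · have hx0 : x ≠ 0 := by
          rintro rfl
          rw [map_zero] at hx
          exact zero_ne_one hx
        rw [map_inv₀]
        exact (one_lt_inv₀ (zero_lt_iff.2 ((Valuation.ne_zero_iff _).2 hx0))).2 h
    · exact key x hx hfx h
  · rintro rfl
    exact hx' hx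

end Vale.Agent.P019P
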