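import Vale.Agent.P019R.AbC

/-!
# Abhyankar valuations: independence
-/

namespace Vale.Agent.P019P

open Vale.Agent.P019

set_option linter.style.haveILetI false
set_option linter.unusedSectionVars false
set_option linter.unusedVariables false

open Polynomial Filter

variable {L : Type*} [Field L] {l : Subfield L}

/-- lifts of independent residues are independent. -/
theorem abh_lift0 (hl : IsAlgClosed l) {O : ValuationSubring L}
    {B : Finset (IsLocalRing.ResidueField O)} (hB : Indp (rbar l O) B) :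
    ∃ B' : Finset L, B'.card = B.card ∧ Indp l B' := by
  obtain ⟨B', h1, h2, -⟩ := ab_chain l hB
  exact ⟨B', h1, h2⟩

/-- the same with an element with value not commensurable with the values of `l`. -/
theorem abh_lift (hl : IsAlgClosed l) {O : ValuationSubring L} {ρ : L} (hρ0 : ρ ≠ 0)
    (hρ : ∀ a ∈ l, a ≠ 0 → ∀ i : ℤ, O.valuation (a * ρ ^ i) = 1 → i = 0)
    {B : Finset (IsLocalRing.ResidueField O)} (hB : Indp (rbar l O) B) :
    ∃ B' : Finset L, B'.card = B.card + 1 ∧ Indp l B' := by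
  classical
  obtain ⟨B', h1, h2, -, h3, -⟩ := ab_chain l hB
  obtain ⟨h4, h5⟩ := ab_insert h2 h3 hρ0 (ab_pow_ne hρ)
  exact ⟨insert ρ B', by rw [Finset.card_insert_of_notMem h4, h1], h5⟩

/-- a class which is not a unit class has a value which is not commensurable with the values
of `l`. -/
theorem not_torsion (hl : IsAlgClosed l) {ℓ : ℕ} [Fact ℓ.Prime]
    {O : ValuationSubring L} {ρ : L} (hρ0 : ρ ≠ 0) (h : cl ℓ ρ ∉ UC ℓ O) :
    ∀ a ∈ l, a ≠ 0 → ∀ i : ℤ, O.valuation (a * ρ ^ i) = 1 → i = 0 := by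
  have key : ∀ a ∈ l, a ≠ 0 → ∀ n : ℕ, 0 < n → O.valuation (a * ρ ^ n) ≠ 1 := by
    intro a ha ha0 n hn h1
    obtain ⟨d, hd, hd0, rfl⟩ := ab_root hl hn ha ha0
    rw [← mul_pow, map_pow] at h1
    have h2 : O.valuation (d * ρ) = 1 := (pow_eq_one_iff_of_nonneg zero_le hn.ne').1 h1
    obtain ⟨e, he, he0, hed⟩ := ab_root hl (Fact.out : ℓ.Prime).pos hd hd0
    apply h
    refine ⟨d * ρ, h2, ?_⟩
    rw [cl_mul ℓ hd0 hρ0, (cl_eq_zero_iff ℓ hd0).2 ⟨e, he0, hed⟩, zero_add]
  intro a ha ha0 i hi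
  rcases lt_trichotomy i 0 with h1 | h1 | h1
  · exfalso
    obtain ⟨m, hm⟩ := Int.eq_ofNat_of_zero_le (show 0 ≤ -i by omega)
    have hi' : i = -(m : ℤ) := by omega
    refine key a⁻¹ (inv_mem ha) (inv_ne_zero ha0) m (by omega) ?_
    have h2 : a⁻¹ * ρ ^ m = (a * ρ ^ i)⁻¹ := by
      rw [hi', zpow_neg, zpow_natCast, mul_inv, inv_inv]
    rw [h2, map_inv₀, hi, inv_one]
  · exact h1
  · exfalso
    obtain ⟨m, rfl⟩ := Int.eq_ofNat_of_zero_le h1.le
    rw [zpow_natCast] at hi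
    exact key a ha ha0 m (by omega) hi

end Vale.Agent.P019P
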