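import Vale.Agent.P019R.R6b

/-!
# Approximation of places of the residue curve of an arbitrary Abhyankar valuation

The theorem `appr_main` is in `R6b`.
-/
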