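import Vale.Agent.P019R.R5b

/-!
# The values of a valuation ring of rational rank one over the constants
-/

namespace Vale.Agent.P019P

open Vale.Agent.P019

set_option linter.unusedSectionVars false

variable {L : Type*} [Field L] {l : Subfield L}

/-- independent elements of the right number are a transcendence basis. -/
theorem ab_basis [PerfectField L] {n : ℕ} (htd : Td l n) {B : Finset L} (hB : Indp l B)
    (hc : B.card = n) (z : L) : IsAlgebraic (gs0 l B) z := by
  classical
  by_contra h
  have h1 : z ∉ B := fun hz => h (isAlgebraic_of_mem (mem_gs0 hz))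
  have h2 := htd.le (ab_indp_insert hB h)
  rw [Finset.card_insert_of_notMem h1, hc] at h2
  omega

/-- the values modulo the values of `l` and of `ρ` are torsion.
Proof. Lift `y` to `y' ∈ O`. `y'`, `ρ` are algebraically independent over `l`: a polynomial
`∑ a, p_a(y') * ρ ^ a` with coefficients in `l` has value `max |c_a| * |ρ| ^ a`, where `c_a` is
the coefficient of `p_a` of largest value (the residue of `p_a(y') / c_a` is a non-zero polynomial
in `y ∉ rbar l O`, and `rbar l O` is algebraically closed (`rbar_ac`)); these values are different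
for different `a` by `hρ`. So every non-zero `x ∈ gsp l {y', ρ}` has a power
`x ^ (ringExpChar L) ^ m` with the value of `c * ρ ^ a`, `c ∈ l`. As `L` has transcendence degree
two, every `z : L` is algebraic over `gsp l {y', ρ}`; in a relation `∑ i, x_i * z ^ i = 0` two
different non-zero terms have the same value. -/
theorem r6_tors [PerfectField L] (hl : IsAlgClosed l) (htd : Td l 2) {O : ValuationSubring L}
    {ρ : L} (hρ0 : ρ ≠ 0)
    (hρ : ∀ a ∈ l, a ≠ 0 → ∀ i : ℤ, O.valuation (a * ρ ^ i) = 1 → i = 0)
    {y : IsLocalRing.ResidueField O} (hy : y ∉ rbar l O) {z : L} (hz : z ≠ 0) :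
    ∃ N : ℕ, 0 < N ∧ ∃ c ∈ l, c ≠ 0 ∧ ∃ a : ℤ, O.valuation (z ^ N * c * ρ ^ a) = 1 := by
  classical
  have hB : Indp (rbar l O) {y} := by
    rw [ab_indp_iff]
    intro S hS v hv hvS h
    rw [Finset.mem_singleton] at hv
    subst hv
    have h1 : S = ∅ := by
      rcases Finset.subset_singleton_iff.1 hS with h | h
      · exact h
      · rw [h] at hvS
        exact absurd (Finset.mem_singleton_self _) hvS
    rw [h1, gs0_empty] at h
    exact hy (RAC_of_isAlgClosed _ (rbar_ac hl O) v h)
  obtain ⟨B', hcard, hind, -, hV, -⟩ := ab_chain l hB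
  have hXn := ab_pow_ne (O := O) hρ
  obtain ⟨hXB, hind'⟩ := ab_insert hind hV hρ0 hXn
  have halg := ab_basis htd hind' (by
    rw [Finset.card_insert_of_notMem hXB, hcard, Finset.card_singleton])
  have : FiniteDimensional (gs0 l (insert ρ B'))
      (IntermediateField.adjoin (gs0 l (insert ρ B')) {z}) :=
    IntermediateField.adjoin.finiteDimensional (halg z).isIntegral
  obtain ⟨c, hc, hc0, hcv⟩ := ab_pow (O := O)
    (IntermediateField.adjoin (gs0 l (insert ρ B')) {z})
    (IntermediateField.mem_adjoin_simple_self _ z) hz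
  rw [gs0_insert] at hc
  obtain ⟨c1, hc1, hc10, i, hi, -⟩ := ab_mono hρ0 (hV.ne hXn) hc hc0
  obtain ⟨d, hd, hd0, hdv⟩ := hV c1 hc1 hc10
  refine ⟨_, Nat.factorial_pos (Module.finrank (gs0 l (insert ρ B'))
    (IntermediateField.adjoin (gs0 l (insert ρ B')) {z})), d⁻¹, inv_mem hd, inv_ne_zero hd0, i, ?_⟩
  have h1 : c * d⁻¹ * ρ ^ i = (c * c1 * ρ ^ i) * (c1 * d)⁻¹ := by
    have := zpow_ne_zero i hρ0
    field_simp
  rw [map_mul, map_mul, map_pow, hcv, ← map_mul, ← map_mul, h1, map_mul, hi, map_inv₀, hdv,
    inv_one, one_mul]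

end Vale.Agent.P019P
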