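import Vale.Agent.P019R.R5b
import Vale.Agent.P019.Indep

/-!
# Two independent elements of a field of transcendence degree two
-/

namespace Vale.Agent.P019P

open Vale.Agent.P019

set_option linter.unusedSectionVars false

variable {L : Type*} [Field L] {l : Subfield L}

theorem r6c_not_alg {ι : Type*} {f : ι → L} (h : AlgebraicIndependent l f) {s : Set ι} {i : ι}
    (hi : i ∉ s) {S : Finset L} (hS : (S : Set L) = f '' s) : ¬ IsAlgebraic (gsp l S) (f i) := by
  intro h1
  refine h.transcendental_adjoin hi ?_
  rw [← hS]
  exact (Vale.Agent.P019.isAlgebraic_adjoin_iff' l (S : Set L) (f i)).2 (isAlgebraic_pf.1 h1)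

theorem r6c_indp [PerfectField L] [DecidableEq L] {x y : L} (h : AlgebraicIndependent l ![x, y]) :
    Indp l {x, y} := by
  have hx : ¬ IsAlgebraic (gsp l {y}) x :=
    r6c_not_alg h (s := {1}) (i := 0) (by decide) (by simp)
  have hy : ¬ IsAlgebraic (gsp l {x}) y :=
    r6c_not_alg h (s := {0}) (i := 1) (by decide) (by simp)
  intro S hS v hv hvS hal
  rcases Finset.mem_insert.1 hv with rfl | hv
  · refine hx (isAlgebraic_mono (gsp_mono l fun z hz => ?_) hal)
    rcases Finset.mem_insert.1 (hS hz) with rfl | hz'
    · exact absurd hz hvS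
    · exact hz'
  · rw [Finset.mem_singleton] at hv
    subst hv
    refine hy (isAlgebraic_mono (gsp_mono l fun z hz => ?_) hal)
    rcases Finset.mem_insert.1 (hS hz) with rfl | hz'
    · exact Finset.mem_singleton_self _
    · rw [Finset.mem_singleton] at hz'
      exact absurd (hz' ▸ hz) hvS

/-- two independent elements are a transcendence basis. -/
theorem r6_alg [PerfectField L] [DecidableEq L] (hl : IsAlgClosed l) (htd : Td l 2) {x y : L}
    (h : AlgebraicIndependent l ![x, y]) (z : L) : IsAlgebraic (gsp l {x, y}) z := by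
  by_contra hz
  have h1 := htd.le ((r6c_indp h).insert hz)
  have h2 : z ∉ ({x, y} : Finset L) := fun h3 => hz (isAlgebraic_of_mem (mem_gsp h3))
  have h3 : x ≠ y := fun h3 => by
    have h4 := h.injective (a₁ := (0 : Fin 2)) (a₂ := 1) h3
    exact absurd h4 (by decide)
  rw [Finset.card_insert_of_notMem h2, Finset.card_pair h3] at h1
  omega

end Vale.Agent.P019P
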