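import Vale.Agent.P019R.R1b
import Vale.Agent.P019R.R2
import Vale.Agent.P019R.R6a
import Vale.Agent.P019R.R6c
import Vale.Agent.P019R.RsP
import Vale.Agent.P019R.MonH
import Vale.Agent.P019Q.ResB
import Vale.Agent.P019.Asm1

/-!
# The composite of an Abhyankar valuation with a place of its residue curve
-/

namespace Vale.Agent.P019P

open Vale.Agent.P019

set_option linter.style.haveILetI false
set_option linter.unusedSectionVars false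
set_option linter.unusedVariables false

open Polynomial Filter

section comP

variable {K : Type*} [Field K] {W : ValuationSubring K} {Q : ValuationSubring (RFP W)} {z : K}

theorem r6_rsP_inv {x : K} (hx : W.valuation x = 1) : rsP W x⁻¹ = (rsP W x)⁻¹ := by
  unfold rsP
  rw [rs_inv hx, map_inv₀]

theorem r6_rsP_zpow {x : K} (hx : W.valuation x = 1) (n : ℤ) : rsP W (x ^ n) = rsP W x ^ n := by
  have h1 : ∀ m : ℕ, rsP W (x ^ m) = rsP W x ^ m := fun m => rsP_pow (mem_of_val hx) m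
  obtain ⟨m, rfl | rfl⟩ := n.eq_nat_or_neg
  · rw [zpow_natCast, zpow_natCast, h1]
  · rw [zpow_neg, zpow_neg, zpow_natCast, zpow_natCast, r6_rsP_inv, h1]
    rw [map_pow, hx, one_pow]

theorem comP_one : (comP W Q).valuation z = 1 ↔
    W.valuation z = 1 ∧ Q.valuation (rsP W z) = 1 := by
  constructor
  · intro h
    obtain ⟨h0, h1, h2⟩ := apc_val_one.1 h
    rw [mem_comP] at h1 h2
    have h3 : W.valuation z = 1 := apc_val_one.2 ⟨h0, h1.1, h2.1⟩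
    refine ⟨h3, apc_val_one.2 ⟨(rsP_ne_zero h1.1).2 h3, h1.2, ?_⟩⟩
    rw [← r6_rsP_inv h3]
    exact h2.2
  · rintro ⟨h3, h4⟩
    obtain ⟨h0, h1, h2⟩ := apc_val_one.1 h3
    obtain ⟨-, h5, h6⟩ := apc_val_one.1 h4
    refine apc_val_one.2 ⟨h0, mem_comP.2 ⟨h1, h5⟩, mem_comP.2 ⟨h2, ?_⟩⟩
    rwa [r6_rsP_inv h3]

theorem comP_lt : (comP W Q).valuation z < 1 ↔ z ∈ W ∧ Q.valuation (rsP W z) < 1 := by
  have h1 : (comP W Q).valuation z < 1 ↔ z ∈ comP W Q ∧ ¬ (comP W Q).valuation z = 1 := by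
    rw [← (comP W Q).valuation_le_one_iff]
    exact lt_iff_le_and_ne
  rw [h1, comP_one, mem_comP]
  constructor
  · rintro ⟨⟨h2, h3⟩, h4⟩
    refine ⟨h2, lt_of_le_of_ne ((Q.valuation_le_one_iff _).2 h3) fun h5 => h4 ⟨?_, h5⟩⟩
    rw [← rsP_ne_zero h2]
    intro h6
    rw [h6, map_zero] at h5
    exact zero_ne_one h5
  · rintro ⟨h2, h3⟩
    exact ⟨⟨h2, (Q.valuation_le_one_iff _).1 h3.le⟩, fun h4 => h3.ne h4.2⟩

theorem comP_le (h : (comP W Q).valuation z ≤ 1) : W.valuation z ≤ 1 :=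
  (W.valuation_le_one_iff _).2 (mem_comP.1 (((comP W Q).valuation_le_one_iff _).1 h)).1

theorem comP_lt_of_lt (h : W.valuation z < 1) : (comP W Q).valuation z < 1 := by
  have h1 : z ∈ W := (W.valuation_le_one_iff _).1 h.le
  rw [comP_lt]
  refine ⟨h1, ?_⟩
  rw [(rsP_eq_zero h1).2 h, map_zero]
  exact zero_lt_one

end comP

universe u

variable {L : Type u} [Field L] [PerfectField L] {l : Subfield L}

/-- the values modulo `UC` and the values of `ρ`. -/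
theorem r6_val (hl : IsAlgClosed l) (htd : Td l 2) {ℓ : ℕ} [Fact ℓ.Prime] {O : ValuationSubring L}
    {o : V ℓ L →ₗ[ZMod ℓ] ZMod ℓ} (ho : ∀ v, o v = 0 ↔ v ∈ UC ℓ O) {ρ : L} (hρ0 : ρ ≠ 0)
    (hoρ : o (cl ℓ ρ) ≠ 0)
    (hρ : ∀ a ∈ l, a ≠ 0 → ∀ i : ℤ, O.valuation (a * ρ ^ i) = 1 → i = 0)
    {y : IsLocalRing.ResidueField O} (hy : y ∉ rbar l O) {z : L} (hz : z ≠ 0) :
    ∃ N : ℕ, ¬ ℓ ∣ N ∧ ∃ c ∈ l, c ≠ 0 ∧ ∃ a : ℤ, O.valuation (z ^ N * c * ρ ^ a) = 1 := by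
  classical
  have hℓ : 0 < ℓ := (Fact.out : ℓ.Prime).pos
  have hex : ∃ N : ℕ, 0 < N ∧ ∃ c ∈ l, c ≠ 0 ∧ ∃ a : ℤ, O.valuation (z ^ N * c * ρ ^ a) = 1 :=
    r6_tors hl htd hρ0 hρ hy hz
  set N := Nat.find hex with hN
  obtain ⟨hN0, c, hc, hc0, a, h1⟩ := Nat.find_spec hex
  have hmin := fun m (hm : m < N) => Nat.find_min hex hm
  refine ⟨N, fun hdvd => ?_, c, hc, hc0, a, h1⟩
  obtain ⟨N', hN'⟩ := hdvd
  have hN'0 : 0 < N' := Nat.pos_of_ne_zero fun h0 => by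
    rw [h0, mul_zero] at hN'
    omega
  have hℓ2 : 2 ≤ ℓ := (Fact.out : ℓ.Prime).two_le
  have hlt : N' < N := by
    rw [hN']
    nlinarith
  -- `ℓ` does not divide `a`
  have ha : ¬ (ℓ : ℤ) ∣ a := by
    rintro ⟨a', ha'⟩
    haveI := hl
    obtain ⟨d', hd'⟩ := IsAlgClosed.exists_pow_nat_eq (⟨c, hc⟩ : l) hℓ
    have hd'' : (d' : L) ^ ℓ = c := congrArg Subtype.val hd'
    have hd0 : (d' : L) ≠ 0 := by
      intro h0
      rw [h0, zero_pow hℓ.ne'] at hd''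
      exact hc0 hd''.symm
    apply hmin N' hlt
    refine ⟨hN'0, d', d'.2, hd0, a', ?_⟩
    have h2 : (z ^ N' * d' * ρ ^ a') ^ ℓ = z ^ N * c * ρ ^ a := by
      rw [mul_pow, mul_pow, ← pow_mul, hd'', hN', ha', mul_comm N' ℓ, zpow_mul', zpow_natCast]
    have h3 : O.valuation (z ^ N' * d' * ρ ^ a') ^ ℓ = 1 := by
      rw [← map_pow, h2]
      exact h1
    exact (pow_eq_one_iff_of_nonneg zero_le hℓ.ne').1 h3
  -- the functional
  have h2 : o (cl ℓ (z ^ N * c * ρ ^ a)) = 0 := (ho _).2 (mem_UC.2 ⟨_, h1, rfl⟩)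
  have h3 : cl ℓ (z ^ N * c * ρ ^ a) = (N : ZMod ℓ) • cl ℓ z + (a : ZMod ℓ) • cl ℓ ρ := by
    rw [cl_mul ℓ (mul_ne_zero (pow_ne_zero _ hz) hc0) (zpow_ne_zero _ hρ0),
      cl_mul ℓ (pow_ne_zero _ hz) hc0, cl_const hl hℓ hc, add_zero, cl_pow, cl_zpow,
      ← Nat.cast_smul_eq_nsmul (ZMod ℓ), ← Int.cast_smul_eq_zsmul (ZMod ℓ)]
  have h4 : (N : ZMod ℓ) = 0 := (ZMod.natCast_eq_zero_iff _ _).2 ⟨N', hN'⟩
  rw [h3, h4, zero_smul, zero_add, map_smul, smul_eq_mul, mul_eq_zero] at h2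
  rcases h2 with h2 | h2
  · exact ha ((ZMod.intCast_zmod_eq_zero_iff_dvd _ _).1 h2)
  · exact hoρ h2

/-- a uniformizer of a place of the residue curve. -/
theorem r6_unif {O : ValuationSubring L} {ℓ : ℕ} [Fact ℓ.Prime] (hOℓ : O.valuation (ℓ : L) = 1)
    (hCv : Cv (rbarP l O)) {Q : ValuationSubring (RFP O)} (hQ : Q ∈ Plc (rbarP l O)) :
    ∃ ϖ : L, O.valuation ϖ = 1 ∧ Q.valuation (rsP O ϖ) < 1 ∧ ∀ x : RFP O, x ≠ 0 →
      ∃ N : ℕ, ¬ ℓ ∣ N ∧ ∃ b : ℤ, Q.valuation (x ^ N * rsP O ϖ ^ b) = 1 := by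
  haveI : NeZero (ℓ : RFP O) := rfp_neZero hOℓ
  obtain ⟨⟨π, hπ⟩, -⟩ := hCv.place hQ
  obtain ⟨m₀, y₀, hy₀⟩ := rf_pow O π
  obtain ⟨ϖ, hϖO, rfl⟩ := rs_surj y₀
  have hchar : ringExpChar (IsLocalRing.ResidueField O) = ringExpChar (RFP O) := by
    haveI : ExpChar (RFP O) (ringExpChar (IsLocalRing.ResidueField O)) :=
      expChar_of_injective_ringHom (rf O).injective _
    exact (ringExpChar.eq _ _).symm
  have hrs : rsP O ϖ = π ^ ringExpChar (RFP O) ^ m₀ := by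
    rw [← hchar]
    exact hy₀
  have hϖ1 : O.valuation ϖ = 1 := by
    rw [← rsP_ne_zero hϖO, hrs]
    exact pow_ne_zero _ hπ.ne
  refine ⟨ϖ, hϖ1, ?_, fun x hx => ?_⟩
  · rw [hrs, map_pow]
    exact pow_lt_one₀ zero_le hπ.lt (qpow_pos _ _).ne'
  · obtain ⟨m, b, h1⟩ := hπ.rep x hx
    refine ⟨ringExpChar (RFP O) ^ (m + m₀), fun h2 =>
      q_pow_ne_zero ℓ (RFP O) (m + m₀) ((ZMod.natCast_eq_zero_iff _ _).2 h2), b, ?_⟩
    have h2 : x ^ ringExpChar (RFP O) ^ (m + m₀) * rsP O ϖ ^ b =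
        (x ^ ringExpChar (RFP O) ^ m * π ^ b) ^ ringExpChar (RFP O) ^ m₀ := by
      rw [mul_pow, ← pow_mul, ← pow_add, hrs, ← zpow_natCast (π ^ b), ← zpow_mul,
        ← zpow_natCast π, ← zpow_mul, mul_comm b]
    rw [h2, map_pow, h1, one_pow]

/-- for every place `Q` of the residue curve of `O`, trivial on the residues of `l`, there is a
family of valuation rings of `L` with functionals, with limit `comP O Q`. -/
theorem appr_main (hl : IsAlgClosed l) (hfg : FG l (⊤ : Subfield L)) (htd : Td l 2) {ℓ : ℕ}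
    [Fact ℓ.Prime] [NeZero (ℓ : L)] {O : ValuationSubring L} (hOℓ : O.valuation (ℓ : L) = 1)
    (hCv : Cv (rbarP l O)) {o : V ℓ L →ₗ[ZMod ℓ] ZMod ℓ} (ho : ∀ v, o v = 0 ↔ v ∈ UC ℓ O)
    (hone : o ≠ 0) {Q : ValuationSubring (RFP O)} (hQ : Q ∈ Plc (rbarP l O)) :
    ∃ (J : Type u) (𝒱 : Ultrafilter J) (Qn : J → ValuationSubring L)
      (qn : J → V ℓ L →ₗ[ZMod ℓ] ZMod ℓ) (ϖ : L),
      O.valuation ϖ = 1 ∧ Q.valuation (rsP O ϖ) < 1 ∧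
      (∀ z ∈ comP O Q, ∀ᶠ j in 𝒱, z ∈ Qn j) ∧
      ∀ᶠ j in 𝒱, (∀ z, (Qn j).valuation z = 1 → qn j (cl ℓ z) = 0) ∧ qn j (cl ℓ ϖ) = 1 ∧
        ∃ g₀ : L, ∀ i j' : ZMod ℓ, i • cl ℓ g₀ + j' • cl ℓ (1 - g₀) ∈ U1 ℓ (Qn j) →
          i = 0 ∧ j' = 0 := by
  classical
  haveI : NeZero (ℓ : RFP O) := rfp_neZero hOℓ
  have hℓ : 0 < ℓ := (Fact.out : ℓ.Prime).pos
  obtain ⟨ρ, hρ0, hoρ⟩ : ∃ ρ : L, ρ ≠ 0 ∧ o (cl ℓ ρ) ≠ 0 := by
    by_contra hcon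
    push Not at hcon
    apply hone
    refine LinearMap.ext fun v => ?_
    obtain ⟨z, hz, rfl⟩ := cl_surj ℓ v
    exact hcon z hz
  have hρ := not_torsion hl (ℓ := ℓ) (O := O) hρ0 fun h => hoρ ((ho _).2 h)
  obtain ⟨y, hy⟩ : ∃ y : IsLocalRing.ResidueField O, y ∉ rbar l O := by
    obtain ⟨x, hx, -⟩ := hCv.ex
    obtain ⟨m, y, hy⟩ := rf_pow O x
    refine ⟨y, fun h => hx ?_⟩
    rw [← rf_mem_rbarP, hy] at h
    haveI : PerfectField (rbarP l O) := perfect_of_RAC (RAC_of_isAlgClosed _ hCv.ac)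
    have hchar : ringExpChar (IsLocalRing.ResidueField O) = ringExpChar (RFP O) := by
      haveI : ExpChar (RFP O) (ringExpChar (IsLocalRing.ResidueField O)) :=
        expChar_of_injective_ringHom (rf O).injective _
      exact (ringExpChar.eq _ _).symm
    rw [hchar] at h
    exact mem_of_pow_q h
  obtain ⟨ϖ, hϖ1, hϖQ, hϖ⟩ := r6_unif hOℓ hCv hQ
  have hϖ0 : ϖ ≠ 0 := by
    rintro rfl
    rw [map_zero] at hϖ1
    exact zero_ne_one hϖ1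
  set w := comP O Q with hw
  have hplt : w.valuation ϖ < 1 := comP_lt.2 ⟨mem_of_val hϖ1, hϖQ⟩
  have hconst : ∀ c ∈ l, O.valuation c = 1 → w.valuation c = 1 := by
    intro c hc h1
    have h2 : rsP O c ∈ rbarP l O := mem_rbarP.2 ⟨c, hc, mem_of_val h1, rfl⟩
    exact comP_one.2 ⟨h1, hQ.1.eq_one h2 ((rsP_ne_zero (mem_of_val h1)).2 h1)⟩
  have hmon : Mon l w ρ ϖ := by
    refine ⟨hρ0, hϖ0, hplt, fun c hc hc0 a h1 b => ?_, fun c hc hc0 a h1 => ?_⟩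
    · have h2 : O.valuation (c * ρ ^ a) < 1 := by
        refine lt_of_le_of_ne (comP_le h1.le) fun h3 => ?_
        have h4 := hρ c hc hc0 a h3
        rw [h4, zpow_zero, mul_one] at h1 h3
        exact h1.ne (hconst c hc h3)
      have h3 : O.valuation (c * ρ ^ a * ϖ ^ (-b)) < 1 := by
        rw [map_mul, map_zpow₀, hϖ1, one_zpow, mul_one]
        exact h2
      have h4 : w.valuation (c * ρ ^ a * ϖ ^ (-b)) < 1 := comP_lt_of_lt h3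
      rw [map_mul, map_zpow₀, zpow_neg, ← div_eq_mul_inv, div_lt_one₀] at h4
      · exact h4
      · exact zpow_pos (zero_lt_iff.2 ((_root_.map_ne_zero _).2 hϖ0)) _
    · exact hρ c hc hc0 a (comP_one.1 h1).1
  have hind := hmon.indep (c₀ := 1) l.one_mem one_ne_zero 0
  rw [zpow_zero, mul_one, inv_one, mul_one] at hind
  have halg : ∀ z : L, IsAlgebraic (gsp l {ρ, ϖ}) z := r6_alg hl htd hind
  have hres : ∀ z : L, w.valuation z = 1 → ∃ c ∈ l, w.valuation (z - c) < 1 := by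
    intro z hz
    obtain ⟨h1, h2⟩ := comP_one.1 hz
    obtain ⟨-, h3⟩ := hCv.place hQ
    obtain ⟨c', hc', h4⟩ := (mem_bar hQ.1).1 (h3 (rs Q (rsP O z)))
    obtain ⟨c, hc, hcO, rfl⟩ := mem_rbarP.1 hc'
    refine ⟨c, hc, comP_lt.2 ⟨sub_mem (mem_of_val h1) hcO, ?_⟩⟩
    rw [rsP_sub (mem_of_val h1) hcO]
    rw [eq_comm, rs_eq (mem_of_val h2) (hQ.1 _ hc')] at h4
    exact h4
  have hval : ∀ z : L, z ≠ 0 → ∃ m : ℕ, ¬ ℓ ∣ m ∧ ∃ c ∈ l, c ≠ 0 ∧ ∃ a b : ℤ,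
      w.valuation (z ^ m * c * ρ ^ a * ϖ ^ b) = 1 := by
    intro z hz
    obtain ⟨N, hN, c, hc, hc0, a, h1⟩ := r6_val hl htd ho hρ0 hoρ hρ hy hz
    obtain ⟨N₂, hN₂, b, h2⟩ := hϖ _ ((rsP_ne_zero (mem_of_val h1)).2 h1)
    refine ⟨N * N₂, ?_, c ^ N₂, l.pow_mem hc _, pow_ne_zero _ hc0, a * N₂, b, ?_⟩
    · rw [(Fact.out : ℓ.Prime).dvd_mul]
      exact not_or.2 ⟨hN, hN₂⟩
    · have h3 : z ^ (N * N₂) * c ^ N₂ * ρ ^ (a * N₂) * ϖ ^ b =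
          (z ^ N * c * ρ ^ a) ^ N₂ * ϖ ^ b := by
        rw [mul_pow, mul_pow, ← pow_mul, zpow_mul, zpow_natCast]
      rw [h3]
      refine comP_one.2 ⟨?_, ?_⟩
      · rw [map_mul, map_pow, h1, one_pow, one_mul, map_zpow₀, hϖ1, one_zpow]
      · rw [rsP_mul (pow_mem (mem_of_val h1) _) (mem_of_val (by
          rw [map_zpow₀, hϖ1, one_zpow])), rsP_pow (mem_of_val h1), r6_rsP_zpow hϖ1]
        exact h2
  have hwℓ : w.valuation (ℓ : L) = 1 := hconst _ (natCast_mem l ℓ) hOℓ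
  obtain ⟨U, Qn, qn, h1, h2⟩ := appr_mon hl hfg hmon halg hres hval hwℓ
  exact ⟨_, U, Qn, qn, ϖ, hϖ1, hϖQ, fun z hz => (h1 z).1 hz, h2⟩

end Vale.Agent.P019P
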