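import Vale.Agent.P019R.R1b

/-!
# Independent classes `x, 1 - x`
-/

namespace Vale.Agent.P019P

open Vale.Agent.P019

set_option linter.style.haveILetI false
set_option linter.unusedSectionVars false
set_option linter.unusedVariables false

open Polynomial Filter

/-- a nonconstant of a function field has two independent classes of translates. -/
theorem r7a_indep {F : Type*} [Field F] [PerfectField F] {ℓ : ℕ} [Fact ℓ.Prime]
    [NeZero (ℓ : F)] {k : Subfield F} (hk : IsAlgClosed k) (hfg : FG k (⊤ : Subfield F)) {x : F}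
    (hx : x ∉ k) : ∃ b₁ ∈ k, ∃ b₂ ∈ k, b₁ ≠ b₂ ∧
      ∀ i j : ZMod ℓ, i • cl ℓ (x - b₁) + j • cl ℓ (x - b₂) = 0 → i = 0 ∧ j = 0 := by
  have hinf : {c : F | c ∈ k}.Infinite := infinite_of_isAlgClosed hk
  -- the first constant
  obtain ⟨b₁, hb₁, hne⟩ : ∃ b₁ ∈ k, cl ℓ (x - b₁) ≠ 0 := by
    by_contra hcon
    push Not at hcon
    exact hinf ((dist_top (ℓ := ℓ) hk hfg hx 0).subset fun c hc => ⟨hc, hcon c hc⟩)
  -- the second constant
  obtain ⟨b₂, hb₂, hn2⟩ : ∃ b₂ ∈ k, cl ℓ (x - b₂) ∉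
      Set.range fun a : ZMod ℓ => a • cl ℓ (x - b₁) := by
    by_contra hcon
    push Not at hcon
    refine hinf ((Set.finite_iUnion fun a : ZMod ℓ =>
      dist_top (ℓ := ℓ) hk hfg hx (a • cl ℓ (x - b₁))).subset fun c hc => ?_)
    obtain ⟨a, ha⟩ := hcon c hc
    exact Set.mem_iUnion.2 ⟨a, hc, ha.symm⟩
  have hb : b₁ ≠ b₂ := by
    rintro rfl
    exact hn2 ⟨1, one_smul _ _⟩
  refine ⟨b₁, hb₁, b₂, hb₂, hb, fun i j h => ?_⟩
  have hj : j = 0 := by
    by_contra hj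
    refine hn2 ⟨-(j⁻¹ * i), ?_⟩
    have h1 : j⁻¹ • (i • cl ℓ (x - b₁) + j • cl ℓ (x - b₂)) = 0 := by rw [h, smul_zero]
    rw [smul_add, smul_smul, smul_smul, inv_mul_cancel₀ hj, one_smul] at h1
    change (-(j⁻¹ * i)) • cl ℓ (x - b₁) = cl ℓ (x - b₂)
    rw [neg_smul]
    exact neg_eq_of_add_eq_zero_right h1
  refine ⟨?_, hj⟩
  rw [hj, zero_smul, add_zero] at h
  by_contra hi
  apply hne
  have h1 : i⁻¹ • (i • cl ℓ (x - b₁)) = 0 := by rw [h, smul_zero]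
  rwa [smul_smul, inv_mul_cancel₀ hi, one_smul] at h1

/-- two independent classes `x, 1 - x` of a function field of one variable. -/
theorem exists_nr1 {F : Type*} [Field F] [PerfectField F] {ℓ : ℕ} [Fact ℓ.Prime]
    [NeZero (ℓ : F)] {k : Subfield F} (h : Cv k) :
    ∃ x : F, ∀ i j : ZMod ℓ, i • cl ℓ x + j • cl ℓ (1 - x) = 0 → i = 0 ∧ j = 0 := by
  have hk := h.ac
  obtain ⟨y, hy, -⟩ := h.ex
  obtain ⟨b₁, hb₁, b₂, hb₂, hb, hind⟩ := r7a_indep (ℓ := ℓ) hk h.fg hy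
  have hyc : ∀ c ∈ k, y - c ≠ 0 := by
    intro c hc h0
    apply hy
    rw [sub_eq_zero.1 h0]
    exact hc
  have hd : b₂ - b₁ ≠ 0 := sub_ne_zero.2 hb.symm
  refine ⟨(y - b₁) / (b₂ - b₁), ?_⟩
  have e1 : cl ℓ ((y - b₁) / (b₂ - b₁)) = cl ℓ (y - b₁) := by
    rw [cl_div ℓ (hyc _ hb₁) hd, line_cl_const hk (k.sub_mem hb₂ hb₁), sub_zero]
  have e2 : cl ℓ (1 - (y - b₁) / (b₂ - b₁)) = cl ℓ (y - b₂) := by
    have h3 : 1 - (y - b₁) / (b₂ - b₁) = (-(y - b₂)) / (b₂ - b₁) := by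
      field_simp
      ring
    rw [h3, cl_div ℓ (neg_ne_zero.2 (hyc _ hb₂)) hd, line_cl_const hk (k.sub_mem hb₂ hb₁),
      sub_zero, finB_cl_neg hk]
  rw [e1, e2]
  exact hind

theorem r7a_rsP_mul {K : Type*} [Field K] {W : ValuationSubring K} {x y : K} (hx : x ∈ W)
    (hy : y ∈ W) : rsP W (x * y) = rsP W x * rsP W y := by
  unfold rsP
  rw [rs_mul hx hy, map_mul]

theorem r7a_rsP_pow {K : Type*} [Field K] {W : ValuationSubring K} {x : K} (hx : x ∈ W)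
    (n : ℕ) : rsP W (x ^ n) = rsP W x ^ n := by
  unfold rsP
  rw [rs_pow hx, map_pow]

/-- two independent classes `x, 1 - x` in the units of a valuation ring whose residue field is a
curve. -/
theorem exists_nrU {K : Type*} [Field K] {ℓ : ℕ} [Fact ℓ.Prime] {k : Subfield K}
    {W : ValuationSubring K} (hℓ : W.valuation (ℓ : K) = 1) (h : Cv (rbarP k W)) :
    ∃ x : K, ∀ i j : ZMod ℓ, i • cl ℓ x + j • cl ℓ (1 - x) ∈ U1 ℓ W → i = 0 ∧ j = 0 := by
  haveI : NeZero (ℓ : RFP W) := rfp_neZero hℓ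
  obtain ⟨x', hx'⟩ := exists_nr1 (ℓ := ℓ) h
  obtain ⟨m, y, hy⟩ := rf_pow W x'
  obtain ⟨x, hxW, hxy⟩ := rs_surj y
  set q := ringExpChar (IsLocalRing.ResidueField W) with hq
  haveI hexp0 : ExpChar (IsLocalRing.ResidueField W) q := inferInstance
  haveI hexp : ExpChar (RFP W) q := expChar_of_injective_ringHom (rf_injective W) q
  have hq' : ringExpChar (RFP W) = q := ringExpChar.eq (RFP W) q
  have hqm : ((q ^ m : ℕ) : ZMod ℓ) ≠ 0 := by
    rw [← hq']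
    exact q_pow_ne_zero ℓ (RFP W) m
  -- the classes of `x'` and `1 - x'` are nonzero
  have hx0 : x' ≠ 0 := by
    rintro rfl
    have := (hx' 1 0 (by rw [cl_zero, smul_zero, zero_smul, add_zero])).1
    exact one_ne_zero this
  have hx1 : 1 - x' ≠ 0 := by
    intro h0
    have := (hx' 0 1 (by rw [h0, cl_zero, smul_zero, zero_smul, add_zero])).2
    exact one_ne_zero this
  have hxr : rsP W x = x' ^ q ^ m := by rw [rsP, hxy, hy]
  have hxr1 : rsP W (1 - x) = (1 - x') ^ q ^ m := by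
    rw [rsP, rs_sub (one_mem W) hxW, rs_one, map_sub, map_one, hxy, hy, sub_pow_expChar_pow,
      one_pow]
  have hv : ∀ z ∈ W, rsP W z ≠ 0 → W.valuation z = 1 := by
    intro z hz hne
    apply le_antisymm ((W.valuation_le_one_iff z).2 hz)
    by_contra hcon
    push Not at hcon
    apply hne
    rw [rsP, (rs_eq_zero hz).2 hcon, map_zero]
  have h1xW : 1 - x ∈ W := sub_mem (one_mem W) hxW
  have hvx : W.valuation x = 1 := hv x hxW (by rw [hxr]; exact pow_ne_zero _ hx0)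
  have hv1x : W.valuation (1 - x) = 1 := hv _ h1xW (by rw [hxr1]; exact pow_ne_zero _ hx1)
  have hx0' : x ≠ 0 := by
    rintro rfl
    rw [map_zero] at hvx
    exact zero_ne_one hvx
  have h1x0' : 1 - x ≠ 0 := by
    intro h0
    rw [h0, map_zero] at hv1x
    exact zero_ne_one hv1x
  refine ⟨x, fun i j hij => ?_⟩
  have hsm : ∀ (G : Type _) [Field G] (a : ZMod ℓ) (z : G), a • cl ℓ z = cl ℓ (z ^ a.val) := by
    intro G _ a z
    rw [cl_pow, ← Nat.cast_smul_eq_nsmul (ZMod ℓ), ZMod.natCast_zmod_val]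
  have hprod : i • cl ℓ x + j • cl ℓ (1 - x) = cl ℓ (x ^ i.val * (1 - x) ^ j.val) := by
    rw [cl_mul ℓ (pow_ne_zero _ hx0') (pow_ne_zero _ h1x0'), hsm, hsm]
  rw [hprod] at hij
  have hval : W.valuation (x ^ i.val * (1 - x) ^ j.val) = 1 := by
    rw [map_mul, map_pow, map_pow, hvx, hv1x, one_pow, one_pow, one_mul]
  have h2 := (rfp_cl_zero hℓ hval).2 hij
  rw [r7a_rsP_mul (pow_mem hxW _) (pow_mem h1xW _), r7a_rsP_pow hxW, r7a_rsP_pow h1xW, hxr,
    hxr1, cl_mul ℓ (pow_ne_zero _ (pow_ne_zero _ hx0)) (pow_ne_zero _ (pow_ne_zero _ hx1)),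
    ← hsm, ← hsm, cl_pow, cl_pow, ← Nat.cast_smul_eq_nsmul (ZMod ℓ),
    ← Nat.cast_smul_eq_nsmul (ZMod ℓ), smul_comm i, smul_comm j, ← smul_add] at h2
  have h3 : i • cl ℓ x' + j • cl ℓ (1 - x') = 0 := by
    have h4 : ((q ^ m : ℕ) : ZMod ℓ)⁻¹ • (((q ^ m : ℕ) : ZMod ℓ) •
        (i • cl ℓ x' + j • cl ℓ (1 - x'))) = 0 := by rw [h2, smul_zero]
    rwa [smul_smul, inv_mul_cancel₀ hqm, one_smul] at h4
  exact hx' i j h3

end Vale.Agent.P019P
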