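import Vale.Agent.P019R.R1b
import Vale.Agent.P019R.R6
import Vale.Agent.P019R.R7a
import Vale.Agent.P019.Vmap

/-!
# Transfer of places
-/

namespace Vale.Agent.P019P

open Vale.Agent.P019

set_option linter.style.haveILetI false
set_option linter.unusedSectionVars false
set_option linter.unusedVariables false

open Polynomial Filter

section r7

variable {F : Type*} [Field F] {ℓ : ℕ} [Fact ℓ.Prime]

theorem r7_neZero {W : ValuationSubring F} (h : W.valuation (ℓ : F) = 1) :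
    NeZero (ℓ : IsLocalRing.ResidueField W) := by
  haveI := rfp_neZero h
  refine ⟨fun h0 => ?_⟩
  have h1 := congrArg (rf W) h0
  rw [map_natCast, map_zero] at h1
  exact NeZero.ne (ℓ : RFP W) h1

/-- functionals killing `U1` induce functionals on the classes of the perfect closure of the
residue field. -/
theorem r7_ind {W : ValuationSubring F} (hℓ : W.valuation (ℓ : F) = 1)
    (g : V ℓ F →ₗ[ZMod ℓ] ZMod ℓ) (hg : ∀ v ∈ U1 ℓ W, g v = 0) :
    ∃ h : V ℓ (RFP W) →ₗ[ZMod ℓ] ZMod ℓ,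
      ∀ z : F, W.valuation z = 1 → h (cl ℓ (rsP W z)) = g (cl ℓ z) := by
  obtain ⟨h, hh⟩ := apc_exists_ind W g hg
  have hsurj : Function.Surjective (Vmap ℓ (rf W)) := by
    intro v
    obtain ⟨z, hz, rfl⟩ := rfp_cl hℓ v
    exact ⟨cl ℓ (rs W z), Vmap_cl ℓ _ _⟩
  obtain ⟨s, hs⟩ := LinearMap.exists_rightInverse_of_surjective (Vmap ℓ (rf W))
    (LinearMap.range_eq_top.2 hsurj)
  have hker : ∀ x : V ℓ (IsLocalRing.ResidueField W), Vmap ℓ (rf W) x = 0 → h x = 0 := by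
    intro x hx
    obtain ⟨c, hc0, rfl⟩ := cl_surj ℓ x
    obtain ⟨z, hz, rfl⟩ := rs_surj c
    have hz1 : W.valuation z = 1 := (rs_ne_zero hz).1 hc0
    rw [Vmap_cl] at hx
    rw [hh z hz1]
    exact hg _ ((rfp_cl_zero hℓ hz1).1 hx)
  refine ⟨h ∘ₗ s, fun z hz => ?_⟩
  have h1 : Vmap ℓ (rf W) (s (cl ℓ (rsP W z)) - cl ℓ (rs W z)) = 0 := by
    rw [map_sub, Vmap_cl, sub_eq_zero]
    exact LinearMap.congr_fun hs _
  have h2 := hker _ h1
  rw [map_sub, sub_eq_zero] at h2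
  rw [LinearMap.comp_apply, h2, hh z hz]

/-- a functional on the classes of the perfect closure of the residue field kills the units of
a valuation ring if it kills the classes of the units which are residues. -/
theorem r7_units {W : ValuationSubring F} (hℓ : W.valuation (ℓ : F) = 1)
    {h : V ℓ (RFP W) →ₗ[ZMod ℓ] ZMod ℓ} {P : ValuationSubring (RFP W)}
    (h1 : ∀ z : F, W.valuation z = 1 → P.valuation (rsP W z) = 1 → h (cl ℓ (rsP W z)) = 0)
    (c : RFP W) (hc : P.valuation c = 1) : h (cl ℓ c) = 0 := by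
  haveI := r7_neZero hℓ
  obtain ⟨m, y, hy⟩ := rf_pow W c
  obtain ⟨z, hz, rfl⟩ := rs_surj y
  have hc' : P.valuation (rf W (rs W z)) = 1 := by rw [hy, map_pow, hc, one_pow]
  have hz1 : W.valuation z = 1 := by
    refine (rs_ne_zero hz).1 fun h0 => ?_
    rw [h0, map_zero, map_zero] at hc'
    exact zero_ne_one hc'
  have h2 := h1 z hz1 hc'
  rw [rsP, hy, cl_pow, map_nsmul, ← Nat.cast_smul_eq_nsmul (ZMod ℓ), smul_eq_mul,
    mul_eq_zero] at h2
  exact h2.resolve_left (q_pow_ne_zero ℓ _ m)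

theorem r7_rsP_inv {W : ValuationSubring F} {z : F} (hz : W.valuation z = 1) :
    rsP W z⁻¹ = (rsP W z)⁻¹ := by
  rw [rsP, rs_inv hz, map_inv₀]
  rfl

/-- units of the composite ring. -/
theorem r7_comP_unit {W : ValuationSubring F} {P : ValuationSubring (RFP W)} {z : F}
    (hz : W.valuation z = 1) (hz' : P.valuation (rsP W z) = 1) :
    (comP W P).valuation z = 1 := by
  obtain ⟨h0, h1, h2⟩ := apc_val_one.1 hz
  obtain ⟨-, h3, h4⟩ := apc_val_one.1 hz'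
  exact apc_val_one.2 ⟨h0, mem_comP.2 ⟨h1, h3⟩, mem_comP.2 ⟨h2, by rwa [r7_rsP_inv hz]⟩⟩

/-- ultralimit of functionals. -/
theorem r7_ulim {J M : Type*} [AddCommGroup M] [Module (ZMod ℓ) M] (𝒱 : Ultrafilter J)
    (f : J → M →ₗ[ZMod ℓ] ZMod ℓ) :
    ∃ g : M →ₗ[ZMod ℓ] ZMod ℓ, ∀ v, ∀ᶠ n in (𝒱 : Filter J), f n v = g v := by
  haveI : NeZero ℓ := ⟨(Fact.out : ℓ.Prime).ne_zero⟩
  choose g hg using fun v : M => Vale.Agent.P019R.ext_const 𝒱 fun n => f n v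
  refine ⟨{ toFun := g, map_add' := ?_, map_smul' := ?_ }, hg⟩
  · intro v w
    obtain ⟨n, hn, hn1, hn2⟩ := ((hg (v + w)).and ((hg v).and (hg w))).exists
    rw [← hn, ← hn1, ← hn2, map_add]
  · intro c v
    obtain ⟨n, hn, hn1⟩ := ((hg (c • v)).and (hg v)).exists
    rw [← hn, ← hn1, map_smul, RingHom.id_apply]

theorem r7_extLim_unit {J : Type*} {𝒱 : Ultrafilter J} {O : J → ValuationSubring F} {z : F}
    (hz : (Vale.Agent.P019R.extLim 𝒱 O).valuation z = 1) :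
    ∀ᶠ n in (𝒱 : Filter J), (O n).valuation z = 1 := by
  obtain ⟨h0, h1, h2⟩ := apc_val_one.1 hz
  filter_upwards [Vale.Agent.P019R.mem_extLim.1 h1, Vale.Agent.P019R.mem_extLim.1 h2] with n h3 h4
  exact apc_val_one.2 ⟨h0, h3, h4⟩

/-- the elements of the perfect closure of the residue field which are residues of constants
are roots of unity. -/
theorem r7_fin {k : Subfield F} {W : ValuationSubring F} (h : Fin' (rbar k W)) :
    Fin' (rbarP k W) := by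
  rintro _ ⟨a, ha, rfl⟩ h0
  have ha0 : a ≠ 0 := by
    rintro rfl
    exact h0 (map_zero _)
  obtain ⟨n, hn, h1⟩ := h a ha ha0
  exact ⟨n, hn, by rw [← map_pow, h1, map_one]⟩

end r7

variable {K L : Type*} [Field K] [Field L] [PerfectField K] [PerfectField L] {ℓ : ℕ}
  [Fact ℓ.Prime] [NeZero (ℓ : K)] [NeZero (ℓ : L)] {Θ : V ℓ K ≃ₗ[ZMod ℓ] V ℓ L}

/-- every place of the residue curve of `O` trivial on the residues of `l` comes from a place
of the residue curve of `W`, if the residue field of `k` is algebraic over a finite field. -/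
theorem place_back {k : Subfield K} (hk : IsAlgClosed k)
    {l : Subfield L} (hl : IsAlgClosed l) (hfgl : FG l (⊤ : Subfield L)) (htd : Td l 2)
    (hΘ : Compatible Θ) {W : ValuationSubring K} {f : V ℓ K →ₗ[ZMod ℓ] ZMod ℓ}
    (hW : Adp W f) (hWℓ : W.valuation (ℓ : K) = 1) (hfin : Fin' (rbar k W))
    (hCvW : Cv (rbarP k W)) {O : ValuationSubring L} (hT : TrA Θ W f O)
    (hOℓ : O.valuation (ℓ : L) = 1) (hCvO : Cv (rbarP l O))
    {ΘP : V ℓ (RFP W) ≃ₗ[ZMod ℓ] V ℓ (RFP O)}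
    (hΘP : ResMapP ℓ Θ W O ΘP) {Q : ValuationSubring (RFP O)}
    (hQ : Q ∈ Plc (rbarP l O)) :
    ∃ P ∈ Plc (rbarP k W), ∀ v, ΘP v ∈ UC ℓ Q ↔ v ∈ UC ℓ P := by
  have hnegK : ∃ i : K, i ^ ℓ = -1 := exists_neg hk
  have hnegL : ∃ i : L, i ^ ℓ = -1 := exists_neg hl
  haveI : NeZero (ℓ : RFP W) := rfp_neZero hWℓ
  haveI : NeZero (ℓ : RFP O) := rfp_neZero hOℓ
  obtain ⟨xc, hxc, -⟩ := hCvW.ex
  have hNC : NoCtr ℓ (IsLocalRing.ResidueField W) :=
    noCtr_rfp hWℓ (noCtr hCvW.ac hCvW.fg hxc)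
  have hUC : ∀ v, v ∈ UC ℓ O ↔ f (Θ.symm v) = 0 := fun v =>
    hT.uc hΘ hnegK hnegL hW hNC v
  -- the functional of `O`
  have hone : f ∘ₗ Θ.symm.toLinearMap ≠ 0 := by
    intro h0
    apply hW.ne
    refine LinearMap.ext fun v => ?_
    have h1 := LinearMap.congr_fun h0 (Θ v)
    rw [LinearMap.comp_apply, LinearEquiv.coe_coe, LinearEquiv.symm_apply_apply] at h1
    exact h1
  obtain ⟨J, 𝒱, Qn, qn, ϖ, hϖ, hϖQ, hlim, hev⟩ :=
    appr_main hl hfgl htd hOℓ hCvO (fun v => (hUC v).symm) hone hQ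
  obtain ⟨q, hq⟩ := r7_ulim 𝒱 qn
  have hqϖ : q (cl ℓ ϖ) = 1 := by
    obtain ⟨j, h1, h2⟩ := ((hq (cl ℓ ϖ)).and hev).exists
    rw [← h1]
    exact h2.2.1
  -- transfer back
  have hback : ∀ j, ∃ A : ValuationSubring K,
      ((∀ z, (Qn j).valuation z = 1 → qn j (cl ℓ z) = 0) ∧ qn j (cl ℓ ϖ) = 1 ∧
        ∃ g₀ : L, ∀ i j' : ZMod ℓ, i • cl ℓ g₀ + j' • cl ℓ (1 - g₀) ∈ U1 ℓ (Qn j) →
          i = 0 ∧ j' = 0) → ∀ z, A.valuation z = 1 → qn j (Θ (cl ℓ z)) = 0 := by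
    intro j
    by_cases hj : (∀ z, (Qn j).valuation z = 1 → qn j (cl ℓ z) = 0) ∧ qn j (cl ℓ ϖ) = 1 ∧
        ∃ g₀ : L, ∀ i j' : ZMod ℓ, i • cl ℓ g₀ + j' • cl ℓ (1 - g₀) ∈ U1 ℓ (Qn j) →
          i = 0 ∧ j' = 0
    · obtain ⟨h1, -, g₀, h2⟩ := hj
      obtain ⟨A, hA, -⟩ := exists_transfer hΘ.symm hnegK (qn j) g₀ fun i j' hij =>
        h2 i j' (H_le_U1 hnegL (Qn j) (qn j) h1 hij)
      exact ⟨A, fun _ z hz => hA z hz⟩
    · exact ⟨⊤, fun h => absurd h hj⟩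
  choose A hA using hback
  set B : ValuationSubring K := Vale.Agent.P019R.extLim 𝒱 A with hB
  have hBu : ∀ z, B.valuation z = 1 → q (Θ (cl ℓ z)) = 0 := by
    intro z hz
    obtain ⟨j, h1, h2, h3⟩ := ((r7_extLim_unit hz).and ((hq (Θ (cl ℓ z))).and hev)).exists
    rw [← h2]
    exact hA j h3 z h1
  -- the limit functional kills the units of the composite ring
  have hqR : ∀ z : L, (comP O Q).valuation z = 1 → q (cl ℓ z) = 0 := by
    intro z hz
    obtain ⟨h0, h1, h2⟩ := apc_val_one.1 hz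
    obtain ⟨j, h4, h5, h6, h7⟩ :=
      ((hlim z h1).and ((hlim _ h2).and ((hq (cl ℓ z)).and hev))).exists
    rw [← h6]
    exact h7.1 z (apc_val_one.2 ⟨h0, h4, h5⟩)
  have hqU1 : ∀ v ∈ U1 ℓ O, q v = 0 := by
    rintro _ ⟨m, hm, rfl⟩
    apply hqR
    have h1 : rs O (1 + m) = 1 := by
      have h2 : m ∈ O := (O.valuation_le_one_iff m).1 hm.le
      rw [rs_add (one_mem _) h2, rs_one, (rs_eq_zero h2).2 hm, add_zero]
    exact r7_comP_unit (val_one_add hm) (by rw [rsP, h1, map_one, map_one])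
  obtain ⟨qP, hqP⟩ := r7_ind hOℓ q hqU1
  have hqPu : ∀ c, Q.valuation c = 1 → qP (cl ℓ c) = 0 :=
    r7_units hOℓ fun z hz hz' => by
      rw [hqP z hz]
      exact hqR z (r7_comP_unit hz hz')
  have hqPne : qP ≠ 0 := by
    intro h0
    have h1 := hqP ϖ hϖ
    rw [h0, LinearMap.zero_apply, hqϖ] at h1
    exact zero_ne_one h1
  obtain ⟨⟨πQ, hπQ⟩, -⟩ := hCvO.place hQ
  have hkerQ := apc_ker_of_unif hπQ qP hqPu hqPne
  -- the functional on `K`
  set g : V ℓ K →ₗ[ZMod ℓ] ZMod ℓ := q ∘ₗ Θ.toLinearMap with hg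
  have hga : ∀ v, g v = q (Θ v) := fun v => rfl
  have hgU1 : ∀ v ∈ U1 ℓ W, g v = 0 := fun v hv => hqU1 _ ((hT.iff v).2 hv)
  obtain ⟨z₀, hz₀, hz₀'⟩ : ∃ z, W.valuation z = 1 ∧ g (cl ℓ z) = 1 := by
    have h1 : f (Θ.symm (cl ℓ ϖ)) = 0 := (hUC _).1 (cl_mem_UC hϖ)
    obtain ⟨z, hz, hz'⟩ := mem_UC.1 ((hW.ker _).1 h1)
    refine ⟨z, hz, ?_⟩
    rw [hga, ← hz', LinearEquiv.apply_symm_apply, hqϖ]
  have hlt : B < W := cmp_le g hgU1 hBu ⟨z₀, hz₀, by rw [hz₀']; exact one_ne_zero⟩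
  have hle : B ≤ W := hlt.le
  obtain ⟨P, hP⟩ := Vale.Agent.P019R.ext_exists (rf W) (apc_resVal hle)
  have hPmem : P ∈ Plc (rbarP k W) := by
    refine ⟨(r7_fin hfin).triv P, ?_⟩
    intro htop
    apply hlt.not_ge
    intro z hz
    rw [← apc_mem_resVal hle hz, ← hP, ValuationSubring.mem_comap, htop]
    exact ValuationSubring.mem_top _
  obtain ⟨gP, hgP⟩ := r7_ind hWℓ g hgU1
  have hgPu : ∀ c, P.valuation c = 1 → gP (cl ℓ c) = 0 := by
    refine r7_units hWℓ fun z hz hz' => ?_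
    rw [hgP z hz]
    apply hBu
    have h1 : (apc_resVal hle).valuation (rs W z) = 1 := by
      rw [← hP, Vale.Agent.P019R.ext_comap_eq_one]
      exact hz'
    obtain ⟨-, h2, h3⟩ := apc_val_one.1 h1
    obtain ⟨h4, h5, h6⟩ := apc_val_one.1 hz
    rw [← rs_inv hz] at h3
    exact apc_val_one.2 ⟨h4, (apc_mem_resVal hle h5).1 h2, (apc_mem_resVal hle h6).1 h3⟩
  have hgPne : gP ≠ 0 := by
    intro h0
    have h1 := hgP z₀ hz₀
    rw [h0, LinearMap.zero_apply, hz₀'] at h1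
    exact zero_ne_one h1
  obtain ⟨⟨πP, hπP⟩, -⟩ := hCvW.place hPmem
  have hkerP := apc_ker_of_unif hπP gP hgPu hgPne
  refine ⟨P, hPmem, fun v => ?_⟩
  rw [hkerQ, hkerP]
  have hcomp : qP (ΘP v) = gP v := by
    obtain ⟨z, hz, rfl⟩ := rfp_cl hWℓ v
    have h1 : Θ (cl ℓ z) ∈ UC ℓ O := by
      rw [hUC, LinearEquiv.symm_apply_apply]
      exact (hW.ker _).2 (cl_mem_UC hz)
    obtain ⟨z', hz', hzz⟩ := mem_UC.1 h1
    rw [hΘP z z' hz hz' hzz, hqP z' hz', hgP z hz, hga, hzz]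
  rw [hcomp]

end Vale.Agent.P019P
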